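import Vale.Agent.P123.MathlibUsed

set_option linter.all false

section

section

namespace Vale.Agent.P123

open Complex MeasureTheory Set
open scoped Real

/-- the unit vector with argument `s` -/
noncomputable def ee (s : ℝ) : ℂ := Complex.exp ((s : ℂ) * Complex.I)

/-- A smooth strictly convex bounded domain containing the origin, given by its
support function `h`, with derivative `h1` and radius of curvature `R = h + h''`. -/
structure Dom where
  h : ℝ → ℝ
  h1 : ℝ → ℝ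
  R : ℝ → ℝ
  hasDerivAt_h : ∀ s, HasDerivAt h (h1 s) s
  hasDerivAt_h1 : ∀ s, HasDerivAt h1 (R s - h s) s
  continuous_R : Continuous R
  R_pos : ∀ s, 0 < R s
  h_pos : ∀ s, 0 < h s
  periodic : ∀ s, h (s + 2 * π) = h s

namespace Dom

/-- boundary point with outer normal `ee s` -/
noncomputable def sig (D : Dom) (s : ℝ) : ℂ := ee s * ((D.h s : ℂ) + (D.h1 s : ℂ) * Complex.I)

/-- the closed convex domain -/
def K (D : Dom) : Set ℂ := {z | ∀ s : ℝ, (ee (-s) * z).re ≤ D.h s}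

/-- the open convex domain -/
def Om (D : Dom) : Set ℂ := {z | ∀ s : ℝ, (ee (-s) * z).re < D.h s}

/-- the Cauchy kernel in the parametrization: `dσ / (2π i (σ - z))` -/
noncomputable def N (D : Dom) (s : ℝ) (z : ℂ) : ℂ :=
  (D.R s : ℂ) * ee s / (2 * (π : ℂ) * (D.sig s - z))

/-- the double layer kernel: `(1/π) d arg (σ - z)` -/
noncomputable def k (D : Dom) (s : ℝ) (z : ℂ) : ℝ := 2 * (D.N s z).re

end Dom

end Vale.Agent.P123
end
end

section

section

namespace Vale.Agent.P123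

open Complex MeasureTheory Set
open scoped Real

section ee

theorem ee_add (s t : ℝ) : ee (s + t) = ee s * ee t := by
  unfold ee
  rw [← Complex.exp_add]
  congr 1
  push_cast
  ring

theorem ee_zero : ee 0 = 1 := by simp [ee]

theorem ee_ne_zero (s : ℝ) : ee s ≠ 0 := Complex.exp_ne_zero _

theorem norm_ee (s : ℝ) : ‖ee s‖ = 1 := Complex.norm_exp_ofReal_mul_I s

theorem ee_neg_mul (s : ℝ) : ee (-s) * ee s = 1 := by
  rw [← ee_add]; simp [ee_zero]

theorem ee_mul_neg (s : ℝ) : ee s * ee (-s) = 1 := by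
  rw [← ee_add]; simp [ee_zero]

theorem conj_ee (s : ℝ) : (starRingEnd ℂ) (ee s) = ee (-s) := by
  unfold ee
  rw [← Complex.exp_conj]
  simp only [map_mul, conj_ofReal, conj_I, mul_neg, ofReal_neg, neg_mul]

theorem ee_re (s : ℝ) : (ee s).re = Real.cos s := by
  unfold ee; exact Complex.exp_ofReal_mul_I_re s

theorem ee_im (s : ℝ) : (ee s).im = Real.sin s := by
  unfold ee; exact Complex.exp_ofReal_mul_I_im s

theorem ee_two_pi : ee (2 * π) = 1 := by
  apply Complex.ext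
  · rw [ee_re]; simp
  · rw [ee_im]; simp

theorem ee_periodic (s : ℝ) : ee (s + 2 * π) = ee s := by
  rw [ee_add, ee_two_pi, mul_one]

theorem hasDerivAt_ee (s : ℝ) : HasDerivAt ee (Complex.I * ee s) s := by
  unfold ee
  have h1 : HasDerivAt (fun x : ℝ => (x : ℂ) * Complex.I) (1 * Complex.I) s :=
    (Complex.ofRealCLM.hasDerivAt (x := s)).mul_const Complex.I
  have := h1.cexp
  exact this.congr_deriv (by ring)

theorem hasDerivAt_ee_neg (s : ℝ) : HasDerivAt (fun s => ee (-s)) (-(Complex.I * ee (-s))) s := by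
  have h := (hasDerivAt_ee (-s)).scomp s (hasDerivAt_neg s)
  exact h.congr_deriv (by simp)

theorem continuous_ee : Continuous ee :=
  continuous_iff_continuousAt.2 fun s => (hasDerivAt_ee s).continuousAt

end ee

namespace Dom

variable (D : Dom)

theorem continuous_h : Continuous D.h :=
  continuous_iff_continuousAt.2 fun s => (D.hasDerivAt_h s).continuousAt

theorem continuous_h1 : Continuous D.h1 :=
  continuous_iff_continuousAt.2 fun s => (D.hasDerivAt_h1 s).continuousAt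

theorem h1_periodic (s : ℝ) : D.h1 (s + 2 * π) = D.h1 s := by
  have h2 : HasDerivAt (fun x => D.h (x + 2 * π)) (D.h1 (s + 2 * π)) s := by
    have := (D.hasDerivAt_h (s + 2 * π)).comp_add_const s (2 * π)
    simpa using this
  have h3 : (fun x => D.h (x + 2 * π)) = D.h := funext D.periodic
  rw [h3] at h2
  exact h2.unique (D.hasDerivAt_h s)

theorem R_periodic (s : ℝ) : D.R (s + 2 * π) = D.R s := by
  have h2 : HasDerivAt (fun x => D.h1 (x + 2 * π)) (D.R (s + 2 * π) - D.h (s + 2 * π)) s := by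
    have := (D.hasDerivAt_h1 (s + 2 * π)).comp_add_const s (2 * π)
    simpa using this
  have h3 : (fun x => D.h1 (x + 2 * π)) = D.h1 := funext D.h1_periodic
  rw [h3] at h2
  have := h2.unique (D.hasDerivAt_h1 s)
  rw [D.periodic] at this
  linarith only [this]

theorem sig_periodic (s : ℝ) : D.sig (s + 2 * π) = D.sig s := by
  unfold sig
  rw [ee_periodic, D.periodic, D.h1_periodic]

theorem hasDerivAt_sig (s : ℝ) : HasDerivAt D.sig (Complex.I * (D.R s * ee s)) s := by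
  have h1 : HasDerivAt (fun s => (D.h s : ℂ)) (D.h1 s : ℂ) s := (D.hasDerivAt_h s).ofReal_comp
  have h2 : HasDerivAt (fun s => (D.h1 s : ℂ)) ((D.R s - D.h s : ℝ) : ℂ) s :=
    (D.hasDerivAt_h1 s).ofReal_comp
  have h3 := (hasDerivAt_ee s).mul (h1.add (h2.mul_const Complex.I))
  refine h3.congr_deriv ?_
  simp only [Pi.add_apply]
  push_cast
  linear_combination (ee s * (D.h1 s : ℂ)) * Complex.I_sq

theorem continuous_sig : Continuous D.sig :=
  continuous_iff_continuousAt.2 fun s => (D.hasDerivAt_sig s).continuousAt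

theorem ee_neg_mul_sig (s : ℝ) : ee (-s) * D.sig s = (D.h s : ℂ) + (D.h1 s : ℂ) * Complex.I := by
  unfold sig
  rw [← mul_assoc, ee_neg_mul, one_mul]

theorem re_ee_neg_mul_sig (s : ℝ) : (ee (-s) * D.sig s).re = D.h s := by
  rw [ee_neg_mul_sig]; simp

theorem im_ee_neg_mul_sig (s : ℝ) : (ee (-s) * D.sig s).im = D.h1 s := by
  rw [ee_neg_mul_sig]; simp

/-- slack function `h(t) - Re (e^{-it} z)` -/
noncomputable def gap (z : ℂ) (t : ℝ) : ℝ := D.h t - (ee (-t) * z).re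

theorem hasDerivAt_gap (z : ℂ) (t : ℝ) :
    HasDerivAt (D.gap z) (D.h1 t - (ee (-t) * z).im) t := by
  have h1 : HasDerivAt (fun t => ee (-t) * z) (-(Complex.I * ee (-t)) * z) t :=
    (hasDerivAt_ee_neg t).mul_const z
  have h2 := (Complex.reCLM.hasFDerivAt.comp_hasDerivAt t h1)
  have h3 := (D.hasDerivAt_h t).sub h2
  refine h3.congr_deriv ?_
  simp only [neg_mul, reCLM_apply, neg_re, mul_re, I_re, zero_mul, I_im, one_mul, zero_sub, mul_im, zero_add, neg_sub, sub_neg_eq_add]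

theorem hasDerivAt_gap' (z : ℂ) (t : ℝ) :
    HasDerivAt (fun t => D.h1 t - (ee (-t) * z).im) (D.R t - D.gap z t) t := by
  have h1 : HasDerivAt (fun t => ee (-t) * z) (-(Complex.I * ee (-t)) * z) t :=
    (hasDerivAt_ee_neg t).mul_const z
  have h2 := (Complex.imCLM.hasFDerivAt.comp_hasDerivAt t h1)
  have h3 := (D.hasDerivAt_h1 t).sub h2
  refine h3.congr_deriv ?_
  unfold gap
  simp only [neg_mul, imCLM_apply, neg_im, mul_im, mul_re, I_re, zero_mul, I_im, one_mul, zero_sub, zero_add, neg_add_rev, neg_neg]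
  ring

/-- Sturm type argument: strict positivity of the gap of a boundary point, forward half turn. -/
theorem gap_sig_pos_right (s t : ℝ) (h0 : s < t) (h1 : t ≤ s + π) : 0 < D.gap (D.sig s) t := by
  set z := D.sig s with hz
  let ψ : ℝ → ℝ := fun r => D.gap z r * Real.cos (t - r) +
    (D.h1 r - (ee (-r) * z).im) * Real.sin (t - r)
  have hψ : ∀ r, HasDerivAt ψ (D.R r * Real.sin (t - r)) r := by
    intro r
    have hc : HasDerivAt (fun r => Real.cos (t - r)) (Real.sin (t - r)) r := by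
      have := (Real.hasDerivAt_cos (t - r)).comp r ((hasDerivAt_id r).const_sub t)
      exact this.congr_deriv (by simp)
    have hs : HasDerivAt (fun r => Real.sin (t - r)) (-Real.cos (t - r)) r := by
      have := (Real.hasDerivAt_sin (t - r)).comp r ((hasDerivAt_id r).const_sub t)
      exact this.congr_deriv (by simp only [mul_neg, mul_one])
    have := ((D.hasDerivAt_gap z r).mul hc).add ((D.hasDerivAt_gap' z r).mul hs)
    refine this.congr_deriv ?_
    ring
  have hcont : ContinuousOn ψ (Icc s t) := fun r _ => (hψ r).continuousAt.continuousWithinAt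
  have hmono : StrictMonoOn ψ (Icc s t) := by
    apply strictMonoOn_of_deriv_pos (convex_Icc s t) hcont
    intro r hr
    rw [interior_Icc] at hr
    rw [(hψ r).deriv]
    apply mul_pos (D.R_pos r)
    apply Real.sin_pos_of_pos_of_lt_pi
    · linarith only [hr.2]
    · linarith only [h1, hr.1]
  have h2 := hmono (left_mem_Icc.2 h0.le) (right_mem_Icc.2 h0.le) h0
  have h3 : ψ s = 0 := by
    simp only [ψ, gap]
    rw [hz, D.re_ee_neg_mul_sig, D.im_ee_neg_mul_sig]
    ring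
  have h4 : ψ t = D.gap z t := by
    simp only [mul_im, sub_self, Real.cos_zero, mul_one, Real.sin_zero, mul_zero, add_zero, ψ]
  rw [h3, h4] at h2
  exact h2

theorem gap_sig_pos_left (s t : ℝ) (h0 : t < s) (h1 : s - π ≤ t) : 0 < D.gap (D.sig s) t := by
  set z := D.sig s with hz
  let ψ : ℝ → ℝ := fun r => D.gap z r * Real.cos (t - r) +
    (D.h1 r - (ee (-r) * z).im) * Real.sin (t - r)
  have hψ : ∀ r, HasDerivAt ψ (D.R r * Real.sin (t - r)) r := by
    intro r
    have hc : HasDerivAt (fun r => Real.cos (t - r)) (Real.sin (t - r)) r := by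
      have := (Real.hasDerivAt_cos (t - r)).comp r ((hasDerivAt_id r).const_sub t)
      exact this.congr_deriv (by simp)
    have hs : HasDerivAt (fun r => Real.sin (t - r)) (-Real.cos (t - r)) r := by
      have := (Real.hasDerivAt_sin (t - r)).comp r ((hasDerivAt_id r).const_sub t)
      exact this.congr_deriv (by simp only [mul_neg, mul_one])
    have := ((D.hasDerivAt_gap z r).mul hc).add ((D.hasDerivAt_gap' z r).mul hs)
    refine this.congr_deriv ?_
    ring
  have hcont : ContinuousOn ψ (Icc t s) := fun r _ => (hψ r).continuousAt.continuousWithinAt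
  have hmono : StrictAntiOn ψ (Icc t s) := by
    apply strictAntiOn_of_deriv_neg (convex_Icc t s) hcont
    intro r hr
    rw [interior_Icc] at hr
    rw [(hψ r).deriv]
    apply mul_neg_of_pos_of_neg (D.R_pos r)
    apply Real.sin_neg_of_neg_of_neg_pi_lt
    · linarith only [hr.1]
    · linarith only [h1, hr.2]
  have h2 := hmono (left_mem_Icc.2 h0.le) (right_mem_Icc.2 h0.le) h0
  have h3 : ψ s = 0 := by
    simp only [ψ, gap]
    rw [hz, D.re_ee_neg_mul_sig, D.im_ee_neg_mul_sig]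
    ring
  have h4 : ψ t = D.gap z t := by
    simp only [mul_im, sub_self, Real.cos_zero, mul_one, Real.sin_zero, mul_zero, add_zero, ψ]
  rw [h3, h4] at h2
  exact h2

theorem gap_periodic (z : ℂ) (t : ℝ) : D.gap z (t + 2 * π) = D.gap z t := by
  unfold gap
  rw [D.periodic]
  have : ee (-(t + 2 * π)) = ee (-t) := by
    have := ee_periodic (-(t + 2 * π))
    rw [← this]
    congr 1
    ring
  rw [this]

theorem gap_sig_self (s : ℝ) : D.gap (D.sig s) s = 0 := by
  unfold gap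
  rw [D.re_ee_neg_mul_sig]; ring

/-- strict positivity of the gap for all other parameters in a full turn -/
theorem gap_sig_pos (s t : ℝ) (h0 : s < t) (h1 : t < s + 2 * π) : 0 < D.gap (D.sig s) t := by
  rcases le_total t (s + π) with h | h
  · exact D.gap_sig_pos_right s t h0 h
  · have := D.gap_sig_pos_left (s + 2 * π) t h1 (by linarith only [h])
    rwa [D.sig_periodic] at this

theorem gap_sig_nonneg (s t : ℝ) : 0 ≤ D.gap (D.sig s) t := by
  -- reduce `t` modulo `2π` to `[s, s + 2π)`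
  have hp : Function.Periodic (D.gap (D.sig s)) (2 * π) := fun x => D.gap_periodic _ x
  obtain ⟨y, hy, hy'⟩ := hp.exists_mem_Ico₀ Real.two_pi_pos t |> fun _ =>
    hp.exists_mem_Ico Real.two_pi_pos t s
  rw [hy']
  rcases eq_or_lt_of_le hy.1 with h | h
  · rw [← h, D.gap_sig_self]
  · exact (D.gap_sig_pos s y h hy.2).le

theorem sig_mem_K (s : ℝ) : D.sig s ∈ D.K := by
  intro t
  have := D.gap_sig_nonneg s t
  unfold gap at this
  linarith

theorem mem_K_iff (z : ℂ) : z ∈ D.K ↔ ∀ t, 0 ≤ D.gap z t := by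
  unfold K gap
  simp only [mul_re, tsub_le_iff_right, mem_ofPred_eq, sub_nonneg]

theorem mem_Om_iff (z : ℂ) : z ∈ D.Om ↔ ∀ t, 0 < D.gap z t := by
  unfold Om gap
  simp only [mul_re, mem_ofPred_eq, sub_pos]

theorem Om_subset_K : D.Om ⊆ D.K := fun _ hz s => (hz s).le

theorem eq_sig_of_gap_eq_zero {z : ℂ} (hz : z ∈ D.K) {s : ℝ} (hs : D.gap z s = 0) :
    z = D.sig s := by
  rw [D.mem_K_iff] at hz
  have hmin : IsLocalMin (D.gap z) s := by
    apply Filter.Eventually.of_forall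
    intro t
    rw [hs]; exact hz t
  have hd := hmin.hasDerivAt_eq_zero (D.hasDerivAt_gap z s)
  have h1 : ee (-s) * z = (D.h s : ℂ) + (D.h1 s : ℂ) * Complex.I := by
    apply Complex.ext
    · simp only [Complex.add_re, Complex.ofReal_re, Complex.mul_re, Complex.I_re, mul_zero,
        Complex.ofReal_im, Complex.I_im, mul_one, sub_zero, add_zero]
      unfold gap at hs
      simp only [Complex.mul_re] at hs
      linarith only [hs]
    · simp only [Complex.add_im, Complex.ofReal_im, Complex.mul_im, Complex.I_re, mul_zero,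
        Complex.ofReal_re, Complex.I_im, mul_one, zero_add, add_zero]
      simp only [Complex.mul_im] at hd
      linarith
  unfold sig
  rw [← h1, ← mul_assoc, ee_mul_neg, one_mul]

theorem mem_Om_or_range {z : ℂ} (hz : z ∈ D.K) : z ∈ D.Om ∨ ∃ s, z = D.sig s := by
  by_cases h : ∃ s, D.gap z s = 0
  · obtain ⟨s, hs⟩ := h
    exact Or.inr ⟨s, D.eq_sig_of_gap_eq_zero hz hs⟩
  · left
    push Not at h
    rw [D.mem_Om_iff]
    intro t
    exact lt_of_le_of_ne ((D.mem_K_iff z).1 hz t) (h t).symm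

theorem sig_not_mem_Om (s : ℝ) : D.sig s ∉ D.Om := by
  intro h
  rw [D.mem_Om_iff] at h
  have := h s
  rw [D.gap_sig_self] at this
  exact lt_irrefl _ this

/-! topology of the domain -/

theorem gap_convex_comb (z w : ℂ) (a b : ℝ) (hab : a + b = 1) (t : ℝ) :
    D.gap (a • z + b • w) t = a * D.gap z t + b * D.gap w t := by
  unfold gap
  have : (ee (-t) * (a • z + b • w)).re = a * (ee (-t) * z).re + b * (ee (-t) * w).re := by
    simp only [mul_add, Complex.add_re, Complex.real_smul, Complex.mul_re, Complex.mul_im,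
      Complex.ofReal_re, Complex.ofReal_im]
    ring
  rw [this]
  have hb : b = 1 - a := by linarith only [hab]
  subst hb
  ring

theorem convex_K : Convex ℝ D.K := by
  intro z hz w hw a b ha hb hab
  rw [D.mem_K_iff] at *
  intro t
  rw [D.gap_convex_comb z w a b hab]
  have := hz t
  have := hw t
  positivity

theorem isClosed_K : IsClosed D.K := by
  have : D.K = ⋂ s : ℝ, {z : ℂ | (ee (-s) * z).re ≤ D.h s} := by
    ext z; simp only [K, mul_re, tsub_le_iff_right, mem_ofPred_eq, mem_iInter]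
  rw [this]
  apply isClosed_iInter
  intro s
  exact isClosed_le (Complex.continuous_re.comp (continuous_const.mul continuous_id))
    continuous_const

theorem exists_h_le : ∃ C : ℝ, 0 < C ∧ ∀ s, D.h s ≤ C := by
  obtain ⟨C, hC⟩ := (isCompact_Icc (a := (0 : ℝ)) (b := 2 * π)).bddAbove_image
    D.continuous_h.continuousOn
  refine ⟨max C 1, by positivity, fun s => ?_⟩
  have hp : Function.Periodic D.h (2 * π) := D.periodic
  obtain ⟨y, hy, hy'⟩ := hp.exists_mem_Ico₀ Real.two_pi_pos s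
  rw [hy']
  exact le_trans (hC ⟨y, ⟨hy.1, hy.2.le⟩, rfl⟩) (le_max_left _ _)

theorem norm_le_of_mem_K {C : ℝ} (hC : ∀ s, D.h s ≤ C) {z : ℂ} (hz : z ∈ D.K) : ‖z‖ ≤ C := by
  have h1 := hz (Complex.arg z)
  have h2 : ee (-Complex.arg z) * z = (‖z‖ : ℂ) := by
    have h3 : z = (‖z‖ : ℂ) * ee (Complex.arg z) := (Complex.norm_mul_exp_arg_mul_I z).symm
    calc ee (-Complex.arg z) * z = ee (-Complex.arg z) * ((‖z‖ : ℂ) * ee (Complex.arg z)) := by
          rw [← h3]
      _ = (‖z‖ : ℂ) * (ee (-Complex.arg z) * ee (Complex.arg z)) := by ring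
      _ = (‖z‖ : ℂ) := by rw [ee_neg_mul, mul_one]
  rw [h2] at h1
  simp only [Complex.ofReal_re] at h1
  exact h1.trans (hC _)

theorem isCompact_K : IsCompact D.K := by
  obtain ⟨C, -, hC⟩ := D.exists_h_le
  apply Metric.isCompact_of_isClosed_isBounded D.isClosed_K
  rw [isBounded_iff_forall_norm_le]
  exact ⟨C, fun z hz => D.norm_le_of_mem_K hC hz⟩

theorem continuous_gap : Continuous (fun q : ℂ × ℝ => D.gap q.1 q.2) := by
  unfold gap
  apply (D.continuous_h.comp continuous_snd).sub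
  exact Complex.continuous_re.comp ((continuous_ee.comp continuous_snd.neg).mul continuous_fst)

/-- uniform lower bound of the gap for interior points -/
theorem exists_gap_ge {z : ℂ} (hz : z ∈ D.Om) : ∃ c : ℝ, 0 < c ∧ ∀ t, c ≤ D.gap z t := by
  have hc : Continuous (D.gap z) := D.continuous_gap.comp (Continuous.prodMk_right z)
  obtain ⟨t0, -, ht0⟩ := (isCompact_Icc (a := (0 : ℝ)) (b := 2 * π)).exists_isMinOn
    (nonempty_Icc.2 Real.two_pi_pos.le) hc.continuousOn
  refine ⟨D.gap z t0, (D.mem_Om_iff z).1 hz t0, fun t => ?_⟩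
  have hp : Function.Periodic (D.gap z) (2 * π) := fun x => D.gap_periodic _ x
  obtain ⟨y, hy, hy'⟩ := hp.exists_mem_Ico₀ Real.two_pi_pos t
  rw [hy']
  exact ht0 ⟨hy.1, hy.2.le⟩

theorem gap_sub (z w : ℂ) (t : ℝ) : D.gap w t = D.gap z t - (ee (-t) * (w - z)).re := by
  unfold gap
  rw [mul_sub, Complex.sub_re]; ring

theorem abs_re_ee_mul_le (t : ℝ) (w : ℂ) : |(ee t * w).re| ≤ ‖w‖ := by
  calc |(ee t * w).re| ≤ ‖ee t * w‖ := Complex.abs_re_le_norm _
    _ = ‖w‖ := by rw [norm_mul, norm_ee, one_mul]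

theorem gap_sub_le (z w : ℂ) (t : ℝ) : D.gap z t - ‖w - z‖ ≤ D.gap w t := by
  rw [D.gap_sub z w]
  have := abs_re_ee_mul_le (-t) (w - z)
  have := (abs_le.1 this).2
  linarith

theorem isOpen_Om : IsOpen D.Om := by
  rw [Metric.isOpen_iff]
  intro z hz
  obtain ⟨c, hc, hcz⟩ := D.exists_gap_ge hz
  refine ⟨c, hc, fun w hw => ?_⟩
  rw [D.mem_Om_iff]
  intro t
  have h1 := D.gap_sub_le z w t
  have h2 := hcz t
  rw [Metric.mem_ball, dist_eq_norm] at hw
  linarith

theorem zero_mem_Om : (0 : ℂ) ∈ D.Om := by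
  intro s
  simp [D.h_pos s]

/-- if `z ∈ Om`, `w ∈ K` then the half open segment lies in `Om` -/
theorem combo_mem_Om {z w : ℂ} (hz : z ∈ D.Om) (hw : w ∈ D.K) {a b : ℝ} (ha : 0 < a) (hb : 0 ≤ b)
    (hab : a + b = 1) : a • z + b • w ∈ D.Om := by
  rw [D.mem_Om_iff] at *
  rw [D.mem_K_iff] at hw
  intro t
  rw [D.gap_convex_comb z w a b hab]
  have := hz t
  have := hw t
  positivity

theorem smul_mem_Om {w : ℂ} (hw : w ∈ D.K) {r : ℝ} (h0 : 0 ≤ r) (h1 : r < 1) :
    (r : ℂ) * w ∈ D.Om := by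
  have := D.combo_mem_Om D.zero_mem_Om hw (a := 1 - r) (b := r) (by linarith) h0 (by ring)
  simpa using this

theorem smul_mem_K {w : ℂ} (hw : w ∈ D.K) {r : ℝ} (h0 : 0 ≤ r) (h1 : r ≤ 1) :
    (r : ℂ) * w ∈ D.K := by
  rcases eq_or_lt_of_le h1 with h | h
  · subst h; simpa using hw
  · exact D.Om_subset_K (D.smul_mem_Om hw h0 h)

theorem closure_Om : closure D.Om = D.K := by
  apply Subset.antisymm
  · exact closure_minimal D.Om_subset_K D.isClosed_K
  · intro z hz
    have h1 : Filter.Tendsto (fun r : ℝ => (r : ℂ) * z) (nhdsWithin 1 (Iio 1)) (nhds z) := by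
      have : Continuous (fun r : ℝ => (r : ℂ) * z) := Complex.continuous_ofReal.mul continuous_const
      have h2 := (this.tendsto 1).mono_left (nhdsWithin_le_nhds (s := Iio (1:ℝ)))
      simpa only [ofReal_one, one_mul] using h2
    apply mem_closure_of_tendsto h1
    have h3 : Ioo (0:ℝ) 1 ∈ nhdsWithin (1:ℝ) (Iio 1) := Ioo_mem_nhdsLT one_pos
    filter_upwards [h3] with r hr
    exact D.smul_mem_Om hz hr.1.le hr.2

theorem frontier_Om_subset : frontier D.Om ⊆ range D.sig := by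
  intro z hz
  rw [frontier, D.closure_Om, D.isOpen_Om.interior_eq] at hz
  rcases D.mem_Om_or_range hz.1 with h | ⟨s, hs⟩
  · exact absurd h hz.2
  · exact ⟨s, hs.symm⟩

theorem isBounded_Om : Bornology.IsBounded D.Om :=
  D.isCompact_K.isBounded.subset D.Om_subset_K

/-- a point outside `K` violates one support inequality strictly -/
theorem exists_gap_neg {p : ℂ} (hp : p ∉ D.K) : ∃ t, D.gap p t < 0 := by
  rw [D.mem_K_iff] at hp
  push Not at hp
  exact hp

theorem sig_ne_of_mem_Om {z : ℂ} (hz : z ∈ D.Om) (s : ℝ) : D.sig s - z ≠ 0 := by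
  intro h
  rw [sub_eq_zero] at h
  rw [← h] at hz
  exact D.sig_not_mem_Om s hz

theorem sig_ne_of_not_mem_K {p : ℂ} (hp : p ∉ D.K) (s : ℝ) : D.sig s - p ≠ 0 := by
  intro h
  rw [sub_eq_zero] at h
  rw [← h] at hp
  exact hp (D.sig_mem_K s)

theorem sig_sub_ne {s t : ℝ} (h0 : s < t) (h1 : t < s + 2 * π) : D.sig t - D.sig s ≠ 0 := by
  intro h
  rw [sub_eq_zero] at h
  have h2 := D.gap_sig_pos s t h0 h1
  rw [← h, D.gap_sig_self] at h2
  exact lt_irrefl _ h2

/-! the kernel -/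

theorem re_ee_neg_mul_sig_sub (s : ℝ) (z : ℂ) : (ee (-s) * (D.sig s - z)).re = D.gap z s := by
  rw [mul_sub, Complex.sub_re, D.re_ee_neg_mul_sig]; rfl

theorem k_eq (s : ℝ) (z : ℂ) :
    D.k s z = D.R s / π * (D.gap z s / ‖D.sig s - z‖ ^ 2) := by
  unfold k N
  by_cases hz : D.sig s - z = 0
  · simp only [hz, mul_zero, div_zero, zero_re, norm_zero, ne_eq, OfNat.ofNat_ne_zero, not_false_eq_true, zero_pow]
  have h1 : (D.R s : ℂ) * ee s / (2 * (π : ℂ) * (D.sig s - z)) =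
      ((D.R s / (2 * π) : ℝ) : ℂ) * (ee s / (D.sig s - z)) := by
    push_cast
    field_simp
  rw [h1, Complex.re_ofReal_mul]
  have h2 : (ee s / (D.sig s - z)).re = D.gap z s / ‖D.sig s - z‖ ^ 2 := by
    rw [← D.re_ee_neg_mul_sig_sub]
    rw [Complex.div_re, ← Complex.normSq_eq_norm_sq]
    rw [← conj_ee]
    simp only [Complex.mul_re, Complex.conj_re, Complex.conj_im]
    ring
  rw [h2]
  have : (π : ℝ) ≠ 0 := Real.pi_ne_zero
  (clear * - hz this; (clear * - hz this; field_simp))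

theorem k_nonneg {z : ℂ} (hz : z ∈ D.K) (s : ℝ) : 0 ≤ D.k s z := by
  rw [D.k_eq]
  have h1 := (D.mem_K_iff z).1 hz s
  have h2 := D.R_pos s
  have := Real.pi_pos
  (clear * - h2 h1; positivity)

theorem norm_N (s : ℝ) (z : ℂ) : ‖D.N s z‖ = D.R s / (2 * π * ‖D.sig s - z‖) := by
  unfold N
  rw [norm_div, norm_mul, norm_mul, norm_mul, norm_ee, Complex.norm_real, Complex.norm_real,
    Real.norm_of_nonneg (D.R_pos s).le, Real.norm_of_nonneg Real.pi_pos.le]
  simp only [mul_one, norm_ofNat]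

end Dom

end Vale.Agent.P123
end
end

section

section

namespace Vale.Agent.P123

open Complex MeasureTheory Set Filter Topology
open scoped Real

namespace Dom

variable (D : Dom)

theorem pi_ne_zero_C : (π : ℂ) ≠ 0 := by exact_mod_cast Real.pi_ne_zero

theorem continuousAt_N {s : ℝ} {z : ℂ} (h : D.sig s - z ≠ 0) : ContinuousAt (fun s => D.N s z) s := by
  unfold N
  apply ContinuousAt.div
  · exact ((Complex.continuous_ofReal.comp D.continuous_R).mul continuous_ee).continuousAt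
  · exact (continuous_const.mul (D.continuous_sig.sub continuous_const)).continuousAt
  · have := pi_ne_zero_C
    exact mul_ne_zero (mul_ne_zero two_ne_zero this) h

theorem N_periodic (s : ℝ) (z : ℂ) : D.N (s + 2 * π) z = D.N s z := by
  unfold N
  rw [D.R_periodic, ee_periodic, D.sig_periodic]

theorem k_periodic (s : ℝ) (z : ℂ) : D.k (s + 2 * π) z = D.k s z := by
  unfold k
  rw [D.N_periodic]

/-- logarithmic derivative with a rotation: if `w = c (sig - p)` then `w'/w = 2 π i N`. -/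
theorem hasDerivAt_log_aux {c p : ℂ} (s : ℝ) (hw : c * (D.sig s - p) ∈ Complex.slitPlane) :
    HasDerivAt (fun s => Complex.log (c * (D.sig s - p))) (2 * π * Complex.I * D.N s p) s := by
  have h1 : HasDerivAt (fun s => c * (D.sig s - p)) (c * (Complex.I * (D.R s * ee s))) s :=
    ((D.hasDerivAt_sig s).sub_const p).const_mul c
  have h2 := h1.clog_real hw
  refine h2.congr_deriv ?_
  have h3 : c * (D.sig s - p) ≠ 0 := Complex.slitPlane_ne_zero hw
  have hc : c ≠ 0 := left_ne_zero_of_mul h3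
  have hp : D.sig s - p ≠ 0 := right_ne_zero_of_mul h3
  unfold N
  have := pi_ne_zero_C
  (clear * - hc this hp; field_simp)

theorem integral_N_of_not_mem_K {p : ℂ} (hp : p ∉ D.K) :
    ∫ s in (0:ℝ)..(2*π), D.N s p = 0 := by
  obtain ⟨t0, ht0⟩ := D.exists_gap_neg hp
  have hre : ∀ s, -ee (-t0) * (D.sig s - p) ∈ Complex.slitPlane := by
    intro s
    left
    have h1 := D.sig_mem_K s t0
    unfold gap at ht0
    have : (-ee (-t0) * (D.sig s - p)).re = (ee (-t0) * p).re - (ee (-t0) * D.sig s).re := by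
      simp only [Complex.mul_re, Complex.sub_re, Complex.sub_im, Complex.neg_re, Complex.neg_im]
      ring
    rw [this]
    linarith only [ht0, h1]
  have hd : ∀ s ∈ uIcc (0:ℝ) (2*π), HasDerivAt
      (fun s => (1 / (2 * π * Complex.I)) * Complex.log (-ee (-t0) * (D.sig s - p))) (D.N s p) s := by
    intro s _
    have h := (D.hasDerivAt_log_aux s (hre s)).const_mul (1 / (2 * π * Complex.I))
    refine h.congr_deriv ?_
    have := pi_ne_zero_C
    have := Complex.I_ne_zero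
    (clear hp t0 ht0 hre h; field_simp)
  have hint : IntervalIntegrable (fun s => D.N s p) volume 0 (2*π) := by
    apply Continuous.intervalIntegrable
    exact continuous_iff_continuousAt.2 fun s => D.continuousAt_N (D.sig_ne_of_not_mem_K hp s)
  rw [intervalIntegral.integral_eq_sub_of_hasDerivAt hd hint]
  have : D.sig (2 * π) = D.sig 0 := by
    have := D.sig_periodic 0
    rwa [zero_add] at this
  rw [this, sub_self]

theorem integral_N_of_mem_Om {z : ℂ} (hz : z ∈ D.Om) :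
    ∫ s in (0:ℝ)..(2*π), D.N s z = 1 := by
  let q : ℝ → ℂ := fun s => ee (-s) * (D.sig s - z)
  have hq : ∀ s, q s ∈ Complex.slitPlane := by
    intro s
    left
    show 0 < (ee (-s) * (D.sig s - z)).re
    rw [D.re_ee_neg_mul_sig_sub]
    exact (D.mem_Om_iff z).1 hz s
  have hd : ∀ s ∈ uIcc (0:ℝ) (2*π), HasDerivAt
      (fun s : ℝ => (s : ℂ) / (2 * π) + (1 / (2 * π * Complex.I)) * Complex.log (q s)) (D.N s z) s := by
    intro s _
    have h1 : HasDerivAt q (-(Complex.I * ee (-s)) * (D.sig s - z) +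
        ee (-s) * (Complex.I * (D.R s * ee s))) s :=
      (hasDerivAt_ee_neg s).mul ((D.hasDerivAt_sig s).sub_const z)
    have h2 := (h1.clog_real (hq s)).const_mul (1 / (2 * π * Complex.I))
    have h3 : HasDerivAt (fun s : ℝ => (s : ℂ) / (2 * π)) (1 / (2 * π)) s :=
      (Complex.ofRealCLM.hasDerivAt (x := s)).div_const (2 * π)
    have h4 := h3.add h2
    refine h4.congr_deriv ?_
    have hqne : q s ≠ 0 := Complex.slitPlane_ne_zero (hq s)
    have hz' : D.sig s - z ≠ 0 := D.sig_ne_of_mem_Om hz s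
    have he : ee (-s) ≠ 0 := ee_ne_zero _
    have := pi_ne_zero_C
    have hI := Complex.I_ne_zero
    have hee : ee s = (ee (-s))⁻¹ := eq_inv_of_mul_eq_one_left (ee_mul_neg s)
    unfold N
    simp only [q]
    rw [hee]
    field_simp
    ring
  have hint : IntervalIntegrable (fun s => D.N s z) volume 0 (2*π) := by
    apply Continuous.intervalIntegrable
    exact continuous_iff_continuousAt.2 fun s => D.continuousAt_N (D.sig_ne_of_mem_Om hz s)
  rw [intervalIntegral.integral_eq_sub_of_hasDerivAt hd hint]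
  have h5 : q (2 * π) = q 0 := by
    simp only [q]
    have h6 : D.sig (2 * π) = D.sig 0 := by
      have := D.sig_periodic 0
      rwa [zero_add] at this
    have h7 : ee (-(2 * π)) = ee (-0) := by
      have := ee_periodic (-(2 * π))
      rw [← this]; congr 1; ring
    rw [h6, h7]
  rw [h5]
  have := pi_ne_zero_C
  push_cast
  field_simp
  ring

/-- double layer mass at interior points -/
theorem integral_k_of_mem_Om {z : ℂ} (hz : z ∈ D.Om) :
    ∫ s in (0:ℝ)..(2*π), D.k s z = 2 := by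
  have hcont : Continuous (fun s => D.N s z) :=
    continuous_iff_continuousAt.2 fun s => D.continuousAt_N (D.sig_ne_of_mem_Om hz s)
  have h1 : ∫ s in (0:ℝ)..(2*π), (D.N s z).re = 1 := by
    have h2 := Complex.reCLM.intervalIntegral_comp_comm
      (hcont.intervalIntegrable (μ := volume) 0 (2*π))
    simp only [Complex.reCLM_apply] at h2
    rw [h2, D.integral_N_of_mem_Om hz]
    simp
  unfold k
  rw [intervalIntegral.integral_const_mul, h1, mul_one]

/-! boundary points -/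

/-- the rotated direction from `sig t` to `sig s`; it lies in the open right half plane for
`t < s < t + 2π`. -/
noncomputable def dir (t s : ℝ) : ℂ := -ee (-t) * (D.sig s - D.sig t)

theorem dir_re (t s : ℝ) : (D.dir t s).re = D.gap (D.sig s) t := by
  unfold dir gap
  have h1 := D.re_ee_neg_mul_sig t
  simp only [Complex.mul_re] at h1
  simp only [Complex.mul_re, Complex.sub_re, Complex.sub_im, Complex.neg_re, Complex.neg_im]
  linarith only [h1]

theorem dir_re_pos {t s : ℝ} (h0 : t < s) (h1 : s < t + 2 * π) : 0 < (D.dir t s).re := by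
  rw [dir_re]
  have := D.gap_sig_pos s (t + 2 * π) h1 (by linarith)
  rwa [D.gap_periodic] at this

/-- the angle of the chord from `sig t` to `sig s`, in `(-π/2, π/2)` -/
noncomputable def ang (t s : ℝ) : ℝ := Complex.arg (D.dir t s)

theorem hasDerivAt_ang {t s : ℝ} (h0 : t < s) (h1 : s < t + 2 * π) :
    HasDerivAt (D.ang t) (π * D.k s (D.sig t)) s := by
  have hs : D.dir t s ∈ Complex.slitPlane := Or.inl (D.dir_re_pos h0 h1)
  have h2 := D.hasDerivAt_log_aux s hs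
  have h3 := Complex.imCLM.hasFDerivAt.comp_hasDerivAt s h2
  have h4 : (Complex.imCLM ∘ fun s => Complex.log (-ee (-t) * (D.sig s - D.sig t))) = D.ang t := by
    ext x
    simp only [Function.comp_apply, Complex.imCLM_apply, Complex.log_im]
    rfl
  rw [h4] at h3
  refine h3.congr_deriv ?_
  unfold k
  simp
  ring

theorem ang_mem {t s : ℝ} (h0 : t < s) (h1 : s < t + 2 * π) :
    D.ang t s ∈ Ioo (-(π / 2)) (π / 2) := by
  have h2 := D.dir_re_pos h0 h1
  have := Complex.abs_arg_lt_pi_div_two_iff.2 (Or.inl h2)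
  exact abs_lt.1 this

theorem tendsto_ang_left (t : ℝ) : Tendsto (D.ang t) (𝓝[>] t) (𝓝 (-(π / 2))) := by
  have h1 : HasDerivAt (D.dir t) (-(Complex.I * D.R t)) t := by
    have := ((D.hasDerivAt_sig t).sub_const (D.sig t)).const_mul (-ee (-t))
    refine this.congr_deriv ?_
    have h2 := ee_neg_mul t
    linear_combination (-(Complex.I * (D.R t : ℂ))) * h2
  have h2 := h1.tendsto_slope
  have h3 : Tendsto (fun s => Complex.arg (slope (D.dir t) t s)) (𝓝[≠] t)
      (𝓝 (Complex.arg (-(Complex.I * D.R t)))) := by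
    refine (Complex.continuousAt_arg ?_).tendsto.comp h2
    right
    simp [(D.R_pos t).ne']
  have h4 : Complex.arg (-(Complex.I * D.R t)) = -(π / 2) := by
    have : -(Complex.I * (D.R t : ℂ)) = (D.R t : ℂ) * (-Complex.I) := by ring
    rw [this, Complex.arg_real_mul _ (D.R_pos t), Complex.arg_neg_I]
  rw [h4] at h3
  have h5 := h3.mono_left (nhdsWithin_mono t (fun x (hx : x ∈ Ioi t) => ne_of_gt hx))
  refine h5.congr' ?_
  filter_upwards [self_mem_nhdsWithin] with s hs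
  have hs' : 0 < (s - t)⁻¹ := inv_pos.2 (sub_pos.2 hs)
  have h6 : slope (D.dir t) t s = ((s - t)⁻¹ : ℝ) * D.dir t s := by
    have : D.dir t t = 0 := by simp only [dir, sub_self, mul_zero]
    simp only [slope, this, vsub_eq_sub, sub_zero, real_smul, ofReal_inv, ofReal_sub]
  rw [h6, Complex.arg_real_mul _ hs']
  rfl

theorem tendsto_ang_right (t : ℝ) : Tendsto (D.ang t) (𝓝[<] (t + 2 * π)) (𝓝 (π / 2)) := by
  have hR : D.R (t + 2 * π) = D.R t := D.R_periodic t
  have h0 : D.dir t (t + 2 * π) = 0 := by simp only [dir, D.sig_periodic, sub_self, mul_zero]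
  have h1 : HasDerivAt (D.dir t) (-(Complex.I * D.R t)) (t + 2 * π) := by
    have := ((D.hasDerivAt_sig (t + 2 * π)).sub_const (D.sig t)).const_mul (-ee (-t))
    refine this.congr_deriv ?_
    rw [hR, ee_periodic]
    have h2 := ee_neg_mul t
    linear_combination (-(Complex.I * (D.R t : ℂ))) * h2
  have h2 := h1.tendsto_slope
  have h3 : Tendsto (fun s => Complex.arg (-slope (D.dir t) (t + 2 * π) s)) (𝓝[≠] (t + 2 * π))
      (𝓝 (Complex.arg (-(-(Complex.I * D.R t))))) := by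
    have h2' := h2.neg
    refine (Complex.continuousAt_arg ?_).tendsto.comp h2'
    right
    simp [(D.R_pos t).ne']
  have h4 : Complex.arg (-(-(Complex.I * D.R t))) = π / 2 := by
    have : -(-(Complex.I * (D.R t : ℂ))) = (D.R t : ℂ) * Complex.I := by ring
    rw [this, Complex.arg_real_mul _ (D.R_pos t), Complex.arg_I]
  rw [h4] at h3
  have h5 := h3.mono_left (nhdsWithin_mono (t + 2 * π)
    (fun x (hx : x ∈ Iio (t + 2 * π)) => ne_of_lt hx))
  refine h5.congr' ?_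
  filter_upwards [self_mem_nhdsWithin] with s hs
  have hs0 : s < t + 2 * π := hs
  have hs' : 0 < (t + 2 * π - s)⁻¹ := inv_pos.2 (sub_pos.2 hs0)
  have h6 : -slope (D.dir t) (t + 2 * π) s = ((t + 2 * π - s)⁻¹ : ℝ) * D.dir t s := by
    simp only [slope, h0, vsub_eq_sub, sub_zero, Complex.real_smul]
    have : (s - (t + 2 * π))⁻¹ = -(t + 2 * π - s)⁻¹ := by
      rw [← neg_sub, inv_neg]
    rw [this]
    push_cast
    ring
  rw [h6, Complex.arg_real_mul _ hs']
  rfl

/-- extended angle function, continuous on the closed full turn -/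
noncomputable def Ang (t s : ℝ) : ℝ :=
  if s ≤ t then -(π / 2) else if t + 2 * π ≤ s then π / 2 else D.ang t s

theorem Ang_of_mem {t s : ℝ} (h0 : t < s) (h1 : s < t + 2 * π) : D.Ang t s = D.ang t s := by
  unfold Ang
  rw [if_neg (not_le.2 h0), if_neg (not_le.2 h1)]

theorem Ang_left (t : ℝ) : D.Ang t t = -(π / 2) := by
  unfold Ang; simp

theorem Ang_right (t : ℝ) : D.Ang t (t + 2 * π) = π / 2 := by
  unfold Ang
  have := Real.two_pi_pos
  rw [if_neg (by linarith only [this]), if_pos le_rfl]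

theorem hasDerivAt_Ang {t s : ℝ} (h0 : t < s) (h1 : s < t + 2 * π) :
    HasDerivAt (D.Ang t) (π * D.k s (D.sig t)) s := by
  refine (D.hasDerivAt_ang h0 h1).congr_of_eventuallyEq ?_
  filter_upwards [Ioo_mem_nhds h0 h1] with x hx
  exact D.Ang_of_mem hx.1 hx.2

theorem continuousOn_Ang (t : ℝ) : ContinuousOn (D.Ang t) (Icc t (t + 2 * π)) := by
  have h2 := Real.two_pi_pos
  intro s hs
  rcases eq_or_lt_of_le hs.1 with h | h
  · subst h
    have h3 : Tendsto (D.Ang t) (𝓝[>] t) (𝓝 (D.Ang t t)) := by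
      rw [D.Ang_left]
      refine (D.tendsto_ang_left t).congr' ?_
      filter_upwards [Ioo_mem_nhdsGT (show t < t + 2 * π by linarith)] with x hx
      exact (D.Ang_of_mem hx.1 hx.2).symm
    have h4 : ContinuousWithinAt (D.Ang t) (Ioi t) t := h3
    have h5 := h4.insert
    exact h5.mono (fun x hx => by
      rcases eq_or_lt_of_le hx.1 with h | h
      · left; exact h.symm
      · right; exact h)
  rcases eq_or_lt_of_le hs.2 with h' | h'
  · subst h'
    have h3 : Tendsto (D.Ang t) (𝓝[<] (t + 2 * π)) (𝓝 (D.Ang t (t + 2 * π))) := by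
      rw [D.Ang_right]
      refine (D.tendsto_ang_right t).congr' ?_
      filter_upwards [Ioo_mem_nhdsLT (show t < t + 2 * π by linarith only [h2])] with x hx
      exact (D.Ang_of_mem hx.1 hx.2).symm
    have h4 : ContinuousWithinAt (D.Ang t) (Iio (t + 2 * π)) (t + 2 * π) := h3
    have h5 := h4.insert
    exact h5.mono (fun x hx => by
      rcases eq_or_lt_of_le hx.2 with h | h
      · left; exact h
      · right; exact h)
  · exact (D.hasDerivAt_Ang h h').continuousAt.continuousWithinAt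

theorem intervalIntegrable_k_arc {t s1 s2 : ℝ} (h0 : t ≤ s1) (h12 : s1 ≤ s2)
    (h1 : s2 ≤ t + 2 * π) : IntervalIntegrable (fun s => D.k s (D.sig t)) volume s1 s2 := by
  have h3 : IntervalIntegrable (fun s => π * D.k s (D.sig t)) volume s1 s2 := by
    apply intervalIntegral.intervalIntegrable_deriv_of_nonneg (g := D.Ang t)
    · rw [uIcc_of_le h12]
      exact (D.continuousOn_Ang t).mono (Icc_subset_Icc h0 h1)
    · intro x hx
      rw [min_eq_left h12, max_eq_right h12] at hx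
      exact D.hasDerivAt_Ang (lt_of_le_of_lt h0 hx.1) (lt_of_lt_of_le hx.2 h1)
    · intro x _
      have := D.k_nonneg (D.sig_mem_K t) x
      have := Real.pi_pos
      positivity
  have h4 := h3.const_mul (π⁻¹)
  refine h4.congr ?_
  intro x _
  have := Real.pi_ne_zero
  (clear * - this; field_simp)

theorem integral_k_arc {t s1 s2 : ℝ} (h0 : t ≤ s1) (h12 : s1 ≤ s2)
    (h1 : s2 ≤ t + 2 * π) :
    ∫ s in s1..s2, D.k s (D.sig t) = (D.Ang t s2 - D.Ang t s1) / π := by
  have h3 := D.intervalIntegrable_k_arc h0 h12 h1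
  have h4 : ∫ s in s1..s2, π * D.k s (D.sig t) = D.Ang t s2 - D.Ang t s1 := by
    apply intervalIntegral.integral_eq_sub_of_hasDerivAt_of_le h12
    · exact (D.continuousOn_Ang t).mono (Icc_subset_Icc h0 h1)
    · intro x hx
      exact D.hasDerivAt_Ang (lt_of_le_of_lt h0 hx.1) (lt_of_lt_of_le hx.2 h1)
    · exact h3.const_mul π
  rw [intervalIntegral.integral_const_mul] at h4
  have := Real.pi_ne_zero
  field_simp
  linarith only [h4]

theorem intervalIntegrable_k_sig' (t a b : ℝ) :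
    IntervalIntegrable (fun s => D.k s (D.sig t)) volume a b := by
  have hp : Function.Periodic (fun s => D.k s (D.sig t)) (2 * π) := fun s => D.k_periodic s _
  have h := D.intervalIntegrable_k_arc (t := t) (s1 := t) (s2 := t + 2 * π) le_rfl
    (by linarith only [Real.two_pi_pos]) le_rfl
  exact hp.intervalIntegrable (Real.two_pi_pos.ne') h a b

theorem intervalIntegrable_k_sig (t : ℝ) :
    IntervalIntegrable (fun s => D.k s (D.sig t)) volume 0 (2*π) :=
  D.intervalIntegrable_k_sig' t _ _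

theorem integral_k_sig (t : ℝ) : ∫ s in (0:ℝ)..(2*π), D.k s (D.sig t) = 1 := by
  have hp : Function.Periodic (fun s => D.k s (D.sig t)) (2 * π) := fun s => D.k_periodic s _
  have h := hp.intervalIntegral_add_eq 0 t
  rw [zero_add] at h
  rw [h, D.integral_k_arc le_rfl (by linarith [Real.two_pi_pos]) le_rfl, D.Ang_left, D.Ang_right]
  have := Real.pi_ne_zero
  field_simp
  ring

end Dom

end Vale.Agent.P123
end
end

section

section

namespace Vale.Agent.P123

open Complex MeasureTheory Set Filter Topology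
open scoped Real

namespace Dom

variable (D : Dom)

section
variable {B : Type*} [NormedRing B] [NormedAlgebra ℂ B] [CompleteSpace B]

/-- `(sig s - τ a)⁻¹` -/
noncomputable def rv (a : B) (τ s : ℝ) : B :=
  Ring.inverse (algebraMap ℂ B (D.sig s) - (τ : ℂ) • a)

theorem continuousAt_rv (a : B) {τ s : ℝ}
    (h : IsUnit (algebraMap ℂ B (D.sig s) - (τ : ℂ) • a)) :
    ContinuousAt (fun q : ℝ × ℝ => D.rv a q.1 q.2) (τ, s) := by
  obtain ⟨u, hu⟩ := h
  have h1 := NormedRing.inverse_continuousAt u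
  have h2 : ContinuousAt (fun q : ℝ × ℝ => algebraMap ℂ B (D.sig q.2) - (q.1 : ℂ) • a) (τ, s) := by
    apply Continuous.continuousAt
    apply Continuous.sub
    · exact (continuous_algebraMap ℂ B).comp (D.continuous_sig.comp continuous_snd)
    · exact (Complex.continuous_ofReal.comp continuous_fst).smul continuous_const
  rw [hu] at h1
  exact ContinuousAt.comp (f := fun q : ℝ × ℝ => algebraMap ℂ B (D.sig q.2) - (q.1 : ℂ) • a)
    (g := Ring.inverse) (x := (τ, s)) h1 h2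

theorem hasDerivAt_rv (a : B) {τ s : ℝ}
    (h : IsUnit (algebraMap ℂ B (D.sig s) - (τ : ℂ) • a)) :
    HasDerivAt (fun s => D.rv a τ s)
      (-((Complex.I * (D.R s * ee s)) • (D.rv a τ s * D.rv a τ s))) s := by
  obtain ⟨u, hu⟩ := h
  have h1 := hasFDerivAt_ringInverse (𝕜 := ℝ) u
  have h2 : HasDerivAt (fun s : ℝ => algebraMap ℂ B (D.sig s) - (τ : ℂ) • a)
      ((Complex.I * (D.R s * ee s)) • (1 : B)) s := by
    have h3 := ((D.hasDerivAt_sig s).smul_const (1 : B)).sub_const ((τ : ℂ) • a)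
    have h4 : (fun s : ℝ => D.sig s • (1:B) - (τ : ℂ) • a) =
        (fun s : ℝ => algebraMap ℂ B (D.sig s) - (τ : ℂ) • a) := by
      funext x; rw [Algebra.algebraMap_eq_smul_one]
    rw [← h4]
    exact h3
  rw [hu] at h1
  have h5 := h1.comp_hasDerivAt s h2
  have h6 : D.rv a τ s = ((u⁻¹ : Bˣ) : B) := by
    unfold rv
    rw [← hu, Ring.inverse_unit]
  rw [h6]
  refine h5.congr_deriv ?_
  simp only [neg_apply, ContinuousLinearMap.mulLeftRight_apply, Algebra.mul_smul_comm, mul_one, Algebra.smul_mul_assoc]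

omit [CompleteSpace B] in
theorem rv_mul_cancel (a : B) {τ s : ℝ}
    (h : IsUnit (algebraMap ℂ B (D.sig s) - (τ : ℂ) • a)) :
    D.rv a τ s * (algebraMap ℂ B (D.sig s) - (τ : ℂ) • a) = 1 :=
  Ring.inverse_mul_cancel _ h

omit [CompleteSpace B] in
theorem mul_rv_cancel (a : B) {τ s : ℝ}
    (h : IsUnit (algebraMap ℂ B (D.sig s) - (τ : ℂ) • a)) :
    (algebraMap ℂ B (D.sig s) - (τ : ℂ) • a) * D.rv a τ s = 1 :=
  Ring.mul_inverse_cancel _ h

omit [CompleteSpace B] in
theorem rv_sub (a : B) {τ τ' s : ℝ}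
    (h : IsUnit (algebraMap ℂ B (D.sig s) - (τ : ℂ) • a))
    (h' : IsUnit (algebraMap ℂ B (D.sig s) - (τ' : ℂ) • a)) :
    D.rv a τ s - D.rv a τ' s = ((τ - τ' : ℝ) : ℂ) • (D.rv a τ s * a * D.rv a τ' s) := by
  have h1 := D.rv_mul_cancel a h
  have h2 := D.mul_rv_cancel a h'
  calc D.rv a τ s - D.rv a τ' s
      = D.rv a τ s * ((algebraMap ℂ B (D.sig s) - (τ' : ℂ) • a) * D.rv a τ' s) -
        (D.rv a τ s * (algebraMap ℂ B (D.sig s) - (τ : ℂ) • a)) * D.rv a τ' s := by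
          rw [h1, h2, mul_one, one_mul]
    _ = D.rv a τ s * ((algebraMap ℂ B (D.sig s) - (τ' : ℂ) • a) -
        (algebraMap ℂ B (D.sig s) - (τ : ℂ) • a)) * D.rv a τ' s := by noncomm_ring
    _ = D.rv a τ s * (((τ - τ' : ℝ) : ℂ) • a) * D.rv a τ' s := by
          congr 2
          rw [sub_sub_sub_cancel_left, ← sub_smul]
          push_cast
          rfl
    _ = _ := by
          rw [mul_smul_comm, smul_mul_assoc]

omit [CompleteSpace B] in
theorem rv_commute (a : B) {τ s : ℝ}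
    (h : IsUnit (algebraMap ℂ B (D.sig s) - (τ : ℂ) • a)) : Commute a (D.rv a τ s) := by
  have h1 : Commute a (algebraMap ℂ B (D.sig s) - (τ : ℂ) • a) := by
    apply Commute.sub_right
    · exact (Algebra.commutes _ _).symm
    · exact (Commute.refl a).smul_right _
  obtain ⟨u, hu⟩ := h
  unfold rv
  rw [← hu, Ring.inverse_unit]
  rw [← hu] at h1
  exact h1.units_inv_right

omit [CompleteSpace B] in
theorem rv_periodic (a : B) (τ s : ℝ) : D.rv a τ (s + 2 * π) = D.rv a τ s := by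
  unfold rv
  rw [D.sig_periodic]

variable (a : B) (ha : ∀ s : ℝ, ∀ τ ∈ Icc (0:ℝ) 1, IsUnit (algebraMap ℂ B (D.sig s) - (τ : ℂ) • a))

include ha

theorem continuous_rv_right {τ : ℝ} (hτ : τ ∈ Icc (0:ℝ) 1) : Continuous (fun s => D.rv a τ s) :=
  continuous_iff_continuousAt.2 fun s => (D.hasDerivAt_rv a (ha s τ hτ)).continuousAt

theorem exists_rv_bound : ∃ M : ℝ, 0 ≤ M ∧ ∀ τ ∈ Icc (0:ℝ) 1, ∀ s, ‖D.rv a τ s‖ ≤ M := by
  have hc : ContinuousOn (fun q : ℝ × ℝ => D.rv a q.1 q.2) (Icc (0:ℝ) 1 ×ˢ Icc (0:ℝ) (2 * π)) := by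
    intro q hq
    exact (D.continuousAt_rv a (ha q.2 q.1 hq.1)).continuousWithinAt
  obtain ⟨M, hM⟩ := (isCompact_Icc.prod isCompact_Icc).exists_bound_of_continuousOn hc
  refine ⟨max M 0, le_max_right _ _, fun τ hτ s => ?_⟩
  have hp : Function.Periodic (fun s => D.rv a τ s) (2 * π) := fun x => D.rv_periodic a τ x
  obtain ⟨y, hy, hy'⟩ := hp.exists_mem_Ico₀ Real.two_pi_pos s
  rw [hy']
  exact (hM (τ, y) ⟨hτ, ⟨hy.1, hy.2.le⟩⟩).trans (le_max_left _ _)

theorem integral_rv_sq_eq_zero {τ : ℝ} (hτ : τ ∈ Icc (0:ℝ) 1) :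
    ∫ s in (0:ℝ)..(2*π), ((D.R s * ee s / (2*π) : ℂ) • (D.rv a τ s * D.rv a τ s)) = 0 := by
  have hc := D.continuous_rv_right a ha hτ
  have hcR : Continuous (fun s => (Complex.I * (D.R s * ee s) : ℂ)) :=
    continuous_const.mul ((Complex.continuous_ofReal.comp D.continuous_R).mul continuous_ee)
  have h1 : ∫ s in (0:ℝ)..(2*π), -((Complex.I * (D.R s * ee s)) • (D.rv a τ s * D.rv a τ s)) =
      D.rv a τ (2 * π) - D.rv a τ 0 := by
    apply intervalIntegral.integral_eq_sub_of_hasDerivAt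
    · intro s _
      exact D.hasDerivAt_rv a (ha s τ hτ)
    · apply Continuous.intervalIntegrable
      exact (hcR.smul (hc.mul hc)).neg
  have h2 : D.rv a τ (2 * π) = D.rv a τ 0 := by
    have := D.rv_periodic a τ 0
    rwa [zero_add] at this
  rw [h2, sub_self] at h1
  have h3 : ∀ s, ((D.R s * ee s / (2*π) : ℂ) • (D.rv a τ s * D.rv a τ s)) =
      (-(1 / (2 * π * Complex.I)) : ℂ) • -((Complex.I * (D.R s * ee s)) • (D.rv a τ s * D.rv a τ s)) := by
    intro s
    rw [neg_smul_neg, smul_smul]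
    congr 1
    have := pi_ne_zero_C
    have := Complex.I_ne_zero
    field_simp
  simp_rw [h3]
  rw [intervalIntegral.integral_smul, h1, smul_zero]

/-- the resolvent integral is constant along the homotopy -/
theorem integral_rv_const {τ : ℝ} (hτ : τ ∈ Icc (0:ℝ) 1) :
    ∫ s in (0:ℝ)..(2*π), ((D.R s * ee s / (2*π) : ℂ) • D.rv a τ s) =
    ∫ s in (0:ℝ)..(2*π), ((D.R s * ee s / (2*π) : ℂ) • D.rv a 0 s) := by
  obtain ⟨M, hM0, hM⟩ := D.exists_rv_bound a ha
  set J : ℝ → B := fun τ => ∫ s in (0:ℝ)..(2*π), ((D.R s * ee s / (2*π) : ℂ) • D.rv a τ s) with hJ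
  have hcR : Continuous (fun s => (D.R s * ee s / (2*π) : ℂ)) :=
    ((Complex.continuous_ofReal.comp D.continuous_R).mul continuous_ee).div_const _
  obtain ⟨CR, hCR⟩ := (isCompact_Icc (a := (0:ℝ)) (b := 2*π)).exists_bound_of_continuousOn
    hcR.continuousOn
  have hCR0 : 0 ≤ CR := (norm_nonneg _).trans (hCR 0 ⟨le_rfl, Real.two_pi_pos.le⟩)
  set C : ℝ := CR * (M * ‖a‖ * M * ‖a‖ * M) * (2 * π) with hC
  have hC0 : 0 ≤ C := by
    have := Real.pi_pos
    (clear * - hCR0 hM0; (clear * - hCR0 hM0; positivity))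
  have key : ∀ τ ∈ Icc (0:ℝ) 1, ∀ τ' ∈ Icc (0:ℝ) 1, ‖J τ - J τ'‖ ≤ C * (τ - τ') ^ 2 := by
    intro τ hτ τ' hτ'
    have hcτ := D.continuous_rv_right a ha hτ
    have hcτ' := D.continuous_rv_right a ha hτ'
    have e1 : J τ - J τ' = ∫ s in (0:ℝ)..(2*π), ((D.R s * ee s / (2*π) : ℂ) •
        (((τ - τ' : ℝ) : ℂ) • (D.rv a τ s * a * D.rv a τ' s))) := by
      rw [hJ]
      simp only
      rw [← intervalIntegral.integral_sub]
      · congr 1
        funext s
        rw [← smul_sub, D.rv_sub a (ha s τ hτ) (ha s τ' hτ')]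
      · exact (hcR.smul hcτ).intervalIntegrable _ _
      · exact (hcR.smul hcτ').intervalIntegrable _ _
    have e2 : ∫ s in (0:ℝ)..(2*π), ((D.R s * ee s / (2*π) : ℂ) •
        (((τ - τ' : ℝ) : ℂ) • (D.rv a τ' s * a * D.rv a τ' s))) = 0 := by
      have e3 : ∀ s, ((D.R s * ee s / (2*π) : ℂ) •
        (((τ - τ' : ℝ) : ℂ) • (D.rv a τ' s * a * D.rv a τ' s))) =
        (((τ - τ' : ℝ) : ℂ) • (a * ((D.R s * ee s / (2*π) : ℂ) • (D.rv a τ' s * D.rv a τ' s)))) := by
        intro s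
        rw [smul_comm, ← (D.rv_commute a (ha s τ' hτ')).eq, mul_assoc, mul_smul_comm]
      simp_rw [e3]
      rw [intervalIntegral.integral_smul]
      have e4 := (ContinuousLinearMap.mul ℂ B a).intervalIntegral_comp_comm (μ := volume)
        (a := 0) (b := 2 * π)
        (f := fun s => ((D.R s * ee s / (2*π) : ℂ) • (D.rv a τ' s * D.rv a τ' s)))
        ((hcR.smul (hcτ'.mul hcτ')).intervalIntegrable _ _)
      simp only [ContinuousLinearMap.mul_apply'] at e4
      rw [e4, D.integral_rv_sq_eq_zero a ha hτ', mul_zero, smul_zero]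
    have e5 : J τ - J τ' = ∫ s in (0:ℝ)..(2*π), ((D.R s * ee s / (2*π) : ℂ) •
        ((((τ - τ' : ℝ) : ℂ) * ((τ - τ' : ℝ) : ℂ)) • (D.rv a τ s * a * D.rv a τ' s * a * D.rv a τ' s))) := by
      rw [← sub_zero (J τ - J τ'), ← e2, e1, ← intervalIntegral.integral_sub]
      · congr 1
        funext s
        rw [← smul_sub, ← smul_sub, ← sub_mul, ← sub_mul, D.rv_sub a (ha s τ hτ) (ha s τ' hτ'),
          smul_mul_assoc, smul_mul_assoc, smul_smul (((τ - τ' : ℝ) : ℂ))]
      · exact (hcR.smul (((hcτ.mul continuous_const).mul hcτ').const_smul _)).intervalIntegrable _ _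
      · exact (hcR.smul (((hcτ'.mul continuous_const).mul hcτ').const_smul _)).intervalIntegrable _ _
    rw [e5]
    have e6 : ∀ s ∈ uIoc (0:ℝ) (2*π), ‖((D.R s * ee s / (2*π) : ℂ) •
        ((((τ - τ' : ℝ) : ℂ) * ((τ - τ' : ℝ) : ℂ)) • (D.rv a τ s * a * D.rv a τ' s * a * D.rv a τ' s)))‖ ≤
        CR * ((τ - τ') ^ 2 * (M * ‖a‖ * M * ‖a‖ * M)) := by
      intro s hs
      rw [uIoc_of_le Real.two_pi_pos.le] at hs
      rw [norm_smul, norm_smul]
      have n1 : ‖((τ - τ' : ℝ) : ℂ) * ((τ - τ' : ℝ) : ℂ)‖ = (τ - τ') ^ 2 := by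
        rw [norm_mul, Complex.norm_real, Real.norm_eq_abs, ← sq, sq_abs]
      rw [n1]
      have n2 : ‖D.rv a τ s * a * D.rv a τ' s * a * D.rv a τ' s‖ ≤ M * ‖a‖ * M * ‖a‖ * M := by
        calc ‖D.rv a τ s * a * D.rv a τ' s * a * D.rv a τ' s‖
            ≤ ‖D.rv a τ s‖ * ‖a‖ * ‖D.rv a τ' s‖ * ‖a‖ * ‖D.rv a τ' s‖ := by
              refine (norm_mul_le _ _).trans (mul_le_mul_of_nonneg_right ?_ (norm_nonneg _))
              refine (norm_mul_le _ _).trans (mul_le_mul_of_nonneg_right ?_ (norm_nonneg _))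
              refine (norm_mul_le _ _).trans (mul_le_mul_of_nonneg_right ?_ (norm_nonneg _))
              exact norm_mul_le _ _
          _ ≤ M * ‖a‖ * M * ‖a‖ * M := by
              have q1 := hM τ hτ s
              have q2 := hM τ' hτ' s
              (clear * - q1 q2 hM0; gcongr)
      have n3 := hCR s ⟨hs.1.le, hs.2⟩
      exact mul_le_mul n3 (mul_le_mul_of_nonneg_left n2 (sq_nonneg _)) (by (clear * -; (clear * -; positivity))) hCR0
    refine (intervalIntegral.norm_integral_le_of_norm_le_const e6).trans ?_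
    rw [sub_zero, abs_of_pos Real.two_pi_pos, hC]
    apply le_of_eq
    ring
  have hconst : ∀ x ∈ Icc (0:ℝ) 1, J x = J 0 := by
    apply constant_of_has_deriv_right_zero
    · -- continuity
      intro x hx
      rw [Metric.continuousWithinAt_iff]
      intro ε hε
      refine ⟨min 1 (ε / (C + 1)), by (clear * - hε hCR0 hM0; (clear * - hε hCR0 hM0; positivity)), fun y hy hyx => ?_⟩
      rw [dist_eq_norm] at hyx ⊢
      have h1 := key y hy x hx
      have h2 : |y - x| < 1 := lt_of_lt_of_le hyx (min_le_left _ _)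
      have h3 : |y - x| < ε / (C + 1) := lt_of_lt_of_le hyx (min_le_right _ _)
      have h4 : (y - x) ^ 2 ≤ |y - x| := by
        rw [← sq_abs]
        nlinarith only [h2, abs_nonneg (y - x)]
      rw [lt_div_iff₀ (by (clear * - hCR0 hM0; positivity))] at h3
      calc ‖J y - J x‖ ≤ C * (y - x) ^ 2 := h1
        _ ≤ C * |y - x| := by (clear * - h4 hCR0 hM0; gcongr)
        _ ≤ |y - x| * (C + 1) := by nlinarith only [h4]
        _ < ε := h3
    · intro x hx
      rw [hasDerivWithinAt_iff_isLittleO]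
      simp only [smul_zero, sub_zero]
      rw [Asymptotics.isLittleO_iff]
      intro ε hε
      have hx1 : x < min 1 (x + ε / (C + 1)) := by
        apply lt_min hx.2
        have : 0 < ε / (C + 1) := by (clear * - hε hCR0 hM0; (clear * - hε hCR0 hM0; positivity))
        linarith only [this]
      filter_upwards [Icc_mem_nhdsGE hx1] with y hy
      have hy1 : y ∈ Icc (0:ℝ) 1 := ⟨hx.1.trans hy.1, hy.2.trans (min_le_left _ _)⟩
      have h1 := key y hy1 x ⟨hx.1, hx.2.le⟩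
      have h3 : y - x ≤ ε / (C + 1) := by
        have := hy.2.trans (min_le_right _ _)
        linarith only [this]
      have h0 : 0 ≤ y - x := sub_nonneg.2 hy.1
      rw [le_div_iff₀ (by (clear * - hCR0 hM0; (clear * - hCR0 hM0; positivity)))] at h3
      rw [Real.norm_eq_abs, abs_of_nonneg h0]
      calc ‖J y - J x‖ ≤ C * (y - x) ^ 2 := h1
        _ = (C * (y - x)) * (y - x) := by ring
        _ ≤ ε * (y - x) := by
            apply mul_le_mul_of_nonneg_right _ h0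
            linarith only [h3, h0]
  exact hconst τ hτ

theorem integral_resolvent :
    ∫ s in (0:ℝ)..(2*π), ((D.R s * ee s / (2*π) : ℂ) • resolvent a (D.sig s)) = 1 := by
  have h1 := D.integral_rv_const a ha (τ := 1) ⟨zero_le_one, le_rfl⟩
  have h2 : ∀ s, D.rv a 1 s = resolvent a (D.sig s) := by
    intro s
    unfold rv resolvent
    simp only [ofReal_one, one_smul]
  have h3 : ∀ s, ((D.R s * ee s / (2*π) : ℂ) • D.rv a 0 s) = (D.N s 0) • (1 : B) := by
    intro s
    have hs : D.sig s ≠ 0 := by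
      have := D.sig_ne_of_mem_Om D.zero_mem_Om s
      rwa [sub_zero] at this
    have h4 : D.rv a 0 s = (D.sig s)⁻¹ • (1 : B) := by
      unfold rv
      simp only [Complex.ofReal_zero, zero_smul, sub_zero]
      have h5 : algebraMap ℂ B (D.sig s) * ((D.sig s)⁻¹ • (1 : B)) = 1 := by
        rw [Algebra.algebraMap_eq_smul_one, smul_mul_smul_comm, mul_inv_cancel₀ hs, one_mul, one_smul]
      have h6 : ((D.sig s)⁻¹ • (1 : B)) * algebraMap ℂ B (D.sig s) = 1 := by
        rw [Algebra.algebraMap_eq_smul_one, smul_mul_smul_comm, inv_mul_cancel₀ hs, one_mul, one_smul]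
      exact Ring.inverse_unit (⟨algebraMap ℂ B (D.sig s), (D.sig s)⁻¹ • (1 : B), h5, h6⟩ : Bˣ)
    rw [h4, smul_smul]
    congr 1
    unfold N
    rw [sub_zero]
    have := pi_ne_zero_C
    field_simp
  simp_rw [h2, h3] at h1
  rw [h1, intervalIntegral.integral_smul_const, D.integral_N_of_mem_Om D.zero_mem_Om, one_smul]

end

end Dom

end Vale.Agent.P123
end
end

section

section

namespace Vale.Agent.P123
open Complex MeasureTheory Set Filter Topology Polynomial
open scoped Real ComplexConjugate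

namespace Dom
variable (D : Dom)

/-- the weight `dσ/(2π i)` -/
noncomputable def w (s : ℝ) : ℂ := (D.R s : ℂ) * ee s / (2 * (π : ℂ))

theorem continuous_w : Continuous D.w := by
  unfold w
  have := D.continuous_R
  have := continuous_ee
  fun_prop

theorem N_eq (s : ℝ) (z : ℂ) : D.N s z = D.w s / (D.sig s - z) := by
  unfold N w; rw [div_div]

theorem integral_w_mul_sig_pow (n : ℕ) :
    ∫ s in (0:ℝ)..(2*π), D.w s * D.sig s ^ n = 0 := by
  have h2 : ∀ s : ℝ, HasDerivAt (fun s => D.sig s ^ (n+1) / (2 * π * Complex.I * (n+1)))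
      (D.w s * D.sig s ^ n) s := by
    intro s
    have h := ((D.hasDerivAt_sig s).pow (n+1)).div_const (2 * π * Complex.I * (n+1))
    refine h.congr_deriv ?_
    have h1 : ((n : ℂ) + 1) ≠ 0 := by exact_mod_cast Nat.succ_ne_zero n
    have hpi : (π : ℂ) ≠ 0 := by exact_mod_cast Real.pi_ne_zero
    unfold w
    push_cast
    field_simp
  rw [intervalIntegral.integral_eq_sub_of_hasDerivAt (fun s _ => h2 s)]
  · have := D.sig_periodic 0
    simp only [zero_add] at this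
    rw [this]; simp only [sub_self]
  · apply Continuous.intervalIntegrable
    have := D.continuous_w
    have := D.continuous_sig
    fun_prop

section Banach

variable {B : Type*} [NormedRing B] [NormedAlgebra ℂ B] [CompleteSpace B]

/-- all points of the boundary curve are in the resolvent set of `τ a`, `τ ∈ [0,1]` -/
def Res (a : B) : Prop := ∀ s : ℝ, ∀ τ ∈ Set.Icc (0:ℝ) 1,
      IsUnit (algebraMap ℂ B (D.sig s) - (τ : ℂ) • a)

variable {D}

omit [CompleteSpace B] in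
theorem Res.isUnit {a : B} (ha : D.Res a) (s : ℝ) : IsUnit (algebraMap ℂ B (D.sig s) - a) := by
  simpa only [ofReal_one, one_smul] using ha s 1 (by simp)

omit [CompleteSpace B] in
theorem Res.smul {a : B} (ha : D.Res a) {r : ℝ} (h0 : 0 ≤ r) (h1 : r ≤ 1) :
    D.Res ((r : ℂ) • a) := by
  intro s τ hτ
  have := ha s (τ * r) ⟨mul_nonneg hτ.1 h0, mul_le_one₀ hτ.2 h0 h1⟩
  rw [smul_smul]
  convert this using 3
  push_cast; ring

theorem Res.continuous_resolvent {a : B} (ha : D.Res a) :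
    Continuous fun s => resolvent a (D.sig s) := by
  rw [continuous_iff_continuousAt]
  intro s
  unfold resolvent
  have h1 : ContinuousAt Ring.inverse (algebraMap ℂ B (D.sig s) - a) := by
    obtain ⟨u, hu⟩ := ha.isUnit s
    rw [← hu]
    exact NormedRing.inverse_continuousAt u
  have h2 : ContinuousAt (fun s => algebraMap ℂ B (D.sig s) - a) s := by
    have := D.continuous_sig
    have h3 : Continuous (fun s => algebraMap ℂ B (D.sig s) - a) :=
      ((continuous_algebraMap ℂ B).comp this).sub continuous_const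
    exact h3.continuousAt
  exact ContinuousAt.comp (f := fun s => algebraMap ℂ B (D.sig s) - a) h1 h2

omit [CompleteSpace B] in
theorem Res.sig_smul_resolvent {a : B} (ha : D.Res a) (s : ℝ) :
    D.sig s • resolvent a (D.sig s) = 1 + a * resolvent a (D.sig s) := by
  have h := Ring.mul_inverse_cancel _ (ha.isUnit s)
  unfold resolvent
  rw [sub_mul, Algebra.algebraMap_eq_smul_one, smul_mul_assoc, one_mul] at h
  rw [← Algebra.algebraMap_eq_smul_one] at h
  rw [← h]; abel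

/-- Cauchy integral formula for monomials in a Banach algebra -/
theorem Res.integral_pow {a : B} (ha : D.Res a) (n : ℕ) :
    ∫ s in (0:ℝ)..(2*π), (D.w s * D.sig s ^ n) • resolvent a (D.sig s) = a ^ n := by
  have hc1 := D.continuous_w
  have hc2 := D.continuous_sig
  have hc3 := ha.continuous_resolvent
  induction n with
  | zero =>
    simp only [pow_zero, mul_one]
    exact D.integral_resolvent a ha
  | succ n ih =>
    have h1 : ∀ s, (D.w s * D.sig s ^ (n+1)) • resolvent a (D.sig s)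
        = (D.w s * D.sig s ^ n) • (1 : B)
          + a * ((D.w s * D.sig s ^ n) • resolvent a (D.sig s)) := by
      intro s
      have : D.w s * D.sig s ^ (n+1) = (D.w s * D.sig s ^ n) * D.sig s := by ring
      rw [this, mul_smul, ha.sig_smul_resolvent s, smul_add, mul_smul_comm]
    simp_rw [h1]
    rw [intervalIntegral.integral_add]
    · rw [intervalIntegral.integral_smul_const, D.integral_w_mul_sig_pow n, zero_smul, zero_add]
      have := ContinuousLinearMap.intervalIntegral_comp_comm (μ := volume) (a := (0:ℝ))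
        (b := 2*π) (ContinuousLinearMap.mul ℝ B a)
        (f := fun s => (D.w s * D.sig s ^ n) • resolvent a (D.sig s)) ?_
      · simp only [ContinuousLinearMap.mul_apply'] at this
        rw [this, ih, pow_succ']
      · apply Continuous.intervalIntegrable; (clear * - hc1 hc2 hc3; fun_prop)
    · apply Continuous.intervalIntegrable; fun_prop
    · apply Continuous.intervalIntegrable; (clear * - hc1 hc2 hc3; fun_prop)

theorem Res.integral_poly {a : B} (ha : D.Res a) (P : ℂ[X]) :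
    ∫ s in (0:ℝ)..(2*π), (D.w s * P.eval (D.sig s)) • resolvent a (D.sig s)
      = aeval a P := by
  have hc1 := D.continuous_w
  have hc2 := D.continuous_sig
  have hc3 := ha.continuous_resolvent
  induction P using Polynomial.induction_on' with
  | add p q hp hq =>
    simp only [eval_add, mul_add, add_smul, map_add]
    rw [intervalIntegral.integral_add, hp, hq]
    · apply Continuous.intervalIntegrable; (clear * - hc1 hc2 hc3; fun_prop)
    · apply Continuous.intervalIntegrable; fun_prop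
  | monomial n c =>
    simp only [eval_monomial, aeval_monomial]
    have : ∀ s, (D.w s * (c * D.sig s ^ n)) • resolvent a (D.sig s)
        = c • ((D.w s * D.sig s ^ n) • resolvent a (D.sig s)) := by
      intro s; rw [smul_smul]; ring_nf
    simp_rw [this]
    rw [intervalIntegral.integral_smul, ha.integral_pow, Algebra.smul_def]

end Banach

end Dom
end Vale.Agent.P123
end
end

section

section

namespace Vale.Agent.P123
open Complex MeasureTheory Set Filter Topology Polynomial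
open scoped Real ComplexConjugate

namespace Dom
variable (D : Dom)

theorem exists_h_lower : ∃ m : ℝ, 0 < m ∧ ∀ s, m ≤ D.h s := by
  have hne : (Set.Icc (0:ℝ) (2*π)).Nonempty := ⟨0, by constructor <;> positivity⟩
  obtain ⟨s0, hs0, hmin⟩ := (isCompact_Icc (a := (0:ℝ)) (b := 2*π)).exists_isMinOn hne
    D.continuous_h.continuousOn
  refine ⟨D.h s0, D.h_pos s0, fun s => ?_⟩
  have hper : Function.Periodic D.h (2*π) := D.periodic
  obtain ⟨y, hy, hys⟩ := hper.exists_mem_Ico₀ (by positivity) s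
  rw [hys]
  exact hmin ⟨hy.1, hy.2.le⟩

section Hilbert

variable {H : Type*} [NormedAddCommGroup H] [InnerProductSpace ℂ H]

/-- the numerical range of `A` is inside the domain, with margin `η` -/
def Inside (A : H →L[ℂ] H) (η : ℝ) : Prop :=
  0 < η ∧ ∀ (s : ℝ) (x : H), (ee (-s) * inner ℂ x (A x)).re ≤ (D.h s - η) * ‖x‖ ^ 2

variable {D}

theorem Inside.mono {A : H →L[ℂ] H} {η η' : ℝ} (hA : D.Inside A η) (h0 : 0 < η') (h1 : η' ≤ η) :
    D.Inside A η' :=
  ⟨h0, fun s x => (hA.2 s x).trans (by (clear * - h1; gcongr))⟩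

theorem Inside.coercive {A : H →L[ℂ] H} {η : ℝ} (hA : D.Inside A η) (hη : ∀ s, η ≤ D.h s)
    (s : ℝ) {τ : ℝ} (hτ : τ ∈ Set.Icc (0:ℝ) 1) (x : H) :
    η * ‖x‖ ^ 2 ≤ (ee (-s) * inner ℂ x
      ((algebraMap ℂ (H →L[ℂ] H) (D.sig s) - (τ : ℂ) • A) x)).re := by
  have h1 : (algebraMap ℂ (H →L[ℂ] H) (D.sig s) - (τ : ℂ) • A) x
      = D.sig s • x - (τ : ℂ) • A x := by
    simp [Algebra.algebraMap_eq_smul_one]
  rw [h1, inner_sub_right, inner_smul_right, inner_smul_right, mul_sub]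
  have h2 : ee (-s) * (D.sig s * inner ℂ x x)
      = (ee (-s) * D.sig s) * ((‖x‖ : ℂ) ^ 2) := by
    rw [inner_self_eq_norm_sq_to_K]; simp only [coe_algebraMap]; ring
  have h3 : ee (-s) * ((τ : ℂ) * inner ℂ x (A x)) = (τ : ℂ) * (ee (-s) * inner ℂ x (A x)) := by
    ring
  rw [h2, h3, ee_neg_mul_sig, Complex.sub_re, Complex.re_ofReal_mul]
  have h4 : (((D.h s : ℂ) + (D.h1 s : ℂ) * Complex.I) * ((‖x‖ : ℂ) ^ 2)).re
      = D.h s * ‖x‖ ^ 2 := by
    rw [← Complex.ofReal_pow, Complex.re_mul_ofReal]; simp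
  rw [h4]
  have h5 := hA.2 s x
  have h6 : τ * (ee (-s) * inner ℂ x (A x)).re ≤ τ * ((D.h s - η) * ‖x‖ ^ 2) :=
    mul_le_mul_of_nonneg_left h5 hτ.1
  have h7 : τ * ((D.h s - η) * ‖x‖ ^ 2) ≤ 1 * ((D.h s - η) * ‖x‖ ^ 2) := by
    apply mul_le_mul_of_nonneg_right hτ.2
    have := hη s
    have h8 : 0 ≤ D.h s - η := by linarith only [this]
    (clear * - this; (clear * - this; positivity))
  linarith only [h6, h7]

theorem Inside.res [CompleteSpace H] {A : H →L[ℂ] H} {η : ℝ} (hA : D.Inside A η) : D.Res A := by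
  obtain ⟨m, hm0, hm⟩ := D.exists_h_lower
  have hA' := hA.mono (lt_min hA.1 hm0) (min_le_left _ _)
  intro s τ hτ
  have hc : 0 < (⟨min η m, (lt_min hA.1 hm0).le⟩ : NNReal) := lt_min hA.1 hm0
  refine ContinuousLinearMap.isUnit_of_forall_le_norm_inner_map _ hc fun x => ?_
  have h1 := hA'.coercive (fun s => (min_le_right _ _).trans (hm s)) s hτ x
  set T := (algebraMap ℂ (H →L[ℂ] H) (D.sig s) - (τ : ℂ) • A)
  rw [norm_inner_symm]
  have h2 : (ee (-s) * inner ℂ x (T x)).re ≤ ‖inner ℂ x (T x)‖ := by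
    refine (Complex.re_le_norm _).trans ?_
    rw [norm_mul, norm_ee, one_mul]
  have h3 : ‖x‖ ^ 2 * (min η m) = (min η m) * ‖x‖ ^ 2 := mul_comm _ _
  calc ‖x‖ ^ 2 * ((⟨min η m, (lt_min hA.1 hm0).le⟩ : NNReal) : ℝ) = (min η m) * ‖x‖ ^ 2 := h3
    _ ≤ _ := h1.trans h2

end Hilbert

variable {D}

/-- scalar version of the resolvent condition -/
theorem res_of_mem_Om {z : ℂ} (hz : z ∈ D.Om) : D.Res z := by
  intro s τ hτ
  simp only [Algebra.algebraMap_self, RingHom.id_apply, smul_eq_mul, isUnit_iff_ne_zero]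
  intro h
  have h1 : D.sig s = τ * z := sub_eq_zero.1 h
  have h2 := hz s
  have h3 : D.h s = τ * (ee (-s) * z).re := by
    rw [← D.re_ee_neg_mul_sig s, h1, ← Complex.re_ofReal_mul]; congr 1; ring
  have h4 := D.h_pos s
  have h5 : 0 < (ee (-s) * z).re := by
    by_contra hcon
    have := mul_nonpos_of_nonneg_of_nonpos hτ.1 (not_lt.1 hcon)
    linarith only [h3, h4, this]
  nlinarith only [h2, h3, h5, hτ.2]

/-- Cauchy formula for polynomials inside -/
theorem integral_poly_mul_N {z : ℂ} (hz : z ∈ D.Om) (P : ℂ[X]) :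
    ∫ s in (0:ℝ)..(2*π), P.eval (D.sig s) * D.N s z = P.eval z := by
  have h := (res_of_mem_Om hz).integral_poly P
  rw [← Polynomial.coe_aeval_eq_eval, ← h]
  congr 1; ext s
  rw [N_eq, resolvent]
  simp only [Algebra.algebraMap_self, RingHom.id_apply, smul_eq_mul, Ring.inverse_eq_inv']
  rw [div_eq_mul_inv]; ring

/-- Cauchy theorem for polynomials outside -/
theorem integral_poly_mul_N_eq_zero {z : ℂ} (hz : z ∉ D.K) (P : ℂ[X]) :
    ∫ s in (0:ℝ)..(2*π), P.eval (D.sig s) * D.N s z = 0 := by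
  have hc1 := D.continuous_w
  have hc2 := D.continuous_sig
  have hne := D.sig_ne_of_not_mem_K hz
  have hcN : Continuous fun s => D.N s z := by
    simp_rw [N_eq]
    exact hc1.div (by (clear * - hc2; fun_prop)) hne
  have hpow : ∀ n : ℕ, ∫ s in (0:ℝ)..(2*π), D.sig s ^ n * D.N s z = 0 := by
    intro n
    induction n with
    | zero => simpa only [pow_zero, one_mul] using D.integral_N_of_not_mem_K hz
    | succ n ih =>
      have h1 : ∀ s, D.sig s ^ (n+1) * D.N s z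
          = D.w s * D.sig s ^ n + z * (D.sig s ^ n * D.N s z) := by
        intro s
        rw [N_eq]
        have := hne s
        field_simp
        ring
      simp_rw [h1]
      rw [intervalIntegral.integral_add, D.integral_w_mul_sig_pow,
        intervalIntegral.integral_const_mul, ih]
      · simp
      · apply Continuous.intervalIntegrable; (clear * - hc1 hc2; (clear * - hc1 hc2; fun_prop))
      · apply Continuous.intervalIntegrable; fun_prop
  induction P using Polynomial.induction_on' with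
  | add p q hp hq =>
    simp only [eval_add, add_mul]
    rw [intervalIntegral.integral_add, hp, hq, add_zero]
    · apply Continuous.intervalIntegrable; (clear * - hc2 hcN; fun_prop)
    · apply Continuous.intervalIntegrable; fun_prop
  | monomial n c =>
    simp only [eval_monomial, mul_assoc]
    rw [intervalIntegral.integral_const_mul, hpow, mul_zero]

end Dom
end Vale.Agent.P123
end
end

section

section

namespace Vale.Agent.P123
open Complex MeasureTheory Set Filter Topology Polynomial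
open scoped Real ComplexConjugate

namespace Dom
variable (D : Dom)

instance : CompactSpace D.K := isCompact_iff_compactSpace.mp D.isCompact_K

/-- boundary point, as an element of `K` -/
noncomputable def bd (s : ℝ) : D.K := ⟨D.sig s, D.sig_mem_K s⟩

@[simp] theorem coe_bd (s : ℝ) : ((D.bd s : D.K) : ℂ) = D.sig s := rfl

theorem continuous_bd : Continuous D.bd := D.continuous_sig.subtype_mk _

/-- the identity function on `K` -/
def idK : C(D.K, ℂ) := ⟨Subtype.val, continuous_subtype_val⟩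

@[simp] theorem idK_apply (z : D.K) : D.idK z = (z : ℂ) := rfl

variable {H : Type*} [NormedAddCommGroup H] [InnerProductSpace ℂ H]

/-- the generator of the pair algebra -/
def pr (A : H →L[ℂ] H) : C(D.K, ℂ) × (H →L[ℂ] H) := (D.idK, A)

/-- the closed algebra of pairs `(f, f(A))` -/
noncomputable def S (A : H →L[ℂ] H) : Subalgebra ℂ (C(D.K, ℂ) × (H →L[ℂ] H)) :=
  Algebra.elemental ℂ (D.pr A)

variable {D}

theorem aeval_pr_fst_apply (A : H →L[ℂ] H) (P : ℂ[X]) (z : D.K) :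
    (aeval (D.pr A) P).1 z = P.eval (z : ℂ) := by
  rw [pr, Polynomial.aeval_prod_apply]
  simp only [Polynomial.aeval_continuousMap_apply, idK_apply]

theorem aeval_pr_snd (A : H →L[ℂ] H) (P : ℂ[X]) :
    (aeval (D.pr A) P).2 = aeval A P := by
  rw [pr, Polynomial.aeval_prod_apply]

theorem isClosed_S (A : H →L[ℂ] H) : IsClosed (D.S A : Set (C(D.K, ℂ) × (H →L[ℂ] H))) :=
  Algebra.elemental.isClosed ℂ _

theorem pr_mem_S (A : H →L[ℂ] H) : D.pr A ∈ D.S A := Algebra.elemental.self_mem ℂ _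

theorem aeval_mem_S (A : H →L[ℂ] H) (P : ℂ[X]) : aeval (D.pr A) P ∈ D.S A :=
  Subalgebra.le_topologicalClosure _ (Polynomial.aeval_mem_adjoin_singleton ℂ _)

/-- closed properties which hold for polynomials hold on `S` -/
theorem S_induction (A : H →L[ℂ] H) {p : C(D.K, ℂ) × (H →L[ℂ] H) → Prop}
    (hc : IsClosed {x | p x}) (hp : ∀ P : ℂ[X], p (aeval (D.pr A) P))
    {x : C(D.K, ℂ) × (H →L[ℂ] H)} (hx : x ∈ D.S A) : p x := by
  have h1 : ((Algebra.adjoin ℂ {D.pr A} : Subalgebra ℂ (C(D.K, ℂ) × (H →L[ℂ] H))) :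
      Set (C(D.K, ℂ) × (H →L[ℂ] H))) ⊆ {x | p x} := by
    intro y hy
    rw [SetLike.mem_coe, Algebra.adjoin_singleton_eq_range_aeval] at hy
    obtain ⟨P, rfl⟩ := hy
    exact hp P
  have h2 := closure_minimal h1 hc
  apply h2
  have h3 : x ∈ (Algebra.adjoin ℂ {D.pr A} :
    Subalgebra ℂ (C(D.K, ℂ) × (H →L[ℂ] H))).topologicalClosure := hx
  rwa [← SetLike.mem_coe, Subalgebra.topologicalClosure_coe] at h3

/-- approximation by polynomials -/
theorem S_approx (A : H →L[ℂ] H) {x : C(D.K, ℂ) × (H →L[ℂ] H)} (hx : x ∈ D.S A)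
    {ε : ℝ} (hε : 0 < ε) : ∃ P : ℂ[X], ‖x - aeval (D.pr A) P‖ < ε := by
  have h3 : x ∈ (Algebra.adjoin ℂ {D.pr A} :
    Subalgebra ℂ (C(D.K, ℂ) × (H →L[ℂ] H))).topologicalClosure := hx
  rw [← SetLike.mem_coe, Subalgebra.topologicalClosure_coe] at h3
  obtain ⟨y, hy, hxy⟩ := Metric.mem_closure_iff.1 h3 ε hε
  rw [SetLike.mem_coe, Algebra.adjoin_singleton_eq_range_aeval] at hy
  obtain ⟨P, rfl⟩ := hy
  exact ⟨P, by rwa [dist_eq_norm] at hxy⟩

/-- (P2) maximum principle for the sup norm, polynomial case -/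
theorem poly_norm_le {P : ℂ[X]} {C : ℝ} (h : ∀ s, ‖P.eval (D.sig s)‖ ≤ C) {z : ℂ}
    (hz : z ∈ D.K) : ‖P.eval z‖ ≤ C := by
  rw [← D.closure_Om] at hz
  refine Complex.norm_le_of_forall_mem_frontier_norm_le (U := D.Om) ?_
    (P.differentiable.diffContOnCl) (fun w hw => ?_) hz
  · exact D.isCompact_K.isBounded.subset (by rw [← D.closure_Om]; exact subset_closure)
  · obtain ⟨s, rfl⟩ := D.frontier_Om_subset hw
    exact h s

theorem poly_le_re {P : ℂ[X]} {c : ℝ} (h : ∀ s, c ≤ (P.eval (D.sig s)).re) {z : ℂ}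
    (hz : z ∈ D.K) : c ≤ (P.eval z).re := by
  rw [← D.closure_Om] at hz
  have h1 : ‖Complex.exp (- P.eval z)‖ ≤ Real.exp (-c) := by
    refine Complex.norm_le_of_forall_mem_frontier_norm_le (U := D.Om)
      (f := fun z => Complex.exp (- P.eval z)) ?_ ?_ (fun w hw => ?_) hz
    · exact D.isCompact_K.isBounded.subset (by rw [← D.closure_Om]; exact subset_closure)
    · exact (Differentiable.cexp (P.differentiable.neg)).diffContOnCl
    · obtain ⟨s, rfl⟩ := D.frontier_Om_subset hw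
      rw [Complex.norm_exp]
      apply Real.exp_le_exp.2
      have := h s
      simp only [Complex.neg_re]
      linarith only [this]
  rw [Complex.norm_exp] at h1
  have h2 := Real.exp_le_exp.1 h1
  simp only [Complex.neg_re] at h2
  linarith only [h2]

theorem norm_apply_le (x : C(D.K, ℂ) × (H →L[ℂ] H)) (z : D.K) : ‖x.1 z‖ ≤ ‖x‖ :=
  (x.1.norm_coe_le_norm z).trans (norm_fst_le x)

/-- (P2) maximum principle for the sup norm -/
theorem S_norm_le {A : H →L[ℂ] H} {x : C(D.K, ℂ) × (H →L[ℂ] H)} (hx : x ∈ D.S A) {C : ℝ}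
    (h : ∀ s, ‖x.1 (D.bd s)‖ ≤ C) (z : D.K) : ‖x.1 z‖ ≤ C := by
  refine le_of_forall_pos_le_add fun ε hε => ?_
  obtain ⟨P, hP⟩ := S_approx A hx (half_pos hε)
  have h1 : ∀ z : D.K, ‖x.1 z - P.eval (z : ℂ)‖ ≤ ε / 2 := by
    intro z
    rw [← aeval_pr_fst_apply A P z]
    exact (norm_apply_le (x - aeval (D.pr A) P) z).trans hP.le
  have h2 : ‖P.eval (z : ℂ)‖ ≤ C + ε / 2 := by
    refine poly_norm_le (fun s => ?_) z.2
    have := h1 (D.bd s)
    rw [coe_bd] at this
    calc ‖P.eval (D.sig s)‖ = ‖x.1 (D.bd s) - (x.1 (D.bd s) - P.eval (D.sig s))‖ := by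
          congr 1; ring
      _ ≤ ‖x.1 (D.bd s)‖ + ‖x.1 (D.bd s) - P.eval (D.sig s)‖ := norm_sub_le _ _
      _ ≤ C + ε / 2 := add_le_add (h s) this
  calc ‖x.1 z‖ = ‖P.eval (z : ℂ) + (x.1 z - P.eval (z : ℂ))‖ := by congr 1; ring
    _ ≤ ‖P.eval (z : ℂ)‖ + ‖x.1 z - P.eval (z : ℂ)‖ := norm_add_le _ _
    _ ≤ (C + ε / 2) + ε / 2 := add_le_add h2 (h1 z)
    _ = C + ε := by ring

theorem S_norm_fst_le {A : H →L[ℂ] H} {x : C(D.K, ℂ) × (H →L[ℂ] H)} (hx : x ∈ D.S A) {C : ℝ}
    (h : ∀ s, ‖x.1 (D.bd s)‖ ≤ C) : ‖x.1‖ ≤ C := by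
  rw [ContinuousMap.norm_le _ ((norm_nonneg _).trans (h 0))]
  exact S_norm_le hx h

/-- (P2) minimum principle for the real part -/
theorem S_le_re {A : H →L[ℂ] H} {x : C(D.K, ℂ) × (H →L[ℂ] H)} (hx : x ∈ D.S A) {c : ℝ}
    (h : ∀ s, c ≤ (x.1 (D.bd s)).re) (z : D.K) : c ≤ (x.1 z).re := by
  refine le_of_forall_pos_le_add fun ε hε => ?_
  obtain ⟨P, hP⟩ := S_approx A hx (half_pos hε)
  have h1 : ∀ z : D.K, |(x.1 z).re - (P.eval (z : ℂ)).re| ≤ ε / 2 := by
    intro z
    rw [← Complex.sub_re, ← aeval_pr_fst_apply A P z]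
    exact (Complex.abs_re_le_norm _).trans
      ((norm_apply_le (x - aeval (D.pr A) P) z).trans hP.le)
  have h2 : c - ε / 2 ≤ (P.eval (z : ℂ)).re := by
    refine poly_le_re (fun s => ?_) z.2
    have := abs_le.1 (h1 (D.bd s))
    rw [coe_bd] at this
    have := h s
    (clear A hx z hε hP h1; linarith)
  have := abs_le.1 (h1 z)
  linarith only [h2, this]

section complete
variable [CompleteSpace H]

theorem continuous_integral_eval {E : Type*} [NormedAddCommGroup E] [NormedSpace ℂ E]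
    {r : ℝ → E} (hr : Continuous r) :
    Continuous fun f : C(D.K, ℂ) => ∫ s in (0:ℝ)..(2*π), f (D.bd s) • r s := by
  apply intervalIntegral.continuous_parametric_intervalIntegral_of_continuous'
  have := D.continuous_bd
  apply Continuous.smul
  · exact continuous_eval.comp (continuous_fst.prodMk (this.comp continuous_snd))
  · exact hr.comp continuous_snd

/-- (P3) Cauchy's formula for the operator -/
theorem S_integral_resolvent {A : H →L[ℂ] H} {η : ℝ} (hA : D.Inside A η)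
    {x : C(D.K, ℂ) × (H →L[ℂ] H)} (hx : x ∈ D.S A) :
    ∫ s in (0:ℝ)..(2*π), x.1 (D.bd s) • (D.w s • resolvent A (D.sig s)) = x.2 := by
  have hc1 := D.continuous_w
  have hc3 := hA.res.continuous_resolvent
  refine S_induction A (p := fun x =>
    ∫ s in (0:ℝ)..(2*π), x.1 (D.bd s) • (D.w s • resolvent A (D.sig s)) = x.2) ?_ ?_ hx
  · apply isClosed_eq
    · exact (continuous_integral_eval (hc1.smul hc3)).comp continuous_fst
    · exact continuous_snd
  · intro P
    rw [aeval_pr_snd, ← hA.res.integral_poly P]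
    congr 1; ext1 s
    rw [aeval_pr_fst_apply, coe_bd, smul_smul, mul_comm]

omit [CompleteSpace H] in
/-- (P3) Cauchy's formula inside -/
theorem S_integral_N {A : H →L[ℂ] H} {x : C(D.K, ℂ) × (H →L[ℂ] H)} (hx : x ∈ D.S A)
    {z : D.K} (hz : (z : ℂ) ∈ D.Om) :
    ∫ s in (0:ℝ)..(2*π), x.1 (D.bd s) * D.N s z = x.1 z := by
  have hc1 := D.continuous_w
  have hc2 := D.continuous_sig
  have hcN : Continuous fun s => D.N s z := by
    simp_rw [N_eq]
    exact hc1.div (by (clear * - hc2; fun_prop)) (D.sig_ne_of_mem_Om hz)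
  refine S_induction A (p := fun x =>
    ∫ s in (0:ℝ)..(2*π), x.1 (D.bd s) * D.N s z = x.1 z) ?_ ?_ hx
  · apply isClosed_eq
    · exact (continuous_integral_eval hcN).comp continuous_fst
    · exact (continuous_eval_const z).comp continuous_fst
  · intro P
    rw [aeval_pr_fst_apply, ← integral_poly_mul_N hz P]
    congr 1; ext1 s
    rw [aeval_pr_fst_apply, coe_bd]

omit [CompleteSpace H] in
/-- (P3) Cauchy's theorem outside -/
theorem S_integral_N_eq_zero {A : H →L[ℂ] H} {x : C(D.K, ℂ) × (H →L[ℂ] H)} (hx : x ∈ D.S A)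
    {z : ℂ} (hz : z ∉ D.K) :
    ∫ s in (0:ℝ)..(2*π), x.1 (D.bd s) * D.N s z = 0 := by
  have hc1 := D.continuous_w
  have hc2 := D.continuous_sig
  have hcN : Continuous fun s => D.N s z := by
    simp_rw [N_eq]
    exact hc1.div (by (clear * - hc2; fun_prop)) (D.sig_ne_of_not_mem_K hz)
  refine S_induction A (p := fun x =>
    ∫ s in (0:ℝ)..(2*π), x.1 (D.bd s) * D.N s z = 0) ?_ ?_ hx
  · apply isClosed_eq
    · exact (continuous_integral_eval hcN).comp continuous_fst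
    · exact continuous_const
  · intro P
    rw [← integral_poly_mul_N_eq_zero hz P]
    congr 1; ext1 s
    rw [aeval_pr_fst_apply, coe_bd]

/-- (P1) boundedness of the functional calculus -/
theorem S_norm_snd_le {A : H →L[ℂ] H} {η : ℝ} (hA : D.Inside A η) :
    ∃ kap : ℝ, 0 ≤ kap ∧ ∀ x ∈ D.S A, ‖x.2‖ ≤ kap * ‖x.1‖ := by
  have hc1 := D.continuous_w
  have hc3 := hA.res.continuous_resolvent
  refine ⟨∫ s in (0:ℝ)..(2*π), ‖D.w s • resolvent A (D.sig s)‖, ?_, fun x hx => ?_⟩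
  · apply intervalIntegral.integral_nonneg (by (clear * -; positivity))
    intro s _; (clear * -; positivity)
  · rw [← S_integral_resolvent hA hx]
    have hpos : (0:ℝ) ≤ 2 * π := by positivity
    refine (intervalIntegral.norm_integral_le_integral_norm hpos).trans ?_
    rw [← intervalIntegral.integral_mul_const]
    apply intervalIntegral.integral_mono_on hpos
    · apply Continuous.intervalIntegrable
      have := D.continuous_bd
      have := x.1.continuous
      (clear hx hpos; fun_prop)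
    · apply Continuous.intervalIntegrable
      fun_prop
    · intro s _
      rw [norm_smul, mul_comm]
      exact mul_le_mul_of_nonneg_left (x.1.norm_coe_le_norm _) (norm_nonneg _)

end complete

end Dom
end Vale.Agent.P123
end
end

section

section

namespace Vale.Agent.P123
open Complex MeasureTheory Set Filter Topology Polynomial
open scoped Real ComplexConjugate

theorem map_ringInverse {M N : Type*} [MonoidWithZero M] [MonoidWithZero N] (f : M →* N)
    {y : M} (hy : IsUnit y) : f (Ring.inverse y) = Ring.inverse (f y) := by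
  obtain ⟨u, rfl⟩ := hy
  rw [Ring.inverse_unit]
  have := Ring.inverse_unit (Units.map f u)
  rw [Units.coe_map] at this
  rw [this, ← map_inv, Units.coe_map]

theorem map_resolvent {B B' : Type*} [Ring B] [Algebra ℂ B] [Ring B'] [Algebra ℂ B']
    (φ : B →ₐ[ℂ] B') {y : B} {w : ℂ} (hy : IsUnit (algebraMap ℂ B w - y)) :
    φ (resolvent y w) = resolvent (φ y) w := by
  unfold resolvent
  have := map_ringInverse (φ : B →* B') hy
  simp only [MonoidHom.coe_coe] at this
  rw [this, map_sub, AlgHom.commutes]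

theorem isUnit_const_smul {B : Type*} [Ring B] [Algebra ℂ B] {y : B} {c : ℂ} (hc : c ≠ 0)
    (h : IsUnit y) : IsUnit (c • y) := by
  rw [Algebra.smul_def]
  exact ((isUnit_iff_ne_zero.2 hc).map (algebraMap ℂ B)).mul h

theorem isUnit_smul_sub {B : Type*} [Ring B] [Algebra ℂ B] {y : B} {w c : ℂ} (hc : c ≠ 0)
    (h : IsUnit (algebraMap ℂ B (w / c) - y)) : IsUnit (algebraMap ℂ B w - c • y) := by
  have h1 : algebraMap ℂ B w - c • y = c • (algebraMap ℂ B (w / c) - y) := by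
    rw [smul_sub, Algebra.smul_def c (algebraMap ℂ B (w/c)), ← map_mul, mul_div_cancel₀ _ hc]
  rw [h1]
  exact isUnit_const_smul hc h

namespace Dom
variable {D : Dom}

theorem sig_ne_zero (s : ℝ) : D.sig s ≠ 0 := by
  intro h
  have h1 := D.re_ee_neg_mul_sig s
  rw [h, mul_zero, Complex.zero_re] at h1
  exact absurd (D.h_pos s) (by rw [← h1]; exact lt_irrefl _)

variable {H : Type*} [NormedAddCommGroup H] [InnerProductSpace ℂ H] [CompleteSpace H]

theorem isUnit_pair {A : H →L[ℂ] H} {η : ℝ} (hA : D.Inside A η) (s : ℝ) {r : ℝ}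
    (h0 : 0 ≤ r) (h1 : r < 1) :
    IsUnit (algebraMap ℂ (C(D.K, ℂ) × (H →L[ℂ] H)) (D.sig s) - (r : ℂ) • D.pr A) := by
  rw [Prod.isUnit_iff]
  constructor
  · rw [ContinuousMap.isUnit_iff_forall_ne_zero]
    intro z
    have h2 := D.sig_ne_of_mem_Om (D.smul_mem_Om z.2 h0 h1) s
    simpa only [Prod.algebraMap_apply, pr, Prod.smul_mk, Complex.coe_smul, Prod.mk_sub_mk,     ContinuousMap.sub_apply, _root_.algebraMap_apply, smul_eq_mul, mul_one, ContinuousMap.coe_smul, Pi.smul_apply,     idK_apply, real_smul, ne_eq] using h2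
  · have := hA.res s r ⟨h0, h1.le⟩
    simpa only [Prod.algebraMap_apply, pr, Prod.smul_mk, Complex.coe_smul, Prod.mk_sub_mk] using this

/-- the generator as element of the algebra `S A` -/
noncomputable def xS (D : Dom) (A : H →L[ℂ] H) : D.S A := ⟨D.pr A, D.pr_mem_S A⟩

theorem isUnit_xS_aux {A : H →L[ℂ] H} {η : ℝ} (hA : D.Inside A η) (s : ℝ) {r : ℝ}
    (h0 : 0 < r) (h1 : r < 1) :
    IsUnit (algebraMap ℂ (D.S A) (D.sig s / r) - D.xS A) := by
  have : IsClosed (D.S A : Set (C(D.K, ℂ) × (H →L[ℂ] H))) := D.isClosed_S A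
  by_contra hcon
  have hz : (D.sig s / r) ∈ spectrum ℂ (D.xS A) := by
    rw [spectrum.mem_iff]; exact hcon
  have hb := Subalgebra.spectrum_isBounded_connectedComponentIn (D.S A) (D.xS A) hz
  -- the ray
  set z0 : ℂ := D.sig s / r with hz0
  have hr0 : (r : ℂ) ≠ 0 := by exact_mod_cast h0.ne'
  have hz0' : z0 ≠ 0 := div_ne_zero (sig_ne_zero s) hr0
  have hray : (fun t : ℝ => (t : ℂ) * z0) '' Set.Ici 1 ⊆
      connectedComponentIn (spectrum ℂ ((D.xS A : D.S A) : C(D.K, ℂ) × (H →L[ℂ] H)))ᶜ z0 := by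
    apply IsPreconnected.subset_connectedComponentIn
    · apply isPreconnected_Ici.image
      apply Continuous.continuousOn
      fun_prop
    · exact ⟨1, by simp, by simp⟩
    · rintro _ ⟨t, ht, rfl⟩
      rw [Set.mem_Ici] at ht
      rw [Set.mem_compl_iff, spectrum.mem_iff, not_not]
      have ht0 : 0 < t := lt_of_lt_of_le one_pos ht
      have hu := isUnit_pair hA s (r := r / t) (by (clear * - h0 ht; positivity)) (by
        rw [div_lt_one ht0]; linarith only [h1, ht])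
      have hc : ((t / r : ℝ) : ℂ) ≠ 0 := by
        exact_mod_cast (div_pos ht0 h0).ne'
      have e : algebraMap ℂ (C(D.K, ℂ) × (H →L[ℂ] H)) ((t : ℂ) * z0) - (D.xS A : D.S A)
          = ((t / r : ℝ) : ℂ) •
            (algebraMap ℂ (C(D.K, ℂ) × (H →L[ℂ] H)) (D.sig s) - ((r / t : ℝ) : ℂ) • D.pr A) := by
        rw [smul_sub, smul_smul, Algebra.smul_def _ (algebraMap ℂ _ (D.sig s)), ← map_mul]
        have e1 : ((t / r : ℝ) : ℂ) * D.sig s = (t : ℂ) * z0 := by
          rw [hz0]; push_cast; ring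
        have e2 : ((t / r : ℝ) : ℂ) * ((r / t : ℝ) : ℂ) = 1 := by
          rw [← Complex.ofReal_mul]
          have : t / r * (r / t) = 1 := by (clear * - ht h0; (clear * - ht h0; field_simp))
          rw [this]; simp
        rw [e1, e2, one_smul]; rfl
      rw [e]
      exact isUnit_const_smul hc hu
  have hb2 := hb.subset hray
  rw [Metric.isBounded_iff_subset_closedBall 0] at hb2
  obtain ⟨C, hC⟩ := hb2
  have h3 : ∀ t : ℝ, 1 ≤ t → t * ‖z0‖ ≤ C := by
    intro t ht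
    have := hC ⟨t, ht, rfl⟩
    simp only [Metric.mem_closedBall, dist_zero_right, norm_mul, Complex.norm_real] at this
    rwa [Real.norm_of_nonneg (by linarith only [ht])] at this
  have hpos : 0 < ‖z0‖ := norm_pos_iff.2 hz0'
  have h4 := h3 (max 1 (C / ‖z0‖ + 1)) (le_max_left _ _)
  have h5 : (C / ‖z0‖ + 1) * ‖z0‖ ≤ C :=
    (mul_le_mul_of_nonneg_right (le_max_right _ _) hpos.le).trans h4
  rw [add_mul, div_mul_cancel₀ _ hpos.ne'] at h5
  linarith only [hpos, h5]

theorem completeSpace_S (A : H →L[ℂ] H) : CompleteSpace (D.S A) :=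
  (D.isClosed_S A).completeSpace_coe

theorem res_xS {A : H →L[ℂ] H} {η : ℝ} (hA : D.Inside A η) {r : ℝ}
    (h0 : 0 ≤ r) (h1 : r < 1) : D.Res ((r : ℂ) • D.xS A) := by
  intro s τ hτ
  rw [smul_smul]
  by_cases h : τ * r = 0
  · have : (τ : ℂ) * (r : ℂ) = 0 := by exact_mod_cast h
    rw [this, zero_smul, sub_zero]
    exact (isUnit_iff_ne_zero.2 (sig_ne_zero s)).map (algebraMap ℂ (D.S A))
  · have h2 : 0 < τ * r := lt_of_le_of_ne (mul_nonneg hτ.1 h0) (Ne.symm h)
    have h3 : τ * r < 1 := lt_of_le_of_lt (mul_le_of_le_one_left h0 hτ.2) h1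
    have := isUnit_smul_sub (y := D.xS A) (w := D.sig s) (c := ((τ * r : ℝ) : ℂ))
      (by exact_mod_cast h) (isUnit_xS_aux hA s h2 h3)
    simpa only [ofReal_mul] using this

end Dom
end Vale.Agent.P123
end
end

section

section

namespace Vale.Agent.P123
open Complex MeasureTheory Set Filter Topology Polynomial
open scoped Real ComplexConjugate

namespace Dom
variable {D : Dom}

theorem map_integral_resolvent {B B' : Type*} [NormedRing B] [NormedAlgebra ℂ B]
    [CompleteSpace B] [NormedRing B'] [NormedAlgebra ℂ B'] [CompleteSpace B']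
    (φ : B →ₐ[ℂ] B') (hφ : Continuous φ) {y : B} (hy : D.Res y) {c : ℝ → ℂ}
    (hc : Continuous c) :
    φ (∫ s in (0:ℝ)..(2*π), c s • resolvent y (D.sig s))
      = ∫ s in (0:ℝ)..(2*π), c s • resolvent (φ y) (D.sig s) := by
  have hr := hy.continuous_resolvent
  have h := ContinuousLinearMap.intervalIntegral_comp_comm (μ := volume) (a := (0:ℝ))
    (b := 2*π) (⟨φ.toLinearMap, hφ⟩ : B →L[ℂ] B')
    (f := fun s => c s • resolvent y (D.sig s))
    (Continuous.intervalIntegrable (by (clear * - hc hr; fun_prop)) _ _)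
  have h2 : (⟨φ.toLinearMap, hφ⟩ : B →L[ℂ] B')
      (∫ s in (0:ℝ)..(2*π), c s • resolvent y (D.sig s))
      = φ (∫ s in (0:ℝ)..(2*π), c s • resolvent y (D.sig s)) := rfl
  rw [← h2, ← h]
  congr 1; ext1 s
  have h3 : (⟨φ.toLinearMap, hφ⟩ : B →L[ℂ] B') (c s • resolvent y (D.sig s))
      = φ (c s • resolvent y (D.sig s)) := rfl
  rw [h3, map_smul, map_resolvent φ (hy.isUnit s)]

variable {H : Type*} [NormedAddCommGroup H] [InnerProductSpace ℂ H]

/-- evaluation at a point of `K`, as a character of `S A` -/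
noncomputable def evS (A : H →L[ℂ] H) (z : D.K) : D.S A →ₐ[ℂ] ℂ :=
  (ContinuousMap.evalAlgHom ℂ ℂ z).comp
    ((AlgHom.fst ℂ C(D.K, ℂ) (H →L[ℂ] H)).comp (D.S A).val)

theorem evS_apply (A : H →L[ℂ] H) (z : D.K) (y : D.S A) :
    evS A z y = (y : C(D.K, ℂ) × (H →L[ℂ] H)).1 z := rfl

theorem continuous_evS (A : H →L[ℂ] H) (z : D.K) : Continuous (evS A z) := by
  have : (evS A z : D.S A → ℂ)
      = fun y : D.S A => (y : C(D.K, ℂ) × (H →L[ℂ] H)).1 z := rfl
  rw [this]
  exact (continuous_eval_const z).comp (continuous_fst.comp continuous_subtype_val)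

/-- the operator component -/
noncomputable def opS (A : H →L[ℂ] H) : D.S A →ₐ[ℂ] (H →L[ℂ] H) :=
    (AlgHom.snd ℂ C(D.K, ℂ) (H →L[ℂ] H)).comp (D.S A).val

theorem opS_apply (A : H →L[ℂ] H) (y : D.S A) :
    opS A y = (y : C(D.K, ℂ) × (H →L[ℂ] H)).2 := rfl

theorem continuous_opS (A : H →L[ℂ] H) : Continuous (opS (D := D) A) := by
  have : (opS A : D.S A → (H →L[ℂ] H))
      = fun y : D.S A => (y : C(D.K, ℂ) × (H →L[ℂ] H)).2 := rfl
  rw [this]
  exact continuous_snd.comp continuous_subtype_val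

variable [CompleteSpace H]

/-- the approximants of `α f` -/
noncomputable def Er (A : H →L[ℂ] H) (f : C(D.K, ℂ)) (r : ℝ) : D.S A :=
  ∫ s in (0:ℝ)..(2*π), (conj (f (D.bd s)) * D.w s) • resolvent ((r : ℂ) • D.xS A) (D.sig s)

theorem continuous_conj_mul_w (f : C(D.K, ℂ)) :
    Continuous fun s => conj (f (D.bd s)) * D.w s := by
  have h1 := D.continuous_w
  have h2 := D.continuous_bd
  have h3 := f.continuous
  exact (Complex.continuous_conj.comp (h3.comp h2)).mul h1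

theorem opS_Er {A : H →L[ℂ] H} {η : ℝ} (hA : D.Inside A η) (f : C(D.K, ℂ)) {r : ℝ}
    (h0 : 0 ≤ r) (h1 : r < 1) :
    opS A (Er A f r) = ∫ s in (0:ℝ)..(2*π),
      (conj (f (D.bd s)) * D.w s) • resolvent ((r : ℂ) • A) (D.sig s) := by
  have hcs : CompleteSpace (D.S A) := D.completeSpace_S A
  have h := map_integral_resolvent (D := D) (B := D.S A) (B' := H →L[ℂ] H) (opS (D := D) A)
    (continuous_opS (D := D) A) (res_xS hA h0 h1) (continuous_conj_mul_w f)
  rw [Er, h, map_smul]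
  rfl

theorem evS_Er {A : H →L[ℂ] H} {η : ℝ} (hA : D.Inside A η) (f : C(D.K, ℂ)) {r : ℝ}
    (h0 : 0 ≤ r) (h1 : r < 1) (z : D.K) :
    evS A z (Er A f r) = ∫ s in (0:ℝ)..(2*π), conj (f (D.bd s)) * D.N s (r * z) := by
  have hcs : CompleteSpace (D.S A) := D.completeSpace_S A
  have h := map_integral_resolvent (D := D) (B := D.S A) (B' := ℂ) (evS (D := D) A z)
    (continuous_evS (D := D) A z) (res_xS hA h0 h1) (continuous_conj_mul_w f)
  rw [Er, h, map_smul]
  congr 1; ext1 s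
  have e : evS A z (D.xS A) = (z : ℂ) := rfl
  rw [e, resolvent, N_eq]
  simp only [Algebra.algebraMap_self, RingHom.id_apply, smul_eq_mul, Ring.inverse_eq_inv']
  rw [div_eq_mul_inv]; ring

theorem norm_N_sub_le {s : ℝ} {z z' : ℂ} {W δ e : ℝ} (hW : ‖D.w s‖ ≤ W) (hδ : 0 < δ)
    (h1 : δ ≤ ‖D.sig s - z‖) (h2 : ‖z' - z‖ ≤ e) (h3 : e ≤ δ / 2) :
    ‖D.N s z' - D.N s z‖ ≤ 2 * W * e / δ ^ 2 := by
  have h4 : δ / 2 ≤ ‖D.sig s - z'‖ := by
    have : ‖D.sig s - z‖ ≤ ‖D.sig s - z'‖ + ‖z' - z‖ := by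
      calc ‖D.sig s - z‖ = ‖(D.sig s - z') + (z' - z)‖ := by congr 1; ring
        _ ≤ _ := norm_add_le _ _
    (clear * - h1 h2 h3 this; linarith)
  have hz : D.sig s - z ≠ 0 := by
    intro h; rw [h, norm_zero] at h1; linarith only [hδ, h1]
  have hz' : D.sig s - z' ≠ 0 := by
    intro h; rw [h, norm_zero] at h4; linarith only [hδ, h4]
  have e1 : D.N s z' - D.N s z = D.w s * (z' - z) / ((D.sig s - z') * (D.sig s - z)) := by
    rw [N_eq, N_eq]; field_simp; ring
  have he : 0 ≤ e := (norm_nonneg _).trans h2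
  have hW0 : 0 ≤ W := (norm_nonneg _).trans hW
  rw [e1, norm_div, norm_mul, norm_mul]
  have h5 : δ / 2 * δ ≤ ‖D.sig s - z'‖ * ‖D.sig s - z‖ := by
    apply mul_le_mul h4 h1 hδ.le (norm_nonneg _)
  have h6 : ‖D.w s‖ * ‖z' - z‖ ≤ W * e := mul_le_mul hW h2 (norm_nonneg _) hW0
  calc ‖D.w s‖ * ‖z' - z‖ / (‖D.sig s - z'‖ * ‖D.sig s - z‖)
      ≤ W * e / (δ / 2 * δ) := by
        apply div_le_div₀ (by (clear * - hW0 he; positivity)) h6 (by positivity) h5
    _ = 2 * W * e / δ ^ 2 := by (clear * - hδ; field_simp)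

theorem exists_w_bound (D : Dom) : ∃ W : ℝ, 0 < W ∧ ∀ s, ‖D.w s‖ ≤ W := by
  have hper : Function.Periodic D.w (2*π) := by
    intro s; unfold w; rw [D.R_periodic, ee_periodic]
  obtain ⟨C, hC⟩ := (isCompact_Icc (a := (0:ℝ)) (b := 2*π)).exists_bound_of_continuousOn
    D.continuous_w.continuousOn
  refine ⟨|C| + 1, by (clear * -; positivity), fun s => ?_⟩
  obtain ⟨y, hy, hys⟩ := hper.exists_mem_Ico₀ (by positivity) s
  rw [hys]
  exact (hC y ⟨hy.1, hy.2.le⟩).trans ((le_abs_self C).trans (by linarith only []))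

theorem exists_sig_bound (D : Dom) : ∃ M : ℝ, 0 < M ∧ ∀ s, ‖D.sig s‖ ≤ M := by
  obtain ⟨C, hC0, hC⟩ := D.exists_h_le
  exact ⟨C, hC0, fun s => D.norm_le_of_mem_K hC (D.sig_mem_K s)⟩

theorem ofReal_k (s : ℝ) (z : ℂ) : (D.k s z : ℂ) = D.N s z + conj (D.N s z) := by
  rw [Complex.add_conj, k]

theorem continuous_N {z : ℂ} (hz : ∀ s, D.sig s - z ≠ 0) : Continuous fun s => D.N s z := by
  simp_rw [N_eq]
  exact D.continuous_w.div (D.continuous_sig.sub continuous_const) hz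

theorem continuous_k {z : ℂ} (hz : ∀ s, D.sig s - z ≠ 0) : Continuous fun s => D.k s z := by
  unfold k
  have := continuous_N hz
  fun_prop

end Dom
end Vale.Agent.P123
end
end

section

section

namespace Vale.Agent.P123
open Complex MeasureTheory Set Filter Topology Polynomial
open scoped Real ComplexConjugate

namespace Dom
variable {D : Dom}

section scalar

theorem intervalIntegrable_k_sig_ofReal (D : Dom) (t : ℝ) :
    IntervalIntegrable (fun s => (D.k s (D.sig t) : ℂ)) volume 0 (2*π) := by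
  have h := D.intervalIntegrable_k_sig t
  exact ⟨h.1.ofReal, h.2.ofReal⟩

/-- algebraic identity behind the jump relation -/
theorem jump_identity (f : C(D.K, ℂ)) {z' : D.K} (hz'Om : (z' : ℂ) ∈ D.Om)
    (hC : ∫ s in (0:ℝ)..(2*π), f (D.bd s) * D.N s z' = f z') (t : ℝ) :
    (∫ s in (0:ℝ)..(2*π), f (D.bd s) * conj (D.N s z'))
        - ∫ s in (0:ℝ)..(2*π), f (D.bd s) * (D.k s (D.sig t) : ℂ)
      = (∫ s in (0:ℝ)..(2*π), (f (D.bd s) - f (D.bd t))
        * ((D.k s z' : ℂ) - (D.k s (D.sig t) : ℂ))) + (f (D.bd t) - f z') := by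
  have hz'ne := D.sig_ne_of_mem_Om hz'Om
  have hcN := continuous_N hz'ne
  have hck := continuous_k hz'ne
  have hcf : Continuous fun s => f (D.bd s) := f.continuous.comp D.continuous_bd
  have hint1 : IntervalIntegrable (fun s => f (D.bd s) * (D.k s (D.sig t) : ℂ)) volume 0 (2*π) :=
    (D.intervalIntegrable_k_sig_ofReal t).continuousOn_mul hcf.continuousOn
  have hint2 : IntervalIntegrable (fun s => f (D.bd s) * (D.k s z' : ℂ)) volume 0 (2*π) :=
    (hcf.mul (Complex.continuous_ofReal.comp hck)).intervalIntegrable _ _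
  have hint3 : IntervalIntegrable (fun s => f (D.bd t) * (D.k s (D.sig t) : ℂ))
      volume 0 (2*π) :=
    (D.intervalIntegrable_k_sig_ofReal t).const_mul _
  have hint4 : IntervalIntegrable (fun s => f (D.bd t) * (D.k s z' : ℂ)) volume 0 (2*π) :=
    (continuous_const.mul (Complex.continuous_ofReal.comp hck)).intervalIntegrable _ _
  have hsum : (∫ s in (0:ℝ)..(2*π), f (D.bd s) * conj (D.N s z')) + f z'
      = ∫ s in (0:ℝ)..(2*π), f (D.bd s) * (D.k s z' : ℂ) := by
    rw [← hC, ← intervalIntegral.integral_add]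
    · congr 1; ext1 s
      rw [ofReal_k]; ring
    · exact (hcf.mul (Complex.continuous_conj.comp hcN)).intervalIntegrable _ _
    · exact (hcf.mul hcN).intervalIntegrable _ _
  have hk1 : ∫ s in (0:ℝ)..(2*π), (D.k s (D.sig t) : ℂ) = 1 := by
    rw [intervalIntegral.integral_ofReal, D.integral_k_sig]; simp
  have hk2 : ∫ s in (0:ℝ)..(2*π), (D.k s z' : ℂ) = 2 := by
    rw [intervalIntegral.integral_ofReal, D.integral_k_of_mem_Om hz'Om]; simp
  have hI : ∫ s in (0:ℝ)..(2*π), (f (D.bd s) - f (D.bd t))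
        * ((D.k s z' : ℂ) - (D.k s (D.sig t) : ℂ))
      = (∫ s in (0:ℝ)..(2*π), f (D.bd s) * (D.k s z' : ℂ))
        - (∫ s in (0:ℝ)..(2*π), f (D.bd s) * (D.k s (D.sig t) : ℂ)) - f (D.bd t) := by
    have : ∀ s, (f (D.bd s) - f (D.bd t)) * ((D.k s z' : ℂ) - (D.k s (D.sig t) : ℂ))
        = (f (D.bd s) * (D.k s z' : ℂ) - f (D.bd s) * (D.k s (D.sig t) : ℂ))
          - (f (D.bd t) * (D.k s z' : ℂ) - f (D.bd t) * (D.k s (D.sig t) : ℂ)) := by
      intro s; ring
    simp_rw [this]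
    rw [intervalIntegral.integral_sub (hint2.sub hint1) (hint4.sub hint3),
      intervalIntegral.integral_sub hint2 hint1, intervalIntegral.integral_sub hint4 hint3,
      intervalIntegral.integral_const_mul, intervalIntegral.integral_const_mul, hk1, hk2]
    ring
  rw [hI, ← hsum]; ring

theorem jump_pointwise (f : C(D.K, ℂ)) {z' : ℂ} (hz' : z' ∈ D.K) {W M δ ε r : ℝ} {s t : ℝ}
    (hW : ‖D.w s‖ ≤ W) (hδ : 0 < δ) (hε : 0 < ε) (hr : (1 - r) * M ≤ δ / 2)
    (hdist : ‖z' - D.sig t‖ ≤ (1 - r) * M)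
    (hfδ : ∀ {a b : D.K}, dist a b < δ → dist (f a) (f b) < ε) :
    ‖(f (D.bd s) - f (D.bd t)) * ((D.k s z' : ℂ) - (D.k s (D.sig t) : ℂ))‖
      ≤ ε * (D.k s z' + D.k s (D.sig t))
          + 2 * ‖f‖ * (2 * (2 * W * ((1 - r) * M) / δ ^ 2)) := by
  rw [norm_mul]
  have hk0 : 0 ≤ D.k s z' := D.k_nonneg hz' s
  have hk0' : 0 ≤ D.k s (D.sig t) := D.k_nonneg (D.sig_mem_K t) s
  have hee : 0 ≤ (1 - r) * M := (norm_nonneg _).trans hdist
  have hW0 : 0 ≤ W := (norm_nonneg _).trans hW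
  by_cases hcase : ‖D.sig s - D.sig t‖ < δ
  · have h5 : ‖f (D.bd s) - f (D.bd t)‖ ≤ ε := by
      have : dist (D.bd s) (D.bd t) < δ := by
        rw [Subtype.dist_eq, dist_eq_norm]; exact hcase
      have := hfδ this
      rw [dist_eq_norm] at this
      exact this.le
    have h6 : ‖(D.k s z' : ℂ) - (D.k s (D.sig t) : ℂ)‖ ≤ D.k s z' + D.k s (D.sig t) := by
      refine (norm_sub_le _ _).trans ?_
      rw [Complex.norm_real, Complex.norm_real, Real.norm_of_nonneg hk0,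
        Real.norm_of_nonneg hk0']
    calc ‖f (D.bd s) - f (D.bd t)‖ * ‖(D.k s z' : ℂ) - (D.k s (D.sig t) : ℂ)‖
        ≤ ε * (D.k s z' + D.k s (D.sig t)) :=
          mul_le_mul h5 h6 (norm_nonneg _) hε.le
      _ ≤ _ := by
          have : 0 ≤ 2 * ‖f‖ * (2 * (2 * W * ((1 - r) * M) / δ ^ 2)) := by positivity
          linarith
  · have h5 : ‖f (D.bd s) - f (D.bd t)‖ ≤ 2 * ‖f‖ := by
      refine (norm_sub_le _ _).trans ?_
      have := f.norm_coe_le_norm (D.bd s)
      have := f.norm_coe_le_norm (D.bd t)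
      linarith
    have h6 : ‖(D.k s z' : ℂ) - (D.k s (D.sig t) : ℂ)‖
        ≤ 2 * (2 * W * ((1 - r) * M) / δ ^ 2) := by
      have h7 := norm_N_sub_le hW hδ (not_lt.1 hcase) hdist hr
      rw [← Complex.ofReal_sub, Complex.norm_real]
      have h8 : D.k s z' - D.k s (D.sig t) = 2 * (D.N s z' - D.N s (D.sig t)).re := by
        unfold k; rw [Complex.sub_re]; ring
      rw [h8, norm_mul, Real.norm_of_nonneg (by norm_num : (0:ℝ) ≤ 2)]
      have h9 : ‖(D.N s z' - D.N s (D.sig t)).re‖ ≤ ‖D.N s z' - D.N s (D.sig t)‖ := by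
        rw [Real.norm_eq_abs]; exact Complex.abs_re_le_norm _
      linarith
    calc ‖f (D.bd s) - f (D.bd t)‖ * ‖(D.k s z' : ℂ) - (D.k s (D.sig t) : ℂ)‖
        ≤ 2 * ‖f‖ * (2 * (2 * W * ((1 - r) * M) / δ ^ 2)) :=
          mul_le_mul h5 h6 (norm_nonneg _) (by positivity)
      _ ≤ _ := by
          have : 0 ≤ ε * (D.k s z' + D.k s (D.sig t)) := by positivity
          linarith

/-- jump relation, uniformly on the boundary (scalar form) -/
theorem jump_scalar (f : C(D.K, ℂ))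
    (hC : ∀ z : D.K, (z : ℂ) ∈ D.Om → ∫ s in (0:ℝ)..(2*π), f (D.bd s) * D.N s z = f z)
    {ε : ℝ} (hε : 0 < ε) :
    ∃ r0 : ℝ, r0 < 1 ∧ ∀ r : ℝ, r0 < r → 0 ≤ r → r < 1 → ∀ t : ℝ,
      ‖(∫ s in (0:ℝ)..(2*π), f (D.bd s) * conj (D.N s ((r : ℂ) * D.sig t)))
        - ∫ s in (0:ℝ)..(2*π), f (D.bd s) * (D.k s (D.sig t) : ℂ)‖ ≤ 5 * ε := by
  obtain ⟨W, hW0, hW⟩ := D.exists_w_bound
  obtain ⟨M, hM0, hM⟩ := D.exists_sig_bound
  have huc : UniformContinuous f :=
    CompactSpace.uniformContinuous_of_continuous f.continuous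
  obtain ⟨δ, hδ, hfδ⟩ := Metric.uniformContinuous_iff.1 huc ε hε
  -- choose r0
  have hF : 0 ≤ ‖f‖ := norm_nonneg _
  set c : ℝ := 2 * ‖f‖ * (2 * (2 * W * M / δ ^ 2)) * (2 * π) + 1 with hc
  have hc0 : 0 < c := by positivity
  refine ⟨1 - min (δ / (2 * M)) (ε / c), by
    have : 0 < min (δ / (2 * M)) (ε / c) := by positivity
    linarith, fun r hr h0 h1 t => ?_⟩
  have hr1 : (1 - r) * M < δ / 2 := by
    have : 1 - r < δ / (2 * M) := by
      have := min_le_left (δ / (2 * M)) (ε / c)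
      linarith
    calc (1 - r) * M < δ / (2 * M) * M := by gcongr
      _ = δ / 2 := by field_simp
  have hr2 : (1 - r) * c < ε := by
    have : 1 - r < ε / c := by
      have := min_le_right (δ / (2 * M)) (ε / c)
      linarith
    calc (1 - r) * c < ε / c * c := by gcongr
      _ = ε := by field_simp
  have hz'Om : (r : ℂ) * D.sig t ∈ D.Om := D.smul_mem_Om (D.sig_mem_K t) h0 h1
  obtain ⟨z', hz'⟩ : ∃ z' : D.K, (z' : ℂ) = (r : ℂ) * D.sig t := ⟨⟨_, D.Om_subset_K hz'Om⟩, rfl⟩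
  rw [← hz'] at hz'Om ⊢
  have hdist : ‖(z' : ℂ) - D.sig t‖ ≤ (1 - r) * M := by
    have : (z' : ℂ) - D.sig t = ((-(1 - r) : ℝ) : ℂ) * D.sig t := by
      rw [hz']; push_cast; ring
    rw [this, norm_mul, Complex.norm_real, norm_neg, Real.norm_of_nonneg (by linarith)]
    exact mul_le_mul_of_nonneg_left (hM t) (by linarith)
  have hck := continuous_k (D.sig_ne_of_mem_Om hz'Om)
  rw [jump_identity f hz'Om (hC z' hz'Om) t]
  have hlast : ‖f (D.bd t) - f z'‖ ≤ ε := by
    have : dist (D.bd t) z' < δ := by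
      rw [Subtype.dist_eq, dist_comm, dist_eq_norm]
      calc ‖(z' : ℂ) - D.sig t‖ ≤ (1 - r) * M := hdist
        _ < δ := by linarith
    have := hfδ this
    rw [dist_eq_norm] at this
    exact this.le
  have hpos : (0:ℝ) ≤ 2 * π := by positivity
  have hint : IntervalIntegrable (fun s => ε * (D.k s z' + D.k s (D.sig t))) volume 0 (2*π) := by
    apply IntervalIntegrable.const_mul
    exact (hck.intervalIntegrable _ _).add (D.intervalIntegrable_k_sig t)
  have hb : ‖∫ s in (0:ℝ)..(2*π), (f (D.bd s) - f (D.bd t))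
        * ((D.k s z' : ℂ) - (D.k s (D.sig t) : ℂ))‖
      ≤ ∫ s in (0:ℝ)..(2*π), (ε * (D.k s z' + D.k s (D.sig t))
          + 2 * ‖f‖ * (2 * (2 * W * ((1 - r) * M) / δ ^ 2))) := by
    apply intervalIntegral.norm_integral_le_of_norm_le hpos
    · refine Filter.Eventually.of_forall fun s _ => ?_
      exact jump_pointwise f z'.2 (hW s) hδ hε hr1.le hdist (fun {_ _} h => hfδ h)
    · exact hint.add intervalIntegrable_const
  have hb2 : ∫ s in (0:ℝ)..(2*π), (ε * (D.k s z' + D.k s (D.sig t))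
          + 2 * ‖f‖ * (2 * (2 * W * ((1 - r) * M) / δ ^ 2)))
      = ε * 3 + (1 - r) * (c - 1) := by
    rw [intervalIntegral.integral_add hint intervalIntegrable_const,
      intervalIntegral.integral_const_mul,
      intervalIntegral.integral_add (hck.intervalIntegrable _ _) (D.intervalIntegrable_k_sig t),
      D.integral_k_of_mem_Om hz'Om, D.integral_k_sig, intervalIntegral.integral_const, hc]
    simp only [smul_eq_mul]; ring
  rw [hb2] at hb
  calc _ ≤ _ := norm_add_le _ _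
    _ ≤ (ε * 3 + (1 - r) * (c - 1)) + ε := add_le_add hb hlast
    _ ≤ 5 * ε := by nlinarith

end scalar

end Dom
end Vale.Agent.P123
end
end

section

section

namespace Vale.Agent.P123

open Complex MeasureTheory Set
open scoped Real

/-- support function of a planar set -/
noncomputable def suppFn (W : Set ℂ) (s : ℝ) : ℝ := sSup ((fun w : ℂ => (ee (-s) * w).re) '' W)

lemma ee_re_le {M : ℝ} {w : ℂ} (hw : ‖w‖ ≤ M) (s : ℝ) : (ee s * w).re ≤ M := by
  calc (ee s * w).re ≤ ‖ee s * w‖ := Complex.re_le_norm _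
    _ = ‖w‖ := by rw [norm_mul, norm_ee, one_mul]
    _ ≤ M := hw

lemma bdd_supp {W : Set ℂ} {M : ℝ} (hW : ∀ w ∈ W, ‖w‖ ≤ M) (s : ℝ) :
    BddAbove ((fun w : ℂ => (ee (-s) * w).re) '' W) := by
  refine ⟨M, ?_⟩
  rintro _ ⟨w, hw, rfl⟩
  exact ee_re_le (hW w hw) _

lemma le_suppFn {W : Set ℂ} {M : ℝ} (hW : ∀ w ∈ W, ‖w‖ ≤ M) {w : ℂ} (hw : w ∈ W) (s : ℝ) :
    (ee (-s) * w).re ≤ suppFn W s :=
  le_csSup (bdd_supp hW s) ⟨w, hw, rfl⟩

lemma suppFn_le {W : Set ℂ} (hne : W.Nonempty) {s b : ℝ}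
    (hb : ∀ w ∈ W, (ee (-s) * w).re ≤ b) : suppFn W s ≤ b := by
  refine csSup_le (hne.image _) ?_
  rintro _ ⟨w, hw, rfl⟩
  exact hb w hw

lemma norm_ee_sub_le (s t : ℝ) : ‖ee s - ee t‖ ≤ |s - t| := by
  have h1 : ee s - ee t = ee t * (Complex.exp (Complex.I * ((s - t : ℝ) : ℂ)) - 1) := by
    unfold ee
    rw [mul_sub, ← Complex.exp_add, mul_one]
    congr 2
    push_cast; ring
  rw [h1, norm_mul, norm_ee, one_mul]
  exact Real.norm_exp_I_mul_ofReal_sub_one_le

lemma suppFn_sub_le {W : Set ℂ} {M : ℝ} (hne : W.Nonempty) (hW : ∀ w ∈ W, ‖w‖ ≤ M) (s t : ℝ) :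
    suppFn W s ≤ suppFn W t + M * |s - t| := by
  refine suppFn_le hne fun w hw => ?_
  have h1 : (ee (-s) * w).re = (ee (-t) * w).re + ((ee (-s) - ee (-t)) * w).re := by
    rw [sub_mul, Complex.sub_re]; ring
  have h2 : ((ee (-s) - ee (-t)) * w).re ≤ M * |s - t| := by
    calc ((ee (-s) - ee (-t)) * w).re ≤ ‖(ee (-s) - ee (-t)) * w‖ := Complex.re_le_norm _
      _ = ‖ee (-s) - ee (-t)‖ * ‖w‖ := norm_mul _ _
      _ ≤ |-s - -t| * M := by
        gcongr
        · exact norm_ee_sub_le _ _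
        · exact hW w hw
      _ = M * |s - t| := by
        rw [show -s - -t = -(s - t) by ring, abs_neg]; ring
  rw [h1]
  exact add_le_add (le_suppFn hW hw t) h2

lemma abs_suppFn_sub_le {W : Set ℂ} {M : ℝ} (hne : W.Nonempty) (hW : ∀ w ∈ W, ‖w‖ ≤ M) (s t : ℝ) :
    |suppFn W s - suppFn W t| ≤ M * |s - t| := by
  rw [abs_sub_le_iff]
  constructor
  · have := suppFn_sub_le hne hW s t; linarith
  · have := suppFn_sub_le hne hW t s
    rw [abs_sub_comm] at this; linarith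

lemma continuous_suppFn {W : Set ℂ} {M : ℝ} (hne : W.Nonempty) (hW : ∀ w ∈ W, ‖w‖ ≤ M) :
    Continuous (suppFn W) := by
  have hM : 0 ≤ M := by
    obtain ⟨w, hw⟩ := hne
    exact (norm_nonneg _).trans (hW w hw)
  have : LipschitzWith ⟨M, hM⟩ (suppFn W) := by
    refine LipschitzWith.of_dist_le_mul fun s t => ?_
    rw [Real.dist_eq, Real.dist_eq]
    exact abs_suppFn_sub_le hne hW s t
  exact this.continuous

lemma ee_neg_periodic (s : ℝ) : ee (-(s + 2 * π)) = ee (-s) := by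
  rw [← ee_periodic (-(s + 2 * π))]
  congr 1; ring

lemma suppFn_periodic (W : Set ℂ) (s : ℝ) : suppFn W (s + 2 * π) = suppFn W s := by
  unfold suppFn
  simp only [ee_neg_periodic]

/-- sinusoid identity -/
lemma ee_add_ee (s u : ℝ) (w : ℂ) :
    (ee (-(s + u)) * w).re + (ee (-(s - u)) * w).re = 2 * Real.cos u * (ee (-s) * w).re := by
  have h1 : ee (-(s + u)) + ee (-(s - u)) = 2 * (Real.cos u : ℂ) * ee (-s) := by
    unfold ee
    rw [show ((-(s + u) : ℝ) : ℂ) * Complex.I = ((-s : ℝ) : ℂ) * Complex.I + -((u : ℂ)) * Complex.I by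
      push_cast; ring,
      show ((-(s - u) : ℝ) : ℂ) * Complex.I = ((-s : ℝ) : ℂ) * Complex.I + ((u : ℂ)) * Complex.I by
      push_cast; ring, Complex.exp_add, Complex.exp_add, Complex.ofReal_cos, Complex.cos]
    ring
  rw [← Complex.add_re, ← add_mul, h1]
  rw [show 2 * (Real.cos u : ℂ) * ee (-s) * w = ((2 * Real.cos u : ℝ) : ℂ) * (ee (-s) * w) by
    push_cast; ring, Complex.re_ofReal_mul]

end Vale.Agent.P123
end
end

section

section

open Complex ComplexConjugate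
open scoped InnerProductSpace

namespace Vale.Agent.P123

variable {H : Type*} [NormedAddCommGroup H] [InnerProductSpace ℂ H]

/-- The numerical range of a bounded operator. -/
def numRange (A : H →L[ℂ] H) : Set ℂ :=
  {z : ℂ | ∃ x : H, ‖x‖ = 1 ∧ inner ℂ x (A x) = z}

lemma exists_rot (c : ℂ) : ∃ l : ℂ, ‖l‖ = 1 ∧ (l * c).im = 0 := by
  by_cases hc : c = 0
  · exact ⟨1, by simp, by simp [hc]⟩
  · refine ⟨conj c / ‖c‖, ?_, ?_⟩
    · rw [norm_div, Complex.norm_conj, Complex.norm_real, Real.norm_eq_abs, abs_of_nonneg (norm_nonneg _)]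
      exact div_self (by simpa using hc)
    · have : conj c / (‖c‖ : ℂ) * c = ((‖c‖ : ℝ) : ℂ) := by
        have h1 : conj c * c = ((‖c‖ ^ 2 : ℝ) : ℂ) := by
          rw [mul_comm, Complex.mul_conj, Complex.normSq_eq_norm_sq]
        have h2 : ((‖c‖ : ℝ) : ℂ) ≠ 0 := by
          simpa using hc
        field_simp
        rw [mul_comm, mul_comm] at *
        rw [h1]; push_cast; ring
      rw [this]; simp

lemma inner_mem_of_ne_zero (A : H →L[ℂ] H) {x : H} (hx : x ≠ 0) :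
    inner ℂ x (A x) / ((‖x‖ : ℂ) ^ 2) ∈ numRange A := by
  have hn : (‖x‖ : ℂ) ≠ 0 := by simpa using hx
  refine ⟨(‖x‖ : ℂ)⁻¹ • x, ?_, ?_⟩
  · rw [norm_smul, norm_inv, Complex.norm_real, norm_norm]
    exact inv_mul_cancel₀ (by simpa using hx)
  · rw [map_smul, inner_smul_left, inner_smul_right, map_inv₀, Complex.conj_ofReal]
    field_simp

/-- normalised case: `0` and `1` in the numerical range. -/
lemma segment_aux (B : H →L[ℂ] H) {x y : H} (hx : ‖x‖ = 1) (hy : ‖y‖ = 1)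
    (h0 : inner ℂ x (B x) = 0) (h1 : inner ℂ y (B y) = 1) {t : ℝ} (ht0 : 0 ≤ t) (ht1 : t ≤ 1) :
    (t : ℂ) ∈ numRange B := by
  -- rotate x
  obtain ⟨l, hl, hlim⟩ := exists_rot (inner ℂ y (B x) - conj (inner ℂ x (B y)))
  set u : H := l • x with hu
  have hux : ‖u‖ = 1 := by rw [hu, norm_smul, hl, hx, one_mul]
  have hu0 : inner ℂ u (B u) = 0 := by
    rw [hu, map_smul, inner_smul_left, inner_smul_right, h0]; simp
  have him : (inner ℂ y (B u) + inner ℂ u (B y)).im = 0 := by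
    rw [hu, map_smul, inner_smul_left, inner_smul_right]
    have : (l * inner ℂ y (B x) + conj l * inner ℂ x (B y)).im
        = (l * (inner ℂ y (B x) - conj (inner ℂ x (B y)))).im := by
      simp only [Complex.add_im, Complex.mul_im, Complex.sub_re, Complex.sub_im, Complex.conj_re,
        Complex.conj_im]
      ring
    rw [this, hlim]
  clear_value u
  -- the path
  set z : ℝ → H := fun s => ((1 - s : ℝ) : ℂ) • u + ((s : ℝ) : ℂ) • y with hz
  have hzne : ∀ s, z s ≠ 0 := by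
    intro s hs
    have e1 : ((1 - s : ℝ) : ℂ) • u = -(((s : ℝ) : ℂ) • y) := by
      exact eq_neg_of_add_eq_zero_left hs
    have e2 : inner ℂ (((1 - s : ℝ) : ℂ) • u) (B (((1 - s : ℝ) : ℂ) • u)) = 0 := by
      rw [map_smul, inner_smul_left, inner_smul_right, hu0]; simp
    rw [e1] at e2
    rw [map_neg, inner_neg_neg, map_smul, inner_smul_left, inner_smul_right, h1] at e2
    have hs0 : s = 0 := by
      have : ((s : ℝ) : ℂ) = 0 := by
        simpa using e2
      exact_mod_cast this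
    rw [hs0] at e1
    simp at e1
    rw [e1] at hux
    simp at hux
  have hzc : Continuous z := by
    rw [hz]; fun_prop
  -- real valued quotient
  set q : ℝ → ℝ := fun s => (inner ℂ (z s) (B (z s))).re / ‖z s‖ ^ 2 with hq
  have hqc : Continuous q := by
    rw [hq]
    refine Continuous.div ?_ ?_ ?_
    · have : Continuous fun s => inner ℂ (z s) (B (z s)) :=
        hzc.inner (B.continuous.comp hzc)
      exact Complex.continuous_re.comp this
    · exact (hzc.norm).pow 2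
    · intro s
      exact pow_ne_zero 2 (norm_ne_zero_iff.mpr (hzne s))
  have hq0 : q 0 = 0 := by
    simp only [hq, hz]
    simp [hu0]
  have hq1 : q 1 = 1 := by
    simp only [hq, hz]
    simp [h1, hy]
  have himz : ∀ s, (inner ℂ (z s) (B (z s))).im = 0 := by
    intro s
    have hexp : inner ℂ (z s) (B (z s)) = (((1 - s) * s : ℝ) : ℂ) *
        (inner ℂ y (B u) + inner ℂ u (B y)) + ((s * s : ℝ) : ℂ) := by
      simp only [hz]
      rw [map_add, map_smul (B) (((1 - s : ℝ) : ℂ)) u, map_smul (B) ((s : ℝ) : ℂ) y,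
        inner_add_left, inner_add_right, inner_add_right]
      rw [inner_smul_left, inner_smul_left, inner_smul_left, inner_smul_left,
        inner_smul_right, inner_smul_right, inner_smul_right, inner_smul_right, hu0, h1,
        Complex.conj_ofReal, Complex.conj_ofReal]
      push_cast
      ring
    rw [hexp, Complex.add_im, Complex.im_ofReal_mul, him, Complex.ofReal_im]
    ring
  have hmem : t ∈ Set.Icc (q 0) (q 1) := by rw [hq0, hq1]; exact ⟨ht0, ht1⟩
  obtain ⟨s, _, hs⟩ := intermediate_value_Icc (by norm_num : (0:ℝ) ≤ 1) hqc.continuousOn hmem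
  have key := inner_mem_of_ne_zero B (hzne s)
  have e3 : inner ℂ (z s) (B (z s)) = (((inner ℂ (z s) (B (z s))).re : ℝ) : ℂ) := by
    apply Complex.ext
    · simp
    · simp [himz s]
  rw [e3] at key
  have e4 : (((inner ℂ (z s) (B (z s))).re : ℝ) : ℂ) / ((‖z s‖ : ℂ) ^ 2) = (t : ℂ) := by
    rw [← hs]; simp only [hq]; push_cast; rfl
  rw [e4] at key
  exact key

/-- Toeplitz-Hausdorff theorem. -/
theorem convex_numRange (A : H →L[ℂ] H) : Convex ℝ (numRange A) := by
  rw [convex_iff_segment_subset]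
  rintro p ⟨x, hx, hp⟩ q ⟨y, hy, hq⟩
  by_cases hpq : p = q
  · subst hpq
    rw [segment_same]
    rintro _ rfl
    exact ⟨x, hx, hp⟩
  intro w hw
  rw [segment_eq_image] at hw
  obtain ⟨t, ⟨ht0, ht1⟩, rfl⟩ := hw
  have hd : q - p ≠ 0 := sub_ne_zero.mpr (Ne.symm hpq)
  set B : H →L[ℂ] H := (q - p)⁻¹ • (A - p • ContinuousLinearMap.id ℂ H) with hB
  have hBv : ∀ v : H, ‖v‖ = 1 → inner ℂ v (B v) = (q - p)⁻¹ * (inner ℂ v (A v) - p) := by
    intro v hv
    rw [hB]
    simp only [smul_apply, sub_apply,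
      ContinuousLinearMap.id_apply, inner_smul_right, inner_sub_right]
    rw [inner_self_eq_norm_sq_to_K, hv]; simp
  have h0 : inner ℂ x (B x) = 0 := by rw [hBv x hx, hp]; simp
  have h1 : inner ℂ y (B y) = 1 := by rw [hBv y hy, hq]; exact inv_mul_cancel₀ hd
  obtain ⟨v, hv, hvt⟩ := segment_aux B hx hy h0 h1 ht0 ht1
  refine ⟨v, hv, ?_⟩
  rw [hBv v hv] at hvt
  have : inner ℂ v (A v) - p = (q - p) * t := by
    rw [← hvt]; field_simp
  have h2 : inner ℂ v (A v) = p + (q - p) * t := by rw [← this]; ring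
  rw [h2]
  simp only [Complex.real_smul]
  push_cast
  ring

lemma norm_le_of_mem_numRange (A : H →L[ℂ] H) {z : ℂ} (hz : z ∈ numRange A) : ‖z‖ ≤ ‖A‖ := by
  obtain ⟨x, hx, rfl⟩ := hz
  calc ‖inner ℂ x (A x)‖ ≤ ‖x‖ * ‖A x‖ := norm_inner_le_norm _ _
    _ ≤ ‖x‖ * (‖A‖ * ‖x‖) := by gcongr; exact A.le_opNorm x
    _ = ‖A‖ := by rw [hx]; ring

lemma numRange_nonempty [Nontrivial H] (A : H →L[ℂ] H) : (numRange A).Nonempty := by
  obtain ⟨x, hx⟩ := exists_ne (0 : H)
  exact ⟨_, inner_mem_of_ne_zero A hx⟩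

end Vale.Agent.P123
end
end

section

section

namespace Vale.Agent.P123
open Complex MeasureTheory Set Filter Topology Polynomial
open scoped Real ComplexConjugate

namespace Dom
variable {D : Dom}

theorem smul_sig_not_mem_K (t : ℝ) {l : ℝ} (hl : 1 < l) : (l : ℂ) * D.sig t ∉ D.K := by
  intro h
  have h1 := h t
  have h2 := D.re_ee_neg_mul_sig t
  have h3 : (ee (-t) * ((l : ℂ) * D.sig t)).re = l * D.h t := by
    rw [← h2, ← Complex.re_ofReal_mul]
    congr 1
    ring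
  rw [h3] at h1
  have := D.h_pos t
  nlinarith only [h1, hl, this]

theorem hasDerivAt_contour_l {G : ℂ → ℂ} (hG : ∀ z, z ∉ D.K → DifferentiableAt ℂ G z) (s : ℝ)
    {l : ℝ} (hl : 1 < l) :
    HasDerivAt (fun l : ℝ => (l : ℂ) * D.w s * G ((l : ℂ) * D.sig s))
      (D.w s * (G ((l : ℂ) * D.sig s) + (l : ℂ) * D.sig s * deriv G ((l : ℂ) * D.sig s))) l := by
  have h1 : HasDerivAt (fun l : ℝ => (l : ℂ)) 1 l := Complex.ofRealCLM.hasDerivAt (x := l)
  have h2 : HasDerivAt (fun l : ℝ => (l : ℂ) * D.sig s) (1 * D.sig s) l := h1.mul_const _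
  have h3 := (hG _ (smul_sig_not_mem_K s hl)).hasDerivAt
  have h4 := HasDerivAt.comp l h3 h2
  have h5 := (h1.mul_const (D.w s)).mul h4
  refine h5.congr_deriv ?_
  simp only [Function.comp_apply]
  ring

theorem hasDerivAt_contour_s {G : ℂ → ℂ} (hG : ∀ z, z ∉ D.K → DifferentiableAt ℂ G z) (s : ℝ)
    {l : ℝ} (hl : 1 < l) :
    HasDerivAt (fun s : ℝ => D.sig s * G ((l : ℂ) * D.sig s))
      (2 * π * Complex.I * (D.w s *
        (G ((l : ℂ) * D.sig s) + (l : ℂ) * D.sig s * deriv G ((l : ℂ) * D.sig s)))) s := by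
  have h1 := D.hasDerivAt_sig s
  have h2 := h1.const_mul (l : ℂ)
  have h3 := (hG _ (smul_sig_not_mem_K s hl)).hasDerivAt
  have h4 := HasDerivAt.comp s h3 h2
  have h5 := h1.mul h4
  refine h5.congr_deriv ?_
  simp only [Function.comp_apply]
  unfold w
  have := pi_ne_zero_C
  (clear * - this; field_simp)

theorem continuousOn_contour {G : ℂ → ℂ} (hG : ∀ z, z ∉ D.K → DifferentiableAt ℂ G z) :
    ContinuousOn (fun q : ℝ × ℝ => D.w q.2 *
      (G ((q.1 : ℂ) * D.sig q.2) + (q.1 : ℂ) * D.sig q.2 * deriv G ((q.1 : ℂ) * D.sig q.2)))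
      (Ioi (1:ℝ) ×ˢ univ) := by
  have ho : IsOpen D.Kᶜ := D.isClosed_K.isOpen_compl
  have hd : DifferentiableOn ℂ G D.Kᶜ := fun z hz => (hG z hz).differentiableWithinAt
  have hc : ContinuousOn G D.Kᶜ := hd.continuousOn
  have hc' : ContinuousOn (deriv G) D.Kᶜ := (hd.deriv ho).continuousOn
  have hm : Continuous (fun q : ℝ × ℝ => (q.1 : ℂ) * D.sig q.2) :=
    (Complex.continuous_ofReal.comp continuous_fst).mul (D.continuous_sig.comp continuous_snd)
  have hmap : MapsTo (fun q : ℝ × ℝ => (q.1 : ℂ) * D.sig q.2) (Ioi (1:ℝ) ×ˢ univ) D.Kᶜ :=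
    fun q hq => smul_sig_not_mem_K q.2 hq.1
  have hw : Continuous (fun q : ℝ × ℝ => D.w q.2) := by
    unfold w
    exact (((Complex.continuous_ofReal.comp D.continuous_R).mul continuous_ee).div_const _).comp
      continuous_snd
  exact hw.continuousOn.mul ((hc.comp hm.continuousOn hmap).add
    (hm.continuousOn.mul (hc'.comp hm.continuousOn hmap)))

theorem continuousOn_contour' {G : ℂ → ℂ} (hG : ∀ z, z ∉ D.K → DifferentiableAt ℂ G z) :
    ContinuousOn (fun q : ℝ × ℝ => (q.1 : ℂ) * D.w q.2 * G ((q.1 : ℂ) * D.sig q.2))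
      (Ioi (1:ℝ) ×ˢ univ) := by
  have hd : DifferentiableOn ℂ G D.Kᶜ := fun z hz => (hG z hz).differentiableWithinAt
  have hc : ContinuousOn G D.Kᶜ := hd.continuousOn
  have h1 : Continuous (fun q : ℝ × ℝ => (q.1 : ℂ)) := Complex.continuous_ofReal.comp continuous_fst
  have hm : Continuous (fun q : ℝ × ℝ => (q.1 : ℂ) * D.sig q.2) :=
    h1.mul (D.continuous_sig.comp continuous_snd)
  have hmap : MapsTo (fun q : ℝ × ℝ => (q.1 : ℂ) * D.sig q.2) (Ioi (1:ℝ) ×ˢ univ) D.Kᶜ :=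
    fun q hq => smul_sig_not_mem_K q.2 hq.1
  have hw : Continuous (fun q : ℝ × ℝ => D.w q.2) := by
    unfold w
    exact (((Complex.continuous_ofReal.comp D.continuous_R).mul continuous_ee).div_const _).comp
      continuous_snd
  exact (h1.continuousOn.mul hw.continuousOn).mul (hc.comp hm.continuousOn hmap)

theorem continuous_slice {f : ℝ × ℝ → ℂ} (hf : ContinuousOn f (Ioi (1:ℝ) ×ˢ univ)) {l : ℝ}
    (hl : 1 < l) : Continuous (fun s => f (l, s)) := by
  rw [continuous_iff_continuousAt]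
  intro s
  have h1 : ContinuousAt f (l, s) :=
    hf.continuousAt ((isOpen_Ioi.prod isOpen_univ).mem_nhds ⟨hl, mem_univ _⟩)
  exact ContinuousAt.comp (g := f) (f := fun s => (l, s)) h1
    (Continuous.prodMk_right l).continuousAt

theorem contour_deriv_integral {G : ℂ → ℂ} (hG : ∀ z, z ∉ D.K → DifferentiableAt ℂ G z)
    {l : ℝ} (hl : 1 < l) :
    ∫ s in (0:ℝ)..(2*π), D.w s *
      (G ((l : ℂ) * D.sig s) + (l : ℂ) * D.sig s * deriv G ((l : ℂ) * D.sig s)) = 0 := by
  have hc := continuous_slice (continuousOn_contour hG) hl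
  have h1 := intervalIntegral.integral_eq_sub_of_hasDerivAt (a := 0) (b := 2 * π)
    (fun s _ => hasDerivAt_contour_s (D := D) hG s hl)
    ((continuous_const.mul hc).intervalIntegrable _ _)
  have h2 : D.sig (2 * π) = D.sig 0 := by
    have := D.sig_periodic 0
    rwa [zero_add] at this
  rw [h2, sub_self, intervalIntegral.integral_const_mul] at h1
  have h3 : (2 * π * Complex.I : ℂ) ≠ 0 := Complex.two_pi_I_ne_zero
  exact (mul_eq_zero.mp h1).resolve_left h3

theorem hasDerivAt_contour {G : ℂ → ℂ} (hG : ∀ z, z ∉ D.K → DifferentiableAt ℂ G z)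
    {l : ℝ} (hl : 1 < l) :
    HasDerivAt (fun l : ℝ => ∫ s in (0:ℝ)..(2*π), (l : ℂ) * D.w s * G ((l : ℂ) * D.sig s)) 0 l := by
  obtain ⟨m, hm1, hml⟩ := exists_between hl
  have hs : Icc m (l + 1) ∈ 𝓝 l := Icc_mem_nhds hml (by linarith only [])
  have hcomp : IsCompact (Icc m (l + 1) ×ˢ Icc (0:ℝ) (2*π)) := isCompact_Icc.prod isCompact_Icc
  obtain ⟨C, hC⟩ := hcomp.exists_bound_of_continuousOn ((continuousOn_contour (D := D) hG).mono
    (fun q hq => ⟨lt_of_lt_of_le hm1 hq.1.1, mem_univ _⟩))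
  have key := intervalIntegral.hasDerivAt_integral_of_dominated_loc_of_deriv_le
    (μ := volume) (a := 0) (b := 2 * π) (bound := fun _ => C)
    (F := fun (l : ℝ) (s : ℝ) => (l : ℂ) * D.w s * G ((l : ℂ) * D.sig s))
    (F' := fun (l : ℝ) (s : ℝ) => D.w s *
      (G ((l : ℂ) * D.sig s) + (l : ℂ) * D.sig s * deriv G ((l : ℂ) * D.sig s)))
    (x₀ := l) (s := Icc m (l + 1)) hs ?_ ?_ ?_ ?_ ?_ ?_
  · have h := key.2
    rwa [contour_deriv_integral hG hl] at h
  · filter_upwards [hs] with x hx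
    exact (continuous_slice (continuousOn_contour' hG)
      (lt_of_lt_of_le hm1 hx.1)).aestronglyMeasurable
  · exact (continuous_slice (continuousOn_contour' hG) hl).intervalIntegrable _ _
  · exact (continuous_slice (continuousOn_contour hG) hl).aestronglyMeasurable
  · filter_upwards with t ht x hx
    rw [uIoc_of_le Real.two_pi_pos.le] at ht
    exact hC (x, t) ⟨hx, ⟨ht.1.le, ht.2⟩⟩
  · exact intervalIntegrable_const
  · filter_upwards with t _ x hx
    exact hasDerivAt_contour_l hG t (lt_of_lt_of_le hm1 hx.1)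

theorem contour_const {G : ℂ → ℂ} (hG : ∀ z, z ∉ D.K → DifferentiableAt ℂ G z)
    {l m : ℝ} (hl : 1 < l) (hm : l ≤ m) :
    ∫ s in (0:ℝ)..(2*π), (m : ℂ) * D.w s * G ((m : ℂ) * D.sig s) =
      ∫ s in (0:ℝ)..(2*π), (l : ℂ) * D.w s * G ((l : ℂ) * D.sig s) := by
  have h := constant_of_has_deriv_right_zero
    (f := fun l : ℝ => ∫ s in (0:ℝ)..(2*π), (l : ℂ) * D.w s * G ((l : ℂ) * D.sig s))
    (a := l) (b := m) ?_ ?_ m ⟨hm, le_rfl⟩
  · exact h
  · exact fun x hx => (hasDerivAt_contour hG (lt_of_lt_of_le hl hx.1)).continuousAt.continuousWithinAt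
  · exact fun x hx => (hasDerivAt_contour hG (lt_of_lt_of_le hl hx.1)).hasDerivWithinAt

theorem exists_norm_sig_ge : ∃ δ : ℝ, 0 < δ ∧ ∀ s, δ ≤ ‖D.sig s‖ := by
  obtain ⟨c, hc, hcs⟩ := D.exists_gap_ge D.zero_mem_Om
  refine ⟨c, hc, fun s => ?_⟩
  have h1 := hcs s
  have h2 := D.re_ee_neg_mul_sig s
  have h3 := (abs_le.1 (abs_re_ee_mul_le (-s) (D.sig s))).2
  unfold gap at h1
  simp only [mul_zero, Complex.zero_re, sub_zero] at h1
  linarith

theorem contour {G : ℂ → ℂ} (hG : ∀ z, z ∉ D.K → DifferentiableAt ℂ G z) {c : ℂ}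
    (hc : Tendsto (fun z => z * G z) (Bornology.cobounded ℂ) (𝓝 c)) {l : ℝ} (hl : 1 < l) :
    ∫ s in (0:ℝ)..(2*π), (l : ℂ) * D.w s * G ((l : ℂ) * D.sig s) = c := by
  obtain ⟨δ, hδ, hδs⟩ := exists_norm_sig_ge (D := D)
  have hsig0 : ∀ s, D.sig s ≠ 0 := fun s => by
    rw [← norm_pos_iff]
    exact lt_of_lt_of_le hδ (hδs s)
  have hcN : Continuous (fun s => D.N s 0) := continuous_iff_continuousAt.2 fun s =>
    D.continuousAt_N (by rw [sub_zero]; exact hsig0 s)
  have hlim : Tendsto (fun m : ℝ => ∫ s in (0:ℝ)..(2*π),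
      (m : ℂ) * D.w s * G ((m : ℂ) * D.sig s)) atTop
      (𝓝 (∫ s in (0:ℝ)..(2*π), D.N s 0 * c)) := by
    have hbd : ∀ᶠ z in Bornology.cobounded ℂ, ‖z * G z‖ ≤ ‖c‖ + 1 := by
      have := hc.norm.eventually (eventually_lt_nhds (lt_add_one ‖c‖))
      filter_upwards [this] with z hz
      exact hz.le
    have hcob : ∀ s, Tendsto (fun m : ℝ => (m : ℂ) * D.sig s) atTop (Bornology.cobounded ℂ) := by
      intro s
      rw [tendsto_norm_atTop_iff_cobounded.symm]
      have : (fun m : ℝ => ‖(m : ℂ) * D.sig s‖) = fun m => |m| * ‖D.sig s‖ := by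
        funext m
        rw [norm_mul, Complex.norm_real, Real.norm_eq_abs]
      rw [this]
      exact tendsto_abs_atTop_atTop.atTop_mul_const (norm_pos_iff.2 (hsig0 s))
    have heq : ∀ (m s : ℝ), (m : ℂ) * D.w s * G ((m : ℂ) * D.sig s) =
        D.N s 0 * ((m : ℂ) * D.sig s * G ((m : ℂ) * D.sig s)) := by
      intro m s
      have h1 := hsig0 s
      have h2 := pi_ne_zero_C
      unfold w N
      rw [sub_zero]
      field_simp
    apply intervalIntegral.tendsto_integral_filter_of_dominated_convergence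
      (fun s => ‖D.N s 0‖ * (‖c‖ + 1))
    · filter_upwards [eventually_gt_atTop 1] with m hm
      exact (continuous_slice (continuousOn_contour' hG) hm).aestronglyMeasurable
    · obtain ⟨R, hR⟩ : ∃ R : ℝ, ∀ z : ℂ, R ≤ ‖z‖ → ‖z * G z‖ ≤ ‖c‖ + 1 := by
        rw [← comap_norm_atTop, eventually_comap] at hbd
        obtain ⟨R, hR⟩ := eventually_atTop.1 hbd
        exact ⟨R, fun z hz => hR ‖z‖ hz z rfl⟩
      filter_upwards [eventually_ge_atTop (max R 0 / δ)] with m hm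
      filter_upwards with s _
      rw [heq, norm_mul]
      apply mul_le_mul_of_nonneg_left _ (norm_nonneg _)
      apply hR
      rw [norm_mul, Complex.norm_real, Real.norm_eq_abs]
      rw [div_le_iff₀ hδ] at hm
      have hm0 : 0 ≤ m := by
        by_contra h
        have h0 : m * δ < 0 := mul_neg_of_neg_of_pos (not_le.1 h) hδ
        linarith [le_max_right R 0]
      rw [abs_of_nonneg hm0]
      have := mul_le_mul_of_nonneg_left (hδs s) hm0
      linarith only [hm, this, le_max_left R 0]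
    · exact (hcN.norm.mul continuous_const).intervalIntegrable _ _
    · filter_upwards with s _
      simp_rw [heq]
      exact (hc.comp (hcob s)).const_mul _
  rw [intervalIntegral.integral_mul_const, D.integral_N_of_mem_Om D.zero_mem_Om, one_mul] at hlim
  have hconst : Tendsto (fun m : ℝ => ∫ s in (0:ℝ)..(2*π),
      (m : ℂ) * D.w s * G ((m : ℂ) * D.sig s)) atTop
      (𝓝 (∫ s in (0:ℝ)..(2*π), (l : ℂ) * D.w s * G ((l : ℂ) * D.sig s))) := by
    refine tendsto_const_nhds.congr' ?_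
    filter_upwards [eventually_ge_atTop l] with m hm
    exact (contour_const hG hl hm).symm
  exact tendsto_nhds_unique hconst hlim

end Dom
end Vale.Agent.P123
end
end

section

section

/-!
(W1) The stationary density of a positive continuous Markov kernel on the circle.
-/

namespace Vale.Agent.P123

open MeasureTheory Set Filter Topology

namespace Doeblin

/-- A strictly positive continuous Markov kernel, periodic with period `T`. -/
structure Ker (T : ℝ) (k : ℝ → ℝ → ℝ) : Prop where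
  T_pos : 0 < T
  cont : Continuous (Function.uncurry k)
  per₁ : ∀ s t, k (s + T) t = k s t
  per₂ : ∀ s t, k s (t + T) = k s t
  pos : ∀ s t, 0 < k s t
  mass : ∀ t, ∫ s in (0:ℝ)..T, k s t = 1

variable {T : ℝ} {k : ℝ → ℝ → ℝ}

theorem swap {E : Type*} [NormedAddCommGroup E] [NormedSpace ℝ E] {F : ℝ → ℝ → E}
    (hF : Continuous (Function.uncurry F)) (a b c d : ℝ) :
    ∫ x in a..b, ∫ y in c..d, F x y = ∫ y in c..d, ∫ x in a..b, F x y := by
  apply intervalIntegral_intervalIntegral_swap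
  have hc : IsCompact (uIcc a b ×ˢ uIcc c d) := isCompact_uIcc.prod isCompact_uIcc
  exact (hF.continuousOn.integrableOn_compact hc).mono_set
    (Set.prod_mono uIoc_subset_uIcc uIoc_subset_uIcc)

/-- every point is equivalent to a point of the fundamental interval -/
theorem exists_int (hT : 0 < T) (s : ℝ) : ∃ n : ℤ, s + n * T ∈ Icc (0:ℝ) T := by
  obtain ⟨n, hn, _⟩ := existsUnique_add_zsmul_mem_Ico hT s 0
  refine ⟨n, ?_⟩
  rw [zero_add] at hn
  rw [zsmul_eq_mul] at hn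
  exact ⟨hn.1, hn.2.le⟩

theorem per_int {f : ℝ → ℝ} (hf : ∀ s, f (s + T) = f s) (n : ℤ) (s : ℝ) :
    f (s + n * T) = f s := (show Function.Periodic f T from hf).int_mul n s

theorem Ker.exists_bounds (hk : Ker T k) : ∃ c B : ℝ, 0 < c ∧ c ≤ B ∧ ∀ s t, c ≤ k s t ∧ k s t ≤ B := by
  have hcomp : IsCompact (Icc (0:ℝ) T ×ˢ Icc (0:ℝ) T) := isCompact_Icc.prod isCompact_Icc
  have hne : (Icc (0:ℝ) T ×ˢ Icc (0:ℝ) T).Nonempty :=
    ⟨(0, 0), ⟨⟨le_rfl, hk.T_pos.le⟩, ⟨le_rfl, hk.T_pos.le⟩⟩⟩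
  obtain ⟨p, _, hp⟩ := hcomp.exists_isMinOn hne hk.cont.continuousOn
  obtain ⟨q, _, hq⟩ := hcomp.exists_isMaxOn hne hk.cont.continuousOn
  have hall : ∀ s t, k p.1 p.2 ≤ k s t ∧ k s t ≤ k q.1 q.2 := by
    intro s t
    obtain ⟨m, hm⟩ := exists_int hk.T_pos s
    obtain ⟨n, hn⟩ := exists_int hk.T_pos t
    have h1 : k (s + m * T) (t + n * T) = k s t := by
      rw [per_int (f := fun s => k s (t + n * T)) (fun s => hk.per₁ s _) m s]
      exact per_int (f := fun t => k s t) (fun t => hk.per₂ s t) n t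
    rw [← h1]
    exact ⟨hp (Set.mk_mem_prod hm hn), hq (Set.mk_mem_prod hm hn)⟩
  exact ⟨_, _, hk.pos p.1 p.2, (hall p.1 p.2).2, hall⟩

/-- the dual operator -/
noncomputable def dual (T : ℝ) (k : ℝ → ℝ → ℝ) (w : ℝ → ℝ) (s : ℝ) : ℝ :=
  ∫ t in (0:ℝ)..T, k s t * w t

theorem Ker.continuous_dual (hk : Ker T k) {w : ℝ → ℝ} (hw : Continuous w) :
    Continuous (dual T k w) := by
  unfold dual
  apply intervalIntegral.continuous_parametric_intervalIntegral_of_continuous'
  exact hk.cont.mul (hw.comp continuous_snd)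

theorem Ker.integral_dual (hk : Ker T k) {w : ℝ → ℝ} (hw : Continuous w) :
    ∫ s in (0:ℝ)..T, dual T k w s = ∫ t in (0:ℝ)..T, w t := by
  unfold dual
  rw [swap (F := fun s t => k s t * w t) (hk.cont.mul (hw.comp continuous_snd))]
  refine intervalIntegral.integral_congr (fun t _ => ?_)
  rw [intervalIntegral.integral_mul_const, hk.mass, one_mul]

/-- L¹ contraction of the dual operator. -/
theorem Ker.contract (hk : Ker T k) {c : ℝ} (hc : ∀ s t, c ≤ k s t) {w : ℝ → ℝ}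
    (hw : Continuous w) (h0 : ∫ t in (0:ℝ)..T, w t = 0) :
    ∫ s in (0:ℝ)..T, |dual T k w s| ≤ (1 - c * T) * ∫ t in (0:ℝ)..T, |w t| := by
  have h1 : ∀ s, |dual T k w s| ≤ ∫ t in (0:ℝ)..T, (k s t - c) * |w t| := by
    intro s
    have h2 : dual T k w s = ∫ t in (0:ℝ)..T, (k s t - c) * w t := by
      unfold dual
      have h3 : ∀ t, (k s t - c) * w t = k s t * w t - c * w t := fun t => by ring
      simp_rw [h3]
      rw [intervalIntegral.integral_sub, intervalIntegral.integral_const_mul, h0]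
      · ring
      · exact ((hk.cont.comp (by fun_prop : Continuous fun t => (s, t))).mul hw).intervalIntegrable _ _
      · exact (continuous_const.mul hw).intervalIntegrable _ _
    rw [h2]
    refine (intervalIntegral.abs_integral_le_integral_abs hk.T_pos.le).trans (le_of_eq ?_)
    refine intervalIntegral.integral_congr (fun t _ => ?_)
    rw [abs_mul, abs_of_nonneg (by linarith [hc s t])]
  have hcontF : Continuous (Function.uncurry fun s t => (k s t - c) * |w t|) :=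
    (hk.cont.sub continuous_const).mul (continuous_abs.comp (hw.comp continuous_snd))
  have h4 : ∫ s in (0:ℝ)..T, |dual T k w s| ≤
      ∫ s in (0:ℝ)..T, ∫ t in (0:ℝ)..T, (k s t - c) * |w t| := by
    refine intervalIntegral.integral_mono_on hk.T_pos.le ?_ ?_ (fun s _ => h1 s)
    · exact (continuous_abs.comp (hk.continuous_dual hw)).intervalIntegrable _ _
    · exact (intervalIntegral.continuous_parametric_intervalIntegral_of_continuous'
        hcontF 0 T).intervalIntegrable _ _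
  refine h4.trans (le_of_eq ?_)
  rw [swap hcontF, ← intervalIntegral.integral_const_mul]
  refine intervalIntegral.integral_congr (fun t _ => ?_)
  rw [intervalIntegral.integral_mul_const, intervalIntegral.integral_sub, hk.mass]
  · simp only [intervalIntegral.integral_const, sub_zero, smul_eq_mul, mul_eq_mul_right_iff, sub_right_inj, abs_eq_zero]; left; ring
  · exact (hk.cont.comp (by fun_prop : Continuous fun s => (s, t))).intervalIntegrable _ _
  · exact continuous_const.intervalIntegrable _ _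

/-- sup bound of the dual operator. -/
theorem Ker.abs_dual_le (hk : Ker T k) {B : ℝ} (hB : ∀ s t, k s t ≤ B) {w : ℝ → ℝ}
    (hw : Continuous w) (s : ℝ) : |dual T k w s| ≤ B * ∫ t in (0:ℝ)..T, |w t| := by
  unfold dual
  refine (intervalIntegral.abs_integral_le_integral_abs hk.T_pos.le).trans ?_
  rw [← intervalIntegral.integral_const_mul]
  refine intervalIntegral.integral_mono_on hk.T_pos.le ?_ ?_ (fun t _ => ?_)
  · exact (continuous_abs.comp ((hk.cont.comp (by fun_prop : Continuous fun t => (s, t))).mul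
      hw)).intervalIntegrable _ _
  · exact (continuous_const.mul (continuous_abs.comp hw)).intervalIntegrable _ _
  · rw [abs_mul, abs_of_pos (hk.pos s t)]
    exact mul_le_mul_of_nonneg_right (hB s t) (abs_nonneg _)

theorem Ker.dual_sub (hk : Ker T k) {w w' : ℝ → ℝ} (hw : Continuous w) (hw' : Continuous w')
    (s : ℝ) : dual T k (fun t => w t - w' t) s = dual T k w s - dual T k w' s := by
  unfold dual
  rw [← intervalIntegral.integral_sub]
  · refine intervalIntegral.integral_congr (fun t _ => ?_)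
    ring
  · exact ((hk.cont.comp (by fun_prop : Continuous fun t => (s, t))).mul hw).intervalIntegrable _ _
  · exact ((hk.cont.comp (by fun_prop : Continuous fun t => (s, t))).mul hw').intervalIntegrable _ _

/-- Existence of the stationary density. -/
theorem Ker.exists_stationary (hk : Ker T k) : ∃ w : ℝ → ℝ, Continuous w ∧
    (∀ s, w (s + T) = w s) ∧ (∀ s, 0 < w s) ∧ (∫ s in (0:ℝ)..T, w s = 1) ∧
    ∀ s, ∫ t in (0:ℝ)..T, k s t * w t = w s := by
  obtain ⟨c, B, hc0, hcB, hb⟩ := hk.exists_bounds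
  have hT := hk.T_pos
  -- the ratio
  have hcT : c * T ≤ 1 := by
    have h1 : ∫ s in (0:ℝ)..T, c ≤ ∫ s in (0:ℝ)..T, k s 0 :=
      intervalIntegral.integral_mono_on hT.le (continuous_const.intervalIntegrable _ _)
        ((hk.cont.comp (by fun_prop : Continuous fun s => (s, (0:ℝ)))).intervalIntegrable _ _)
        (fun s _ => (hb s 0).1)
    rw [hk.mass] at h1
    simp only [intervalIntegral.integral_const, sub_zero, smul_eq_mul] at h1
    linarith only [h1]
  set r : ℝ := 1 - c * T with hr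
  have hr0 : 0 ≤ r := by linarith only [hcT]
  have hr1 : r < 1 := by
    have : 0 < c * T := by (clear * - hc0 hT; positivity)
    linarith only [this]
  -- the iterates
  set W : ℕ → ℝ → ℝ := fun n => (dual T k)^[n] (fun _ => 1 / T) with hW
  have hWs : ∀ n, W (n + 1) = dual T k (W n) := fun n => Function.iterate_succ_apply' _ _ _
  have hWc : ∀ n, Continuous (W n) := by
    intro n
    induction n with
    | zero => exact continuous_const
    | succ n ih => rw [hWs]; exact hk.continuous_dual ih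
  have hW1 : ∀ n, ∫ s in (0:ℝ)..T, W n s = 1 := by
    intro n
    induction n with
    | zero =>
      simp only [hW, Function.iterate_zero, id]
      simp only [one_div, intervalIntegral.integral_const, sub_zero, smul_eq_mul, ne_eq, hT.ne', not_false_eq_true, mul_inv_cancel₀]
    | succ n ih => rw [hWs, hk.integral_dual (hWc n), ih]
  set e : ℕ → ℝ → ℝ := fun n s => W (n + 1) s - W n s with he
  have hec : ∀ n, Continuous (e n) := fun n => (hWc (n + 1)).sub (hWc n)
  have he0 : ∀ n, ∫ s in (0:ℝ)..T, e n s = 0 := by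
    intro n
    simp only [he]
    rw [intervalIntegral.integral_sub ((hWc (n + 1)).intervalIntegrable _ _)
      ((hWc n).intervalIntegrable _ _), hW1, hW1, sub_self]
  have hes : ∀ n s, e (n + 1) s = dual T k (e n) s := by
    intro n s
    simp only [he]
    rw [hk.dual_sub (hWc (n + 1)) (hWc n), ← hWs, ← hWs]
  set I : ℝ := ∫ s in (0:ℝ)..T, |e 0 s| with hI
  have hI0 : 0 ≤ I := intervalIntegral.integral_nonneg hT.le (fun _ _ => abs_nonneg _)
  have hel1 : ∀ n, ∫ s in (0:ℝ)..T, |e n s| ≤ r ^ n * I := by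
    intro n
    induction n with
    | zero => simp only [pow_zero, hI, one_mul, Std.le_refl]
    | succ n ih =>
      have h1 := hk.contract (fun s t => (hb s t).1) (hec n) (he0 n)
      have h2 : ∫ s in (0:ℝ)..T, |e (n + 1) s| = ∫ s in (0:ℝ)..T, |dual T k (e n) s| :=
        intervalIntegral.integral_congr (fun s _ => by rw [hes])
      rw [h2]
      refine h1.trans ((mul_le_mul_of_nonneg_left ih hr0).trans (le_of_eq ?_))
      ring
  have hB0 : 0 ≤ B := hc0.le.trans hcB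
  have hesup : ∀ n s, |e (n + 1) s| ≤ B * I * r ^ n := by
    intro n s
    rw [hes]
    refine (hk.abs_dual_le (fun s t => (hb s t).2) (hec n) s).trans ?_
    have := mul_le_mul_of_nonneg_left (hel1 n) hB0
    linarith only [this]
  have hsum : Summable (fun n => B * I * r ^ n) :=
    (summable_geometric_of_lt_one hr0 hr1).mul_left _
  -- the limit
  set w : ℝ → ℝ := fun s => W 1 s + ∑' n, e (n + 1) s with hw
  have hwc : Continuous w := by
    refine (hWc 1).add (continuous_tsum (fun n => hec (n + 1)) hsum (fun n s => ?_))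
    rw [Real.norm_eq_abs]
    exact hesup n s
  have htel : ∀ n s, W (n + 1) s = W 1 s + ∑ i ∈ Finset.range n, e (i + 1) s := by
    intro n s
    induction n with
    | zero => simp
    | succ n ih =>
      rw [Finset.sum_range_succ, ← add_assoc, ← ih]
      simp only [he]
      ring
  have hunif : TendstoUniformly (fun n => W (n + 1)) w atTop := by
    have h1 := tendstoUniformly_tsum_nat (f := fun n s => e (n + 1) s) hsum
      (fun n s => by rw [Real.norm_eq_abs]; exact hesup n s)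
    have h2 : (fun n => W (n + 1)) = fun n s => W 1 s + ∑ i ∈ Finset.range n, e (i + 1) s := by
      funext n s
      exact htel n s
    rw [h2, Metric.tendstoUniformly_iff]
    rw [Metric.tendstoUniformly_iff] at h1
    intro ε hε
    filter_upwards [h1 ε hε] with n hn s
    have := hn s
    simp only [hw, dist_add_left]
    exact this
  have hpt : ∀ s, Tendsto (fun n => W (n + 1) s) atTop (𝓝 (w s)) := fun s =>
    hunif.tendsto_at s
  -- stationarity
  have hint : ∀ g : ℝ → ℝ, Continuous g →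
      Tendsto (fun n => ∫ t in (0:ℝ)..T, g t * W (n + 1) t) atTop
        (𝓝 (∫ t in (0:ℝ)..T, g t * w t)) := by
    intro g hg
    rw [Metric.tendsto_atTop]
    intro ε hε
    set G : ℝ := ∫ t in (0:ℝ)..T, |g t| with hG
    have hG0 : 0 ≤ G := intervalIntegral.integral_nonneg hT.le (fun _ _ => abs_nonneg _)
    rw [Metric.tendstoUniformly_iff] at hunif
    obtain ⟨N, hN⟩ := eventually_atTop.mp (hunif (ε / (G + 1)) (by (clear * - hε hG0; positivity)))
    refine ⟨N, fun n hn => ?_⟩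
    have hsub : (∫ t in (0:ℝ)..T, g t * W (n + 1) t) - (∫ t in (0:ℝ)..T, g t * w t) =
        ∫ t in (0:ℝ)..T, (g t * W (n + 1) t - g t * w t) :=
      (intervalIntegral.integral_sub ((hg.mul (hWc (n + 1))).intervalIntegrable _ _)
        ((hg.mul hwc).intervalIntegrable _ _)).symm
    rw [Real.dist_eq, hsub]
    refine (intervalIntegral.abs_integral_le_integral_abs hT.le).trans_lt ?_
    have h1 : ∫ t in (0:ℝ)..T, |g t * W (n + 1) t - g t * w t| ≤
        ∫ t in (0:ℝ)..T, |g t| * (ε / (G + 1)) := by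
      refine intervalIntegral.integral_mono_on hT.le ?_ ?_ (fun t _ => ?_)
      · exact (continuous_abs.comp ((hg.mul (hWc (n + 1))).sub (hg.mul hwc))).intervalIntegrable _ _
      · exact ((continuous_abs.comp hg).mul continuous_const).intervalIntegrable _ _
      · rw [← mul_sub, abs_mul]
        refine mul_le_mul_of_nonneg_left ?_ (abs_nonneg _)
        have := hN n hn t
        rw [dist_comm, Real.dist_eq] at this
        exact this.le
    refine h1.trans_lt ?_
    rw [intervalIntegral.integral_mul_const, ← hG, mul_div_assoc', div_lt_iff₀ (by (clear * - hG0; positivity))]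
    nlinarith only [hε]
  have hstat : ∀ s, ∫ t in (0:ℝ)..T, k s t * w t = w s := by
    intro s
    have h1 := hint (fun t => k s t) (hk.cont.comp (by fun_prop : Continuous fun t => (s, t)))
    have h2 : (fun n => ∫ t in (0:ℝ)..T, k s t * W (n + 1) t) = fun n => W (n + 1 + 1) s := by
      funext n
      rw [hWs (n + 1)]
      rfl
    rw [h2] at h1
    exact tendsto_nhds_unique h1 ((hpt s).comp (tendsto_add_atTop_nat 1))
  have hmass : ∫ s in (0:ℝ)..T, w s = 1 := by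
    have h1 := hint (fun _ => 1) continuous_const
    simp only [one_mul] at h1
    have h2 : (fun n => ∫ t in (0:ℝ)..T, W (n + 1) t) = fun _ => (1:ℝ) := by
      funext n
      exact hW1 (n + 1)
    rw [h2] at h1
    exact tendsto_nhds_unique h1 tendsto_const_nhds
  have hWnn : ∀ n s, 0 ≤ W n s := by
    intro n
    induction n with
    | zero => intro s; simp only [hW, Function.iterate_zero, id]; positivity
    | succ n ih =>
      intro s
      rw [hWs]
      exact intervalIntegral.integral_nonneg hT.le (fun t _ => mul_nonneg (hk.pos s t).le (ih t))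
  have hwnn : ∀ s, 0 ≤ w s := fun s => ge_of_tendsto' (hpt s) (fun n => hWnn (n + 1) s)
  refine ⟨w, hwc, ?_, ?_, hmass, hstat⟩
  · intro s
    rw [← hstat (s + T), ← hstat s]
    refine intervalIntegral.integral_congr (fun t _ => ?_)
    rw [hk.per₁]
  · intro s
    rw [← hstat s]
    have h1 : ∫ t in (0:ℝ)..T, c * w t ≤ ∫ t in (0:ℝ)..T, k s t * w t := by
      refine intervalIntegral.integral_mono_on hT.le ?_ ?_ (fun t _ => ?_)
      · exact (continuous_const.mul hwc).intervalIntegrable _ _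
      · exact ((hk.cont.comp (by fun_prop : Continuous fun t => (s, t))).mul hwc).intervalIntegrable
          _ _
      · exact mul_le_mul_of_nonneg_right (hb s t).1 (hwnn t)
    rw [intervalIntegral.integral_const_mul, hmass, mul_one] at h1
    linarith only [hc0, h1]

/-- the operator on functions -/
noncomputable def fwd (T : ℝ) (k : ℝ → ℝ → ℝ) (φ : ℝ → ℂ) (t : ℝ) : ℂ :=
  ∫ s in (0:ℝ)..T, φ s * (k s t : ℂ)

theorem Ker.continuous_fwd (hk : Ker T k) {φ : ℝ → ℂ} (hφ : Continuous φ) :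
    Continuous (fwd T k φ) := by
  unfold fwd
  apply intervalIntegral.continuous_parametric_intervalIntegral_of_continuous'
  have h : Continuous fun p : ℝ × ℝ => k p.2 p.1 := hk.cont.comp continuous_swap
  exact (hφ.comp continuous_snd).mul (Complex.continuous_ofReal.comp h)

theorem Ker.inv (hk : Ker T k) {w : ℝ → ℝ} (hw : Continuous w)
    (hstat : ∀ s, ∫ t in (0:ℝ)..T, k s t * w t = w s) {φ : ℝ → ℂ} (hφ : Continuous φ) :
    ∫ t in (0:ℝ)..T, fwd T k φ t * (w t : ℂ) = ∫ t in (0:ℝ)..T, φ t * (w t : ℂ) := by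
  have hkc : Continuous fun p : ℝ × ℝ => k p.2 p.1 := hk.cont.comp continuous_swap
  have hF : Continuous (Function.uncurry fun t s => φ s * (k s t : ℂ) * (w t : ℂ)) :=
    ((hφ.comp continuous_snd).mul (Complex.continuous_ofReal.comp hkc)).mul
      (Complex.continuous_ofReal.comp (hw.comp continuous_fst))
  have h1 : ∀ t, fwd T k φ t * (w t : ℂ) = ∫ s in (0:ℝ)..T, φ s * (k s t : ℂ) * (w t : ℂ) := by
    intro t
    unfold fwd
    rw [intervalIntegral.integral_mul_const]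
  simp_rw [h1]
  rw [swap hF]
  refine intervalIntegral.integral_congr (fun s _ => ?_)
  have h2 : ∀ t, φ s * (k s t : ℂ) * (w t : ℂ) = φ s * ((k s t * w t : ℝ) : ℂ) := by
    intro t
    push_cast
    ring
  simp_rw [h2]
  rw [intervalIntegral.integral_const_mul, intervalIntegral.integral_ofReal, hstat]

theorem Ker.norm_fwd_sub_le (hk : Ker T k) {w : ℝ → ℝ} (hw : Continuous w)
    (hmass : ∫ s in (0:ℝ)..T, w s = 1) {δ : ℝ} (hδ : ∀ s t, δ * w s ≤ k s t) {φ : ℝ → ℂ}
    (hφ : Continuous φ) {M : ℝ}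
    (hM : ∀ s ∈ Icc (0:ℝ) T, ‖φ s - ∫ s in (0:ℝ)..T, φ s * (w s : ℂ)‖ ≤ M) (t : ℝ) :
    ‖fwd T k φ t - ∫ s in (0:ℝ)..T, φ s * (w s : ℂ)‖ ≤ (1 - δ) * M := by
  set m : ℂ := ∫ s in (0:ℝ)..T, φ s * (w s : ℂ) with hm
  have hkc : Continuous fun s => k s t := hk.cont.comp (by fun_prop : Continuous fun s => (s, t))
  have hkC : Continuous fun s => (k s t : ℂ) := Complex.continuous_ofReal.comp hkc
  have hwC : Continuous fun s => (w s : ℂ) := Complex.continuous_ofReal.comp hw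
  have hmassC : ∫ s in (0:ℝ)..T, (k s t : ℂ) = 1 := by
    rw [intervalIntegral.integral_ofReal, hk.mass]; simp
  have hwmassC : ∫ s in (0:ℝ)..T, (w s : ℂ) = 1 := by
    rw [intervalIntegral.integral_ofReal, hmass]; simp
  have h1 : fwd T k φ t - m = ∫ s in (0:ℝ)..T, (φ s - m) * (((k s t - δ * w s : ℝ)) : ℂ) := by
    have h2 : ∀ s, (φ s - m) * (((k s t - δ * w s : ℝ)) : ℂ) =
        φ s * (k s t : ℂ) - m * (k s t : ℂ) - (δ : ℂ) * (φ s * (w s : ℂ) - m * (w s : ℂ)) := by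
      intro s
      push_cast
      ring
    simp_rw [h2]
    have i1 : IntervalIntegrable (fun s => φ s * (k s t : ℂ)) volume 0 T :=
      (hφ.mul hkC).intervalIntegrable _ _
    have i2 : IntervalIntegrable (fun s => m * (k s t : ℂ)) volume 0 T :=
      (continuous_const.mul hkC).intervalIntegrable _ _
    have i3 : IntervalIntegrable (fun s => φ s * (w s : ℂ)) volume 0 T :=
      (hφ.mul hwC).intervalIntegrable _ _
    have i4 : IntervalIntegrable (fun s => m * (w s : ℂ)) volume 0 T :=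
      (continuous_const.mul hwC).intervalIntegrable _ _
    rw [intervalIntegral.integral_sub (i1.sub i2) ((i3.sub i4).const_mul _),
      intervalIntegral.integral_sub i1 i2, intervalIntegral.integral_const_mul,
      intervalIntegral.integral_const_mul, intervalIntegral.integral_sub i3 i4,
      intervalIntegral.integral_const_mul, hmassC, hwmassC, ← hm]
    unfold fwd
    ring
  rw [h1]
  have hcont : Continuous fun s => k s t - δ * w s := hkc.sub (continuous_const.mul hw)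
  have h3 : ‖∫ s in (0:ℝ)..T, (φ s - m) * (((k s t - δ * w s : ℝ)) : ℂ)‖ ≤
      ∫ s in (0:ℝ)..T, M * (k s t - δ * w s) := by
    refine (intervalIntegral.norm_integral_le_integral_norm hk.T_pos.le).trans ?_
    refine intervalIntegral.integral_mono_on hk.T_pos.le ?_ ?_ (fun s hs => ?_)
    · exact (((hφ.sub continuous_const).mul
        (Complex.continuous_ofReal.comp hcont)).norm).intervalIntegrable _ _
    · exact (continuous_const.mul hcont).intervalIntegrable _ _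
    · rw [norm_mul, Complex.norm_real, Real.norm_eq_abs,
        abs_of_nonneg (by linarith only [hδ s t])]
      exact mul_le_mul_of_nonneg_right (hM s hs) (by linarith [hδ s t])
  refine h3.trans (le_of_eq ?_)
  have i5 : IntervalIntegrable (fun s => k s t) volume 0 T := hkc.intervalIntegrable _ _
  have i6 : IntervalIntegrable (fun s => δ * w s) volume 0 T :=
    (continuous_const.mul hw).intervalIntegrable _ _
  rw [intervalIntegral.integral_const_mul, intervalIntegral.integral_sub i5 i6,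
    intervalIntegral.integral_const_mul, hk.mass, hmass]
  ring

/-- Uniform convergence of the iterates to the stationary mean. -/
theorem Ker.lim (hk : Ker T k) {w : ℝ → ℝ} (hw : Continuous w) (hpos : ∀ s, 0 < w s)
    (hmass : ∫ s in (0:ℝ)..T, w s = 1)
    (hstat : ∀ s, ∫ t in (0:ℝ)..T, k s t * w t = w s) {φ : ℝ → ℂ} (hφ : Continuous φ)
    {ε : ℝ} (hε : 0 < ε) : ∃ N : ℕ, ∀ n : ℕ, N ≤ n → ∀ t : ℝ,
      ‖((fwd T k)^[n] φ) t - ∫ s in (0:ℝ)..T, φ s * (w s : ℂ)‖ ≤ ε := by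
  obtain ⟨c, B, hc0, hcB, hb⟩ := hk.exists_bounds
  have hB0 : 0 < B := hc0.trans_le hcB
  set m : ℂ := ∫ s in (0:ℝ)..T, φ s * (w s : ℂ) with hm
  have hwB : ∀ s, w s ≤ B := by
    intro s
    rw [← hstat s]
    have h1 : ∫ t in (0:ℝ)..T, k s t * w t ≤ ∫ t in (0:ℝ)..T, B * w t := by
      refine intervalIntegral.integral_mono_on hk.T_pos.le ?_ ?_ (fun t _ => ?_)
      · exact ((hk.cont.comp (by fun_prop : Continuous fun t => (s, t))).mul hw).intervalIntegrable
          _ _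
      · exact (continuous_const.mul hw).intervalIntegrable _ _
      · exact mul_le_mul_of_nonneg_right (hb s t).2 (hpos t).le
    rw [intervalIntegral.integral_const_mul, hmass, mul_one] at h1
    exact h1
  set δ : ℝ := c / B with hδ
  have hδ0 : 0 < δ := by (clear * - hc0 hB0; positivity)
  have hδ1 : δ ≤ 1 := by rw [hδ, div_le_one hB0]; exact hcB
  have hδk : ∀ s t, δ * w s ≤ k s t := by
    intro s t
    refine le_trans ?_ (hb s t).1
    rw [hδ, div_mul_eq_mul_div, div_le_iff₀ hB0]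
    exact mul_le_mul_of_nonneg_left (hwB s) hc0.le
  -- bound of φ - m
  obtain ⟨M, hM⟩ := (isCompact_Icc (a := (0:ℝ)) (b := T)).exists_bound_of_continuousOn
    (f := fun s => φ s - m) (hφ.sub continuous_const).continuousOn
  set M' := max M 0 with hM'
  have hcont : ∀ n, Continuous ((fwd T k)^[n] φ) := by
    intro n
    induction n with
    | zero => exact hφ
    | succ n ih => rw [Function.iterate_succ_apply']; exact hk.continuous_fwd ih
  have hmean : ∀ n, ∫ s in (0:ℝ)..T, ((fwd T k)^[n] φ) s * (w s : ℂ) = m := by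
    intro n
    induction n with
    | zero => rfl
    | succ n ih => rw [Function.iterate_succ_apply', hk.inv hw hstat (hcont n), ih]
  have hbound : ∀ n, ∀ s ∈ Icc (0:ℝ) T, ‖((fwd T k)^[n] φ) s - m‖ ≤ (1 - δ) ^ n * M' := by
    intro n
    induction n with
    | zero =>
      intro s hs
      simp only [Function.iterate_zero, id, pow_zero, one_mul]
      exact (hM s hs).trans (le_max_left _ _)
    | succ n ih =>
      intro s _
      rw [Function.iterate_succ_apply']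
      have h1 := hk.norm_fwd_sub_le hw hmass hδk (hcont n) (M := (1 - δ) ^ n * M')
        (by rw [hmean n]; exact ih) s
      rw [hmean n] at h1
      rw [pow_succ]
      linarith only [h1]
  have htend : Tendsto (fun n : ℕ => (1 - δ) ^ n * M') atTop (𝓝 (0 * M')) :=
    (tendsto_pow_atTop_nhds_zero_of_lt_one (by linarith only [hδ1]) (by linarith only [hδ0])).mul_const _
  rw [zero_mul] at htend
  obtain ⟨N, hN⟩ := eventually_atTop.mp (htend.eventually_le_const hε)
  refine ⟨N + 1, fun n hn t => ?_⟩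
  obtain ⟨n', rfl⟩ : ∃ n', n = n' + 1 := ⟨n - 1, by (clear * - hn; omega)⟩
  rw [Function.iterate_succ_apply']
  have h1 := hk.norm_fwd_sub_le hw hmass hδk (hcont n') (M := (1 - δ) ^ n' * M')
    (by rw [hmean n']; exact hbound n') t
  rw [hmean n'] at h1
  refine h1.trans ?_
  have h2 : 0 ≤ (1 - δ) ^ n' * M' := mul_nonneg (pow_nonneg (by linarith only [hδ1]) _) (le_max_right _ _)
  have h3 : (1 - δ) * ((1 - δ) ^ n' * M') ≤ 1 * ((1 - δ) ^ n' * M') :=
    mul_le_mul_of_nonneg_right (by linarith only [hδ0]) h2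
  rw [one_mul] at h3
  exact h3.trans (hN n' (by omega))

end Doeblin

end Vale.Agent.P123
end
end

section

section

namespace Vale.Agent.P123
open Complex

theorem aux_two_le {C S : ℝ} (h : 1 ≤ C * S) (h0 : 0 ≤ S) (h1 : S ≤ 1 / 2) : 2 ≤ C := by
  rcases le_or_gt C 0 with hC | hC
  · nlinarith only [h, hC, h0]
  · nlinarith only [h, h1, hC]

/-- the nilpotent example: no constant smaller than two works -/
theorem two_le_of_bound.{u} {C : ℝ}
    (h : ∀ (H : Type u) [NormedAddCommGroup H] [InnerProductSpace ℂ H] [CompleteSpace H]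
      [Nontrivial H] (A : H →L[ℂ] H) (P : Polynomial ℂ),
      ‖Polynomial.aeval A P‖ ≤ C *
        sSup ((fun z => ‖P.eval z‖) '' {z : ℂ | ∃ x : H, ‖x‖ = 1 ∧ inner ℂ x (A x) = z})) :
    2 ≤ C := by
  let ι := ULift.{u} (Fin 2)
  let a : ι := ⟨0⟩
  let b : ι := ⟨1⟩
  have hab : a ≠ b := by
    intro h; have := congrArg ULift.down h; simp [a, b] at this
  let A : EuclideanSpace ℂ ι →L[ℂ] EuclideanSpace ℂ ι :=
    ContinuousLinearMap.smulRight (EuclideanSpace.proj b : EuclideanSpace ℂ ι →L[ℂ] ℂ)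
      (EuclideanSpace.single a (1 : ℂ))
  have hA : ∀ x, A x = x b • EuclideanSpace.single a (1 : ℂ) := fun x => rfl
  have h1 := h (EuclideanSpace ℂ ι) A Polynomial.X
  rw [Polynomial.aeval_X] at h1
  have hsum : ∀ x : EuclideanSpace ℂ ι, ‖x‖ = 1 → ‖x a‖ ^ 2 + ‖x b‖ ^ 2 ≤ 1 := by
    intro x hx
    have h2 := EuclideanSpace.norm_sq_eq x
    rw [hx, one_pow] at h2
    rw [h2]
    have h3 : ∑ i ∈ ({a, b} : Finset ι), ‖x i‖ ^ 2 ≤ ∑ i, ‖x i‖ ^ 2 :=
      Finset.sum_le_sum_of_subset_of_nonneg (Finset.subset_univ _) (fun _ _ _ => by (clear * -; positivity))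
    rwa [Finset.sum_pair hab] at h3
  have hW : ∀ r ∈ (fun z => ‖(Polynomial.X : Polynomial ℂ).eval z‖) ''
      {z : ℂ | ∃ x : EuclideanSpace ℂ ι, ‖x‖ = 1 ∧ inner ℂ x (A x) = z}, r ≤ 1 / 2 := by
    rintro r ⟨z, ⟨x, hx, rfl⟩, rfl⟩
    simp only [Polynomial.eval_X]
    rw [hA, inner_smul_right, EuclideanSpace.inner_single_right]
    have h2 := hsum x hx
    rw [norm_mul, norm_mul, norm_one, one_mul, RCLike.norm_conj]
    nlinarith only [h2, sq_nonneg (‖x b‖ - ‖x a‖)]
  have hne : ((fun z => ‖(Polynomial.X : Polynomial ℂ).eval z‖) ''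
      {z : ℂ | ∃ x : EuclideanSpace ℂ ι, ‖x‖ = 1 ∧ inner ℂ x (A x) = z}).Nonempty := by
    refine ⟨_, _, ⟨EuclideanSpace.single a (1 : ℂ), by simp only [PiLp.norm_single, norm_one], rfl⟩, rfl⟩
  have hs1 : sSup ((fun z => ‖(Polynomial.X : Polynomial ℂ).eval z‖) ''
      {z : ℂ | ∃ x : EuclideanSpace ℂ ι, ‖x‖ = 1 ∧ inner ℂ x (A x) = z}) ≤ 1 / 2 :=
    csSup_le hne hW
  have hs0 : 0 ≤ sSup ((fun z => ‖(Polynomial.X : Polynomial ℂ).eval z‖) ''
      {z : ℂ | ∃ x : EuclideanSpace ℂ ι, ‖x‖ = 1 ∧ inner ℂ x (A x) = z}) := by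
    apply Real.sSup_nonneg
    rintro r ⟨z, _, rfl⟩
    (clear * -; positivity)
  have hA1 : 1 ≤ ‖A‖ := by
    have h2 := A.le_opNorm (EuclideanSpace.single b (1 : ℂ))
    rw [hA, norm_smul] at h2
    simpa only [ge_iff_le, PiLp.single_eq_same, norm_one, PiLp.norm_single, mul_one] using h2
  have h3 : 1 ≤ C * sSup ((fun z => ‖(Polynomial.X : Polynomial ℂ).eval z‖) ''
      {z : ℂ | ∃ x : EuclideanSpace ℂ ι, ‖x‖ = 1 ∧ inner ℂ x (A x) = z}) := hA1.trans h1
  exact aux_two_le h3 hs0 hs1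

end Vale.Agent.P123
end
end

section

section

namespace Vale.Agent.P123

open Complex MeasureTheory Set Filter Topology
open scoped Real

/-- planar cross product -/
def crs (u w : ℂ) : ℝ := u.re * w.im - u.im * w.re

theorem crs_eq_sin (u w : ℂ) : crs u w = ‖u‖ * ‖w‖ * Real.sin (Complex.arg w - Complex.arg u) := by
  have h1 := Complex.norm_mul_cos_arg u
  have h2 := Complex.norm_mul_sin_arg u
  have h3 := Complex.norm_mul_cos_arg w
  have h4 := Complex.norm_mul_sin_arg w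
  unfold crs
  rw [Real.sin_sub, ← h1, ← h2, ← h3, ← h4]
  ring

theorem crs_rot (t : ℝ) (u w : ℂ) : crs (-ee t * u) (-ee t * w) = crs u w := by
  have e3 : Complex.normSq (ee t) = 1 := by
    rw [Complex.normSq_eq_norm_sq, norm_ee]; norm_num
  rw [Complex.normSq_apply] at e3
  unfold crs
  simp only [Complex.mul_re, Complex.mul_im, Complex.neg_re, Complex.neg_im]
  linear_combination (u.re * w.im - u.im * w.re) * e3

theorem decomp_of_crs {u1 u2 w : ℂ} (h : 0 < crs u1 u2) :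
    w = ((crs w u2 / crs u1 u2 : ℝ) : ℂ) * u1 + ((crs u1 w / crs u1 u2 : ℝ) : ℂ) * u2 := by
  have h' : crs u1 u2 ≠ 0 := h.ne'
  apply Complex.ext
  · simp only [Complex.add_re, Complex.mul_re, Complex.ofReal_re, Complex.ofReal_im]
    field_simp
    unfold crs
    ring
  · simp only [Complex.add_im, Complex.mul_im, Complex.ofReal_re, Complex.ofReal_im]
    field_simp
    unfold crs
    ring

namespace Dom

variable (D : Dom)

theorem monotoneOn_Ang (t : ℝ) : MonotoneOn (D.Ang t) (Icc t (t + 2 * π)) := by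
  apply monotoneOn_of_deriv_nonneg (convex_Icc _ _) (D.continuousOn_Ang t)
  · rw [interior_Icc]
    intro x hx
    exact (D.hasDerivAt_Ang hx.1 hx.2).differentiableAt.differentiableWithinAt
  · rw [interior_Icc]
    intro x hx
    rw [(D.hasDerivAt_Ang hx.1 hx.2).deriv]
    exact mul_nonneg Real.pi_pos.le (D.k_nonneg (D.sig_mem_K t) x)

/-- arcs of prescribed directions -/
theorem exists_arc (tc : ℝ) (u1 u2 : ℂ) (h1 : 0 < u1.re) (h2 : 0 < u2.re) (h12 : 0 < crs u1 u2) :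
    ∃ s1 s2 : ℝ, tc < s1 ∧ s1 ≤ s2 ∧ s2 < tc + 2 * π ∧
      crs u1 u2 / (‖u1‖ * ‖u2‖) / π ≤ ∫ s in s1..s2, D.k s (D.sig tc) ∧
      ∀ s ∈ Icc s1 s2, ∃ α β : ℝ, 0 ≤ α ∧ 0 ≤ β ∧ 0 < α + β ∧
        D.dir tc s = (α : ℂ) * u1 + (β : ℂ) * u2 := by
  have hpi := Real.pi_pos
  have ha1 := abs_lt.1 (Complex.abs_arg_lt_pi_div_two_iff.2 (Or.inl h1))
  have ha2 := abs_lt.1 (Complex.abs_arg_lt_pi_div_two_iff.2 (Or.inl h2))
  have hu1 : 0 < ‖u1‖ := norm_pos_iff.2 (fun h => by rw [h] at h1; simp at h1)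
  have hu2 : 0 < ‖u2‖ := norm_pos_iff.2 (fun h => by rw [h] at h2; simp at h2)
  set θ1 := Complex.arg u1 with hθ1
  set θ2 := Complex.arg u2 with hθ2
  have hsin : 0 < Real.sin (θ2 - θ1) := by
    rw [crs_eq_sin] at h12
    by_contra hcon
    push Not at hcon
    have : ‖u1‖ * ‖u2‖ * Real.sin (θ2 - θ1) ≤ 0 :=
      mul_nonpos_of_nonneg_of_nonpos (by positivity) hcon
    linarith only [h12, this]
  have hθ : θ1 < θ2 := by
    by_contra hcon
    push Not at hcon
    have := Real.sin_nonpos_of_nonpos_of_neg_pi_le (x := θ2 - θ1) (by linarith only [hcon])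
      (by linarith only [ha1, ha2])
    linarith only [hsin, this]
  have hle : tc ≤ tc + 2 * π := by linarith only [ha2]
  -- first point
  have hmem1 : θ1 ∈ Icc (D.Ang tc tc) (D.Ang tc (tc + 2 * π)) := by
    rw [D.Ang_left, D.Ang_right]; exact ⟨by linarith only [ha1], by linarith only [ha2, hθ]⟩
  obtain ⟨s1, hs1, hs1'⟩ := intermediate_value_Icc hle (D.continuousOn_Ang tc) hmem1
  have hs1a : tc < s1 := by
    rcases eq_or_lt_of_le hs1.1 with h | h
    · rw [← h, D.Ang_left] at hs1'; linarith only [ha1, hs1']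
    · exact h
  have hmem2 : θ2 ∈ Icc (D.Ang tc s1) (D.Ang tc (tc + 2 * π)) := by
    rw [hs1', D.Ang_right]; exact ⟨hθ.le, by linarith only [ha2]⟩
  obtain ⟨s2, hs2, hs2'⟩ := intermediate_value_Icc hs1.2
    ((D.continuousOn_Ang tc).mono (Icc_subset_Icc hs1.1 le_rfl)) hmem2
  have hs2a : s2 < tc + 2 * π := by
    rcases eq_or_lt_of_le hs2.2 with h | h
    · rw [h, D.Ang_right] at hs2'; linarith only [ha2, hs2']
    · exact h
  refine ⟨s1, s2, hs1a, hs2.1, hs2a, ?_, ?_⟩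
  · rw [D.integral_k_arc hs1a.le hs2.1 hs2a.le, hs1', hs2']
    apply div_le_div_of_nonneg_right _ hpi.le
    rw [crs_eq_sin]
    have h3 : ‖u1‖ * ‖u2‖ * Real.sin (θ2 - θ1) / (‖u1‖ * ‖u2‖) = Real.sin (θ2 - θ1) := by
      (clear * - hu1 hu2 hsin; field_simp)
    rw [h3]
    exact Real.sin_le (by linarith only [hθ])
  · intro s hs
    have hsc : tc < s := lt_of_lt_of_le hs1a hs.1
    have hsd : s < tc + 2 * π := lt_of_le_of_lt hs.2 hs2a
    have hm1 : θ1 ≤ D.ang tc s := by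
      rw [← D.Ang_of_mem hsc hsd, ← hs1']
      exact D.monotoneOn_Ang tc ⟨hs1a.le, (hs1.2)⟩ ⟨hsc.le, hsd.le⟩ hs.1
    have hm2 : D.ang tc s ≤ θ2 := by
      rw [← D.Ang_of_mem hsc hsd, ← hs2']
      exact D.monotoneOn_Ang tc ⟨hsc.le, hsd.le⟩ ⟨hs1.1.trans hs2.1, hs2.2⟩ hs.2
    have hb := D.ang_mem hsc hsd
    have hw : 0 < ‖D.dir tc s‖ := norm_pos_iff.2 (fun h => by
      have := D.dir_re_pos hsc hsd
      rw [h] at this; simp at this)
    refine ⟨crs (D.dir tc s) u2 / crs u1 u2, crs u1 (D.dir tc s) / crs u1 u2, ?_, ?_, ?_,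
      decomp_of_crs h12⟩
    · apply div_nonneg _ h12.le
      rw [crs_eq_sin]
      apply mul_nonneg (by (clear * - hw hu2; positivity))
      apply Real.sin_nonneg_of_nonneg_of_le_pi
      · have : Complex.arg (D.dir tc s) = D.ang tc s := rfl
        rw [this]; linarith only [hm2]
      · have : Complex.arg (D.dir tc s) = D.ang tc s := rfl
        rw [this]; linarith only [ha1, ha2, hm1]
    · apply div_nonneg _ h12.le
      rw [crs_eq_sin]
      apply mul_nonneg (by (clear * - hu1 hw; positivity))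
      apply Real.sin_nonneg_of_nonneg_of_le_pi
      · have : Complex.arg (D.dir tc s) = D.ang tc s := rfl
        rw [this]; linarith only [hm1]
      · have : Complex.arg (D.dir tc s) = D.ang tc s := rfl
        rw [this]; linarith only [ha1, ha2, hm2]
    · -- positivity of the sum
      have h5 := decomp_of_crs (w := D.dir tc s) h12
      have h6 := D.dir_re_pos hsc hsd
      by_contra hcon
      push Not at hcon
      set α := crs (D.dir tc s) u2 / crs u1 u2
      set β := crs u1 (D.dir tc s) / crs u1 u2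
      have hα : 0 ≤ α := by
        apply div_nonneg _ h12.le
        rw [crs_eq_sin]
        apply mul_nonneg (by (clear * - hw hu2; positivity))
        apply Real.sin_nonneg_of_nonneg_of_le_pi
        · have : Complex.arg (D.dir tc s) = D.ang tc s := rfl
          rw [this]; linarith only [hm2]
        · have : Complex.arg (D.dir tc s) = D.ang tc s := rfl
          rw [this]; linarith only [ha1, ha2, hm1]
      have hβ : 0 ≤ β := by
        apply div_nonneg _ h12.le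
        rw [crs_eq_sin]
        apply mul_nonneg (by (clear * - hu1 hw; positivity))
        apply Real.sin_nonneg_of_nonneg_of_le_pi
        · have : Complex.arg (D.dir tc s) = D.ang tc s := rfl
          rw [this]; linarith only [hm1]
        · have : Complex.arg (D.dir tc s) = D.ang tc s := rfl
          rw [this]; linarith only [ha1, ha2, hm2]
      have hα0 : α = 0 := by linarith only [hα, hcon, hβ]
      have hβ0 : β = 0 := by linarith only [hβ, hcon, hα]
      rw [hα0, hβ0] at h5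
      rw [h5] at h6
      simp at h6

end Dom

end Vale.Agent.P123
end
end

section

section

namespace Vale.Agent.P123

open Complex MeasureTheory Set intervalIntegral
open scoped Real ComplexConjugate

/-- a chord of the domain with a deep point -/
structure Chord (D : Dom) where
  ta : ℝ
  tb : ℝ
  τ : ℝ
  κ : ℝ
  τ0 : 0 ≤ τ
  τ1 : τ ≤ 1
  κ0 : 0 < κ
  ne : D.sig ta ≠ D.sig tb
  hgap : ∀ t, κ * ‖D.sig tb - D.sig ta‖ ≤ D.gap ((1 - τ) • D.sig ta + τ • D.sig tb) t

namespace Chord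

variable {D : Dom} (C : Chord D)

/-- first endpoint -/
noncomputable def a : ℂ := D.sig C.ta
/-- second endpoint -/
noncomputable def b : ℂ := D.sig C.tb
/-- length -/
noncomputable def L : ℝ := ‖C.b - C.a‖
/-- deep point -/
noncomputable def z : ℂ := (1 - C.τ) • C.a + C.τ • C.b
/-- outer point beyond `a` -/
noncomputable def p : ℂ := (2:ℝ) • C.a + (-1:ℝ) • C.b
/-- outer point beyond `b` -/
noncomputable def q : ℂ := (2:ℝ) • C.b + (-1:ℝ) • C.a
/-- distance to `p` -/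
noncomputable def x (s : ℝ) : ℝ := ‖D.sig s - C.p‖
/-- distance to `q` -/
noncomputable def y (s : ℝ) : ℝ := ‖D.sig s - C.q‖
/-- `k(s,a) * dist^2` -/
noncomputable def A (s : ℝ) : ℝ := D.R s / π * D.gap C.a s
/-- `k(s,b) * dist^2` -/
noncomputable def B (s : ℝ) : ℝ := D.R s / π * D.gap C.b s

theorem L_pos : 0 < C.L := by
  unfold L a b
  rw [norm_pos_iff, sub_ne_zero]
  exact C.ne.symm

theorem kL_pos : 0 < C.κ * C.L := mul_pos C.κ0 C.L_pos

theorem gap_z (t : ℝ) : D.gap C.z t = (1 - C.τ) * D.gap C.a t + C.τ * D.gap C.b t :=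
  D.gap_convex_comb _ _ _ _ (by ring) t

theorem gap_p (t : ℝ) : D.gap C.p t = 2 * D.gap C.a t - D.gap C.b t := by
  have := D.gap_convex_comb C.a C.b 2 (-1) (by norm_num) t
  unfold p
  rw [this]; ring

theorem gap_q (t : ℝ) : D.gap C.q t = 2 * D.gap C.b t - D.gap C.a t := by
  have := D.gap_convex_comb C.b C.a 2 (-1) (by norm_num) t
  unfold q
  rw [this]; ring

theorem le_gap_z (t : ℝ) : C.κ * C.L ≤ D.gap C.z t := C.hgap t

theorem gap_a_nonneg (t : ℝ) : 0 ≤ D.gap C.a t := D.gap_sig_nonneg _ _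
theorem gap_b_nonneg (t : ℝ) : 0 ≤ D.gap C.b t := D.gap_sig_nonneg _ _

theorem A_nonneg (s : ℝ) : 0 ≤ C.A s := by
  have := C.gap_a_nonneg s
  have := D.R_pos s
  have := Real.pi_pos
  unfold A; positivity

theorem B_nonneg (s : ℝ) : 0 ≤ C.B s := by
  have := C.gap_b_nonneg s
  have := D.R_pos s
  have := Real.pi_pos
  unfold B; positivity

theorem le_gap_b_ta : C.κ * C.L ≤ D.gap C.b C.ta := by
  have h1 := C.le_gap_z C.ta
  rw [C.gap_z] at h1
  have h2 : D.gap C.a C.ta = 0 := D.gap_sig_self _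
  have h3 := C.gap_b_nonneg C.ta
  have h4 := C.τ1
  nlinarith

theorem le_gap_a_tb : C.κ * C.L ≤ D.gap C.a C.tb := by
  have h1 := C.le_gap_z C.tb
  rw [C.gap_z] at h1
  have h2 : D.gap C.b C.tb = 0 := D.gap_sig_self _
  have h3 := C.gap_a_nonneg C.tb
  have h4 := C.τ0
  nlinarith

theorem gap_p_ta : D.gap C.p C.ta ≤ -(C.κ * C.L) := by
  rw [C.gap_p]
  have h2 : D.gap C.a C.ta = 0 := D.gap_sig_self _
  have := C.le_gap_b_ta
  linarith

theorem gap_q_tb : D.gap C.q C.tb ≤ -(C.κ * C.L) := by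
  rw [C.gap_q]
  have h2 : D.gap C.b C.tb = 0 := D.gap_sig_self _
  have := C.le_gap_a_tb
  linarith

theorem p_not_mem : C.p ∉ D.K := by
  intro h
  have h1 := (D.mem_K_iff _).1 h C.ta
  have h2 := C.gap_p_ta
  have h3 := C.kL_pos
  linarith

theorem q_not_mem : C.q ∉ D.K := by
  intro h
  have h1 := (D.mem_K_iff _).1 h C.tb
  have h2 := C.gap_q_tb
  have h3 := C.kL_pos
  linarith

theorem le_x (s : ℝ) : C.κ * C.L ≤ C.x s := by
  have h1 := D.gap_sub_le (D.sig s) C.p C.ta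
  have h2 := D.gap_sig_nonneg s C.ta
  have h3 := C.gap_p_ta
  unfold x
  rw [norm_sub_rev]
  linarith

theorem le_y (s : ℝ) : C.κ * C.L ≤ C.y s := by
  have h1 := D.gap_sub_le (D.sig s) C.q C.tb
  have h2 := D.gap_sig_nonneg s C.tb
  have h3 := C.gap_q_tb
  unfold y
  rw [norm_sub_rev]
  linarith only [h1, h2, h3]

theorem x_pos (s : ℝ) : 0 < C.x s := lt_of_lt_of_le C.kL_pos (C.le_x s)
theorem y_pos (s : ℝ) : 0 < C.y s := lt_of_lt_of_le C.kL_pos (C.le_y s)

theorem p_sub_q : C.p - C.q = (3:ℝ) • (C.a - C.b) := by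
  unfold p q
  simp only [Complex.real_smul]
  push_cast
  ring

theorem norm_p_sub_q : ‖C.p - C.q‖ = 3 * C.L := by
  rw [C.p_sub_q, norm_smul, L, norm_sub_rev]
  norm_num

theorem x_le (s : ℝ) : C.x s ≤ C.y s + 3 * C.L := by
  have h : D.sig s - C.p = (D.sig s - C.q) - (C.p - C.q) := by ring
  unfold x y
  rw [h, ← C.norm_p_sub_q]
  exact norm_sub_le _ _

theorem y_le (s : ℝ) : C.y s ≤ C.x s + 3 * C.L := by
  have h : D.sig s - C.q = (D.sig s - C.p) + (C.p - C.q) := by ring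
  unfold x y
  rw [h, ← C.norm_p_sub_q]
  exact norm_add_le _ _

theorem dist_a_le (s : ℝ) : 3 * ‖D.sig s - C.a‖ ≤ 2 * C.x s + C.y s := by
  have h : (3:ℂ) * (D.sig s - C.a) = 2 * (D.sig s - C.p) + (D.sig s - C.q) := by
    unfold p q
    simp only [Complex.real_smul]
    push_cast
    ring
  have h2 : 3 * ‖D.sig s - C.a‖ = ‖(3:ℂ) * (D.sig s - C.a)‖ := by
    rw [norm_mul]; norm_num
  rw [h2, h]
  refine (norm_add_le _ _).trans ?_
  rw [norm_mul]
  unfold x y
  norm_num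

theorem dist_b_le (s : ℝ) : 3 * ‖D.sig s - C.b‖ ≤ C.x s + 2 * C.y s := by
  have h : (3:ℂ) * (D.sig s - C.b) = (D.sig s - C.p) + 2 * (D.sig s - C.q) := by
    unfold p q
    simp only [Complex.real_smul]
    push_cast
    ring
  have h2 : 3 * ‖D.sig s - C.b‖ = ‖(3:ℂ) * (D.sig s - C.b)‖ := by
    rw [norm_mul]; norm_num
  rw [h2, h]
  refine (norm_add_le _ _).trans ?_
  rw [norm_mul]
  unfold x y
  norm_num

theorem k_a (s : ℝ) : D.k s C.a * ‖D.sig s - C.a‖ ^ 2 = C.A s := by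
  rw [D.k_eq]
  unfold A
  by_cases h : D.sig s - C.a = 0
  · have h1 : D.gap C.a s = 0 := by
      rw [sub_eq_zero] at h
      rw [← h, D.gap_sig_self]
    rw [h1]; simp
  · have h1 : ‖D.sig s - C.a‖ ≠ 0 := norm_ne_zero_iff.2 h
    (clear * - h1; field_simp)

theorem k_b (s : ℝ) : D.k s C.b * ‖D.sig s - C.b‖ ^ 2 = C.B s := by
  rw [D.k_eq]
  unfold B
  by_cases h : D.sig s - C.b = 0
  · have h1 : D.gap C.b s = 0 := by
      rw [sub_eq_zero] at h
      rw [← h, D.gap_sig_self]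
    rw [h1]; simp only [zero_div, mul_zero, zero_mul]
  · have h1 : ‖D.sig s - C.b‖ ≠ 0 := norm_ne_zero_iff.2 h
    (clear * - h1; field_simp)

theorem k_p (s : ℝ) : D.k s C.p = (2 * C.A s - C.B s) / C.x s ^ 2 := by
  rw [D.k_eq, C.gap_p]
  unfold A B x
  ring

theorem k_q (s : ℝ) : D.k s C.q = (2 * C.B s - C.A s) / C.y s ^ 2 := by
  rw [D.k_eq, C.gap_q]
  unfold A B y
  ring

theorem continuous_x : Continuous C.x := (D.continuous_sig.sub continuous_const).norm
theorem continuous_y : Continuous C.y := (D.continuous_sig.sub continuous_const).norm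

theorem continuous_A : Continuous C.A := by
  unfold A
  exact (D.continuous_R.div_const _).mul
    (D.continuous_gap.comp (continuous_const.prodMk continuous_id))

theorem continuous_B : Continuous C.B := by
  unfold B
  exact (D.continuous_R.div_const _).mul
    (D.continuous_gap.comp (continuous_const.prodMk continuous_id))

/-- density attached to `a` -/
noncomputable def mA (s : ℝ) : ℝ := C.A s * (2 / C.x s ^ 2 + 1 / C.y s ^ 2)
/-- density attached to `b` -/
noncomputable def mB (s : ℝ) : ℝ := C.B s * (1 / C.x s ^ 2 + 2 / C.y s ^ 2)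
/-- density of the Cauchy kernel difference -/
noncomputable def nn (s : ℝ) : ℝ := 3 * C.L * D.R s / (2 * π * C.x s * C.y s)

theorem continuous_inv_x : Continuous (fun s => 1 / C.x s ^ 2) :=
  continuous_const.div (C.continuous_x.pow 2) (fun s => (pow_pos (C.x_pos s) 2).ne')
theorem continuous_inv_y : Continuous (fun s => 1 / C.y s ^ 2) :=
  continuous_const.div (C.continuous_y.pow 2) (fun s => (pow_pos (C.y_pos s) 2).ne')

theorem continuous_mA : Continuous C.mA := by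
  unfold mA
  refine C.continuous_A.mul (Continuous.add ?_ C.continuous_inv_y)
  exact continuous_const.div (C.continuous_x.pow 2) (fun s => (pow_pos (C.x_pos s) 2).ne')

theorem continuous_mB : Continuous C.mB := by
  unfold mB
  refine C.continuous_B.mul (Continuous.add C.continuous_inv_x ?_)
  exact continuous_const.div (C.continuous_y.pow 2) (fun s => (pow_pos (C.y_pos s) 2).ne')

theorem continuous_nn : Continuous C.nn := by
  unfold nn
  refine Continuous.div (continuous_const.mul D.continuous_R)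
    ((continuous_const.mul C.continuous_x).mul C.continuous_y) (fun s => ?_)
  have h1 := C.x_pos s
  have h2 := C.y_pos s
  have h3 := Real.pi_pos
  positivity

theorem mA_nonneg (s : ℝ) : 0 ≤ C.mA s := by
  have := C.A_nonneg s
  unfold mA; positivity

theorem mB_nonneg (s : ℝ) : 0 ≤ C.mB s := by
  have := C.B_nonneg s
  unfold mB; positivity

theorem nn_nonneg (s : ℝ) : 0 ≤ C.nn s := by
  have h1 := C.x_pos s
  have h2 := C.y_pos s
  have h3 := Real.pi_pos
  have h4 := C.L_pos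
  have h5 := D.R_pos s
  unfold nn; positivity

theorem k_p_sub_k_q (s : ℝ) : D.k s C.p - D.k s C.q = C.mA s - C.mB s := by
  rw [C.k_p, C.k_q]
  unfold mA mB
  ring

/-- the constant `E` -/
noncomputable def E : ℝ := 3 + 4 / C.κ + 4 / C.κ ^ 2
/-- the constant `G` -/
noncomputable def G : ℝ := 3 / (2 * C.κ) + 2 / C.κ ^ 2

end Chord

theorem real_E_bound {x y u L κ : ℝ} (hκ : 0 < κ) (hx0 : 0 < x) (hy0 : 0 < y)
    (hx : κ * L ≤ x) (hy : κ * L ≤ y)
    (hxy : x ≤ y + 3 * L) (hyx : y ≤ x + 3 * L) (hu0 : 0 ≤ u) (hu : 3 * u ≤ 2 * x + y) :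
    u ^ 2 * (2 / x ^ 2 + 1 / y ^ 2) ≤ 3 + 4 / κ + 4 / κ ^ 2 := by
  have hLx : L ≤ x / κ := by rw [le_div_iff₀ hκ]; linarith only [hx]
  have hLy : L ≤ y / κ := by rw [le_div_iff₀ hκ]; linarith only [hy]
  have hi : 0 < 1 / κ := by positivity
  rcases le_total y x with h | h
  · have h1 : u / x ≤ 1 := by rw [div_le_one hx0]; linarith only [hu, h]
    have h2 : u / y ≤ 1 + 2 / κ := by
      rw [div_le_iff₀ hy0]
      have : (1 + 2 / κ) * y = y + 2 * (y / κ) := by ring
      rw [this]; linarith only [hxy, hu, hLy]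
    have h3 : 0 ≤ u / x := by (clear * - hu0 hx0; positivity)
    have h4 : 0 ≤ u / y := by positivity
    have h5 : u ^ 2 * (2 / x ^ 2 + 1 / y ^ 2) = 2 * (u / x) ^ 2 + (u / y) ^ 2 := by
      (clear * - hy0 hx0; field_simp)
    have h6 : (u / x) ^ 2 ≤ 1 := pow_le_one₀ h3 h1
    have h7 : (u / y) ^ 2 ≤ (1 + 2 / κ) ^ 2 := by (clear * - hu0 hy0 h2; gcongr)
    have h8 : (1 + 2 / κ) ^ 2 = 1 + 4 / κ + 4 / κ ^ 2 := by field_simp; ring
    rw [h5]; linarith
  · have h1 : u / y ≤ 1 := by rw [div_le_one hy0]; linarith only [hu, h]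
    have h2 : u / x ≤ 1 + 1 / κ := by
      rw [div_le_iff₀ hx0]
      have : (1 + 1 / κ) * x = x + (x / κ) := by ring
      rw [this]; linarith only [hyx, hu, hLx]
    have h3 : 0 ≤ u / x := by positivity
    have h4 : 0 ≤ u / y := by positivity
    have h5 : u ^ 2 * (2 / x ^ 2 + 1 / y ^ 2) = 2 * (u / x) ^ 2 + (u / y) ^ 2 := by
      field_simp
    have h6 : (u / y) ^ 2 ≤ 1 := pow_le_one₀ h4 h1
    have h7 : (u / x) ^ 2 ≤ (1 + 1 / κ) ^ 2 := by gcongr
    have h8 : 2 * (1 + 1 / κ) ^ 2 = 2 + 4 / κ + 2 / κ ^ 2 := by field_simp; ring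
    have h9 : 2 / κ ^ 2 ≤ 4 / κ ^ 2 := by gcongr; norm_num
    rw [h5]; linarith only [h6, h7, h8, h9]

theorem real_G_bound {x y u L κ : ℝ} (hκ : 0 < κ) (hx0 : 0 < x) (hy0 : 0 < y)
    (hx : κ * L ≤ x) (hy : κ * L ≤ y)
    (hxy : x ≤ y + 3 * L) (hyx : y ≤ x + 3 * L) (hu0 : 0 ≤ u)
    (hu : 3 * u ≤ 2 * x + y) :
    u ^ 2 ≤ (1 + 4 / (3 * κ)) * (x * y) := by
  have hLx : L ≤ x / κ := by rw [le_div_iff₀ hκ]; linarith
  have hLy : L ≤ y / κ := by rw [le_div_iff₀ hκ]; linarith only [hy]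
  have h1 : (3 * u) ^ 2 ≤ (2 * x + y) ^ 2 := by gcongr
  have h2 : (4 * x - y) * (x - y) ≤ 12 * (x * y) / κ := by
    rcases le_total y x with h | h
    · have e1 : (4 * x - y) * (x - y) ≤ (4 * x) * (3 * L) := by
        apply mul_le_mul <;> nlinarith only [h, hx0, hxy, hy0]
      have e2 : x * L ≤ x * (y / κ) := by gcongr
      have e3 : 12 * (x * y) / κ = 12 * (x * (y / κ)) := by ring
      rw [e3]; linarith only [e1, e2]
    · have e3 : 12 * (x * y) / κ = 12 * (y * (x / κ)) := by ring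
      have e4 : 0 ≤ y * (x / κ) := by positivity
      rcases le_total y (4 * x) with h' | h'
      · have : (4 * x - y) * (x - y) ≤ 0 := mul_nonpos_of_nonneg_of_nonpos (by (clear * - h'; linarith)) (by linarith only [h])
        rw [e3]; linarith only [e4, this]
      · have e1 : (y - 4 * x) * (y - x) ≤ y * (3 * L) := by
          apply mul_le_mul <;> nlinarith only [hx0, h', hyx]
        have e2 : y * L ≤ y * (x / κ) := by gcongr
        have e5 : (4 * x - y) * (x - y) = (y - 4 * x) * (y - x) := by ring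
        rw [e3, e5]; linarith only [e4, e1, e2]
  have h3 : (1 + 4 / (3 * κ)) * (x * y) = x * y + (12 * (x * y) / κ) / 9 := by
    field_simp; ring
  rw [h3]
  nlinarith only [h1, h2]

theorem real_Y_bound {κ τ : ℝ} (hκ : 0 < κ) (hκ1 : κ ≤ 1 / 20) (h0 : 0 ≤ τ) (h1 : τ ≤ 1) :
    37 / 20 * (1 - τ) ≤ 2 / (κ + 1 + τ) ^ 2 + 1 / (κ + 2 - τ) ^ 2 := by
  have e1 : 2 / (21 / 20 + τ) ^ 2 ≤ 2 / (κ + 1 + τ) ^ 2 := by
    gcongr
    linarith
  have e2 : 1 / (41 / 20 : ℝ) ^ 2 ≤ 1 / (κ + 2 - τ) ^ 2 := by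
    have : 0 < κ + 2 - τ := by linarith only [hκ, h1]
    gcongr
    linarith only [hκ1, h0]
  have e3 : 37 / 20 * (1 - τ) - 1 / (41 / 20 : ℝ) ^ 2 ≤ 2 / (21 / 20 + τ) ^ 2 := by
    rw [le_div_iff₀ (by (clear * - h0; positivity))]
    nlinarith only [mul_nonneg h0 (sq_nonneg (τ - 231 / 1000))]
  linarith

end Vale.Agent.P123
end
end

section

section

namespace Vale.Agent.P123

open Complex
open scoped InnerProductSpace ComplexConjugate

theorem scalar_ineq (mx my : ℝ) (b h : ℂ) (hmx : 0 ≤ mx) (hmy : 0 ≤ my)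
    (hb : ‖b‖ ^ 2 ≤ mx * my) (hh : ‖h‖ ≤ 1) :
    0 ≤ ((h - 3) * b).re + mx * (5 - 3 * h.re) / 4 + 2 * my := by
  have hr : |h.re| ≤ 1 := (Complex.abs_re_le_norm h).trans hh
  have hr1 : h.re ≤ 1 := (abs_le.mp hr).2
  have hn : ‖h - 3‖ ^ 2 ≤ 10 - 6 * h.re := by
    have h1 : ‖h‖ ^ 2 ≤ 1 := by nlinarith only [hh, norm_nonneg h]
    rw [← Complex.normSq_eq_norm_sq, Complex.normSq_apply] at h1 ⊢
    simp only [Complex.sub_re, Complex.sub_im, Complex.re_ofNat, Complex.im_ofNat]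
    linarith
  have h1 : -(‖h - 3‖ * ‖b‖) ≤ ((h - 3) * b).re := by
    have := Complex.abs_re_le_norm ((h - 3) * b)
    rw [norm_mul] at this
    exact (abs_le.mp this).1
  have h2 : ‖h - 3‖ * ‖b‖ ≤ mx * (5 - 3 * h.re) / 4 + 2 * my := by
    apply le_of_sq_le_sq
    · have h3 : (‖h - 3‖ * ‖b‖) ^ 2 ≤ (10 - 6 * h.re) * (mx * my) := by
        rw [mul_pow]
        exact mul_le_mul hn hb (sq_nonneg _) (by linarith only [hr1])
      nlinarith only [h3, sq_nonneg (mx * (5 - 3 * h.re) / 4 - 2 * my)]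
    · have := mul_nonneg hmx (by linarith only [hr1] : (0:ℝ) ≤ 5 - 3 * h.re)
      linarith
  linarith

variable {H : Type*} [NormedAddCommGroup H] [InnerProductSpace ℂ H]

/-- Cauchy-Schwarz for a positive operator. -/
theorem pos_cs (M : H →L[ℂ] H) (hM : M.IsPositive) (x y : H) :
    ‖⟪y, M x⟫_ℂ‖ ^ 2 ≤ (⟪x, M x⟫_ℂ).re * (⟪y, M y⟫_ℂ).re := by
  set β : ℂ := ⟪y, M x⟫_ℂ with hβ
  obtain ⟨u, hu, hu2⟩ : ∃ u : ℂ, ‖u‖ = 1 ∧ u * β = ‖β‖ := by
    by_cases h : β = 0
    · exact ⟨1, by simp only [norm_one], by simp [h]⟩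
    · refine ⟨conj β / ‖β‖, ?_, ?_⟩
      · rw [norm_div, RCLike.norm_conj, Complex.norm_real, norm_norm, div_self (by simpa using h)]
      · have h' : (‖β‖ : ℂ) ≠ 0 := by simpa using h
        field_simp
        rw [mul_comm, Complex.mul_conj, Complex.normSq_eq_norm_sq]
        push_cast; ring
  have hsym : ⟪x, M y⟫_ℂ = conj β := by
    rw [hβ, inner_conj_symm, ← ContinuousLinearMap.IsPositive.inner_left_eq_inner_right hM]
  have key : ∀ t : ℝ, 0 ≤ (⟪y, M y⟫_ℂ).re * (t * t) + (2 * ‖β‖) * t + (⟪x, M x⟫_ℂ).re := by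
    intro t
    have h := hM.re_inner_nonneg_right (x + ((t : ℂ) * conj u) • y)
    rw [map_add, map_smul, inner_add_left, inner_add_right, inner_add_right, inner_smul_left,
      inner_smul_left, inner_smul_right, inner_smul_right, hsym, ← hβ] at h
    have e1 : (t : ℂ) * conj u * conj β = ((t * ‖β‖ : ℝ) : ℂ) := by
      have : conj u * conj β = (‖β‖ : ℂ) := by rw [← map_mul, hu2, Complex.conj_ofReal]
      rw [mul_assoc, this]; push_cast; ring
    have e2 : conj ((t : ℂ) * conj u) * β = ((t * ‖β‖ : ℝ) : ℂ) := by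
      rw [map_mul, Complex.conj_conj, Complex.conj_ofReal, mul_assoc, hu2]; push_cast; ring
    have e3 : conj ((t : ℂ) * conj u) * ((t : ℂ) * conj u * ⟪y, M y⟫_ℂ)
        = ((t * t : ℝ) : ℂ) * ⟪y, M y⟫_ℂ := by
      have : u * conj u = 1 := by rw [Complex.mul_conj, Complex.normSq_eq_norm_sq, hu]; simp
      rw [map_mul, Complex.conj_conj, Complex.conj_ofReal]
      push_cast
      linear_combination (t : ℂ) * t * ⟪y, M y⟫_ℂ * this
    rw [e1, e2, e3] at h
    simp only [RCLike.re_to_complex, add_re, ofReal_re, re_ofReal_mul] at h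
    linarith only [h]
  have := discrim_le_zero key
  unfold discrim at this
  linarith

end Vale.Agent.P123
end
end

section

section

namespace Vale.Agent.P123

open Complex MeasureTheory
open scoped InnerProductSpace ComplexConjugate Real

variable {X : Type*} [TopologicalSpace X] [CompactSpace X]
variable {H : Type*} [NormedAddCommGroup H] [InnerProductSpace ℂ H] [CompleteSpace H]

/-- the functional `T ↦ ⟪y, T x⟫` -/
noncomputable def pairL (y x : H) : (H →L[ℂ] H) →L[ℂ] ℂ :=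
  (innerSL ℂ y).comp (ContinuousLinearMap.apply ℂ H x)

theorem pairL_apply (y x : H) (T : H →L[ℂ] H) : pairL y x T = ⟪y, T x⟫_ℂ := rfl

/-- the operator integral of a function against the operator density -/
noncomputable def SInt (bd : ℝ → X) (M : ℝ → H →L[ℂ] H) (g : C(X, ℂ)) : H →L[ℂ] H :=
  ∫ s in (0 : ℝ)..(2 * π), g (bd s) • M s

theorem inner_SInt {bd : ℝ → X} (hbd : Continuous bd) {M : ℝ → H →L[ℂ] H} (hM : Continuous M)
    (g : C(X, ℂ)) (y x : H) :
    ⟪y, SInt bd M g x⟫_ℂ = ∫ s in (0 : ℝ)..(2 * π), g (bd s) * ⟪y, M s x⟫_ℂ := by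
  have h : IntervalIntegrable (fun s => g (bd s) • M s) volume 0 (2 * π) :=
    (((g.continuous.comp hbd).smul hM)).intervalIntegrable _ _
  have := (pairL y x).intervalIntegral_comp_comm h
  rw [SInt, ← pairL_apply, ← this]
  simp [pairL_apply, inner_smul_right]

theorem re_inner_SInt {bd : ℝ → X} (hbd : Continuous bd) {M : ℝ → H →L[ℂ] H} (hM : Continuous M)
    (g : C(X, ℂ)) (y x : H) :
    (⟪y, SInt bd M g x⟫_ℂ).re = ∫ s in (0 : ℝ)..(2 * π), (g (bd s) * ⟪y, M s x⟫_ℂ).re := by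
  rw [inner_SInt hbd hM]
  have hc : Continuous fun s => g (bd s) * ⟪y, M s x⟫_ℂ :=
    (g.continuous.comp hbd).mul
      (continuous_const.inner ((ContinuousLinearMap.apply ℂ H x).continuous.comp hM))
  have := Complex.reCLM.intervalIntegral_comp_comm (hc.intervalIntegrable (μ := volume) 0 (2 * π))
  simpa only [mul_re, reCLM_apply] using this.symm

theorem mass_inner {M : ℝ → H →L[ℂ] H} (hM : Continuous M)
    (hint : ∫ s in (0 : ℝ)..(2 * π), M s = (2 : ℂ) • 1) (x : H) (hx : ‖x‖ = 1) :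
    ∫ s in (0 : ℝ)..(2 * π), (⟪x, M s x⟫_ℂ).re = 2 := by
  have h1 := (Complex.reCLM.comp ((pairL x x).restrictScalars ℝ)).intervalIntegral_comp_comm
    (hM.intervalIntegrable (μ := volume) 0 (2 * π))
  have h2 : (Complex.reCLM.comp ((pairL x x).restrictScalars ℝ)) ((2 : ℂ) • 1) = 2 := by
    simp [pairL_apply, inner_smul_right, inner_self_eq_norm_sq_to_K, hx]
  rw [hint, h2] at h1
  simpa only [ContinuousLinearMap.comp_apply, ContinuousLinearMap.coe_restrictScalars', pairL_apply,     reCLM_apply] using h1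

/-- The integrated inequality. -/
theorem key_ineq {bd : ℝ → X} (hbd : Continuous bd) {M : ℝ → H →L[ℂ] H} (hM : Continuous M)
    (hpos : ∀ s, (M s).IsPositive)
    (hint : ∫ s in (0 : ℝ)..(2 * π), M s = (2 : ℂ) • 1)
    (f h : C(X, ℂ)) (hf : ‖f‖ ≤ 1) (hh : ‖h‖ ≤ 1) (x y : H) (hx : ‖x‖ = 1) (hy : ‖y‖ = 1) :
    (3 / 4) * (⟪x, SInt bd M h x⟫_ℂ).re ≤ (⟪y, SInt bd M (f * h) x⟫_ℂ).re
      - 3 * (⟪y, SInt bd M f x⟫_ℂ).re + 13 / 2 := by
  have hcM : ∀ a b : H, Continuous fun s => ⟪a, M s b⟫_ℂ := fun a b =>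
    continuous_const.inner ((ContinuousLinearMap.apply ℂ H b).continuous.comp hM)
  have hcg : ∀ g : C(X, ℂ), Continuous fun s => g (bd s) := fun g => g.continuous.comp hbd
  have h2pi : (0 : ℝ) ≤ 2 * π := by positivity
  have hpt : ∀ s, 0 ≤ ((f * h) (bd s) * ⟪y, M s x⟫_ℂ).re - 3 * (f (bd s) * ⟪y, M s x⟫_ℂ).re
      + (5 / 4) * (⟪x, M s x⟫_ℂ).re - (3 / 4) * (h (bd s) * ⟪x, M s x⟫_ℂ).re
      + 2 * (⟪y, M s y⟫_ℂ).re := by
    intro s
    have hfs : ‖f (bd s)‖ ≤ 1 := (f.norm_coe_le_norm _).trans hf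
    have hhs : ‖h (bd s)‖ ≤ 1 := (h.norm_coe_le_norm _).trans hh
    have hmx := (hpos s).re_inner_nonneg_right x
    have hmy := (hpos s).re_inner_nonneg_right y
    have hcs := pos_cs (M s) (hpos s) x y
    have hb : ‖f (bd s) * ⟪y, M s x⟫_ℂ‖ ^ 2 ≤ (⟪x, M s x⟫_ℂ).re * (⟪y, M s y⟫_ℂ).re := by
      rw [norm_mul, mul_pow]
      have : ‖f (bd s)‖ ^ 2 ≤ 1 := by nlinarith only [hfs, norm_nonneg (f (bd s))]
      nlinarith only [hcs, this]
    have := scalar_ineq _ _ _ (h (bd s)) hmx hmy hb hhs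
    have him : (⟪x, M s x⟫_ℂ).im = 0 := by
      have h3 : conj (⟪x, M s x⟫_ℂ) = ⟪x, M s x⟫_ℂ := by
        rw [inner_conj_symm, (hpos s).inner_left_eq_inner_right]
      exact Complex.conj_eq_iff_im.mp h3
    have e1 : ((f * h) (bd s) * ⟪y, M s x⟫_ℂ).re - 3 * (f (bd s) * ⟪y, M s x⟫_ℂ).re
        = ((h (bd s) - 3) * (f (bd s) * ⟪y, M s x⟫_ℂ)).re := by
      rw [sub_mul, Complex.sub_re, ContinuousMap.mul_apply]
      congr 1
      · congr 1; ring
      · simp
    have e2 : (h (bd s) * ⟪x, M s x⟫_ℂ).re = (h (bd s)).re * (⟪x, M s x⟫_ℂ).re := by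
      rw [Complex.mul_re, him]; ring
    rw [e1, e2]
    simp only [RCLike.re_to_complex] at this
    linarith only [this]
  have I1 : IntervalIntegrable (fun s => ((f * h) (bd s) * ⟪y, M s x⟫_ℂ).re) volume 0 (2 * π) :=
    (Complex.continuous_re.comp ((hcg _).mul (hcM y x))).intervalIntegrable _ _
  have I2 : IntervalIntegrable (fun s => 3 * (f (bd s) * ⟪y, M s x⟫_ℂ).re) volume 0 (2 * π) :=
    (continuous_const.mul (Complex.continuous_re.comp ((hcg _).mul (hcM y x)))).intervalIntegrable _ _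
  have I3 : IntervalIntegrable (fun s => (5 / 4) * (⟪x, M s x⟫_ℂ).re) volume 0 (2 * π) :=
    (continuous_const.mul (Complex.continuous_re.comp (hcM x x))).intervalIntegrable _ _
  have I4 : IntervalIntegrable (fun s => (3 / 4) * (h (bd s) * ⟪x, M s x⟫_ℂ).re) volume 0 (2 * π) :=
    (continuous_const.mul (Complex.continuous_re.comp ((hcg _).mul (hcM x x)))).intervalIntegrable _ _
  have I5 : IntervalIntegrable (fun s => 2 * (⟪y, M s y⟫_ℂ).re) volume 0 (2 * π) :=
    (continuous_const.mul (Complex.continuous_re.comp (hcM y y))).intervalIntegrable _ _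
  have hI := intervalIntegral.integral_nonneg (μ := volume) h2pi (fun s _ => hpt s)
  rw [intervalIntegral.integral_add (((I1.sub I2).add I3).sub I4) I5,
    intervalIntegral.integral_sub ((I1.sub I2).add I3) I4,
    intervalIntegral.integral_add (I1.sub I2) I3, intervalIntegral.integral_sub I1 I2,
    intervalIntegral.integral_const_mul, intervalIntegral.integral_const_mul,
    intervalIntegral.integral_const_mul, intervalIntegral.integral_const_mul,
    mass_inner hM hint x hx, mass_inner hM hint y hy, ← re_inner_SInt hbd hM,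
    ← re_inner_SInt hbd hM, ← re_inner_SInt hbd hM] at hI
  linarith

theorem re_SInt_le_two {bd : ℝ → X} (hbd : Continuous bd) {M : ℝ → H →L[ℂ] H} (hM : Continuous M)
    (hpos : ∀ s, (M s).IsPositive)
    (hint : ∫ s in (0 : ℝ)..(2 * π), M s = (2 : ℂ) • 1)
    (f : C(X, ℂ)) (hf : ‖f‖ ≤ 1) (x y : H) (hx : ‖x‖ = 1) (hy : ‖y‖ = 1) :
    (⟪y, SInt bd M f x⟫_ℂ).re ≤ 2 := by
  have hcM : ∀ a b : H, Continuous fun s => ⟪a, M s b⟫_ℂ := fun a b =>
    continuous_const.inner ((ContinuousLinearMap.apply ℂ H b).continuous.comp hM)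
  have hcg : ∀ g : C(X, ℂ), Continuous fun s => g (bd s) := fun g => g.continuous.comp hbd
  have h2pi : (0 : ℝ) ≤ 2 * π := by positivity
  have hpt : ∀ s, 0 ≤ (1 / 2) * (⟪x, M s x⟫_ℂ).re + (1 / 2) * (⟪y, M s y⟫_ℂ).re
      - (f (bd s) * ⟪y, M s x⟫_ℂ).re := by
    intro s
    have hfs : ‖f (bd s)‖ ≤ 1 := (f.norm_coe_le_norm _).trans hf
    have hmx := (hpos s).re_inner_nonneg_right x
    have hmy := (hpos s).re_inner_nonneg_right y
    simp only [RCLike.re_to_complex] at hmx hmy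
    have hcs := pos_cs (M s) (hpos s) x y
    have h1 := Complex.abs_re_le_norm (f (bd s) * ⟪y, M s x⟫_ℂ)
    rw [norm_mul] at h1
    have h2 : ‖f (bd s)‖ * ‖⟪y, M s x⟫_ℂ‖ ≤ ‖⟪y, M s x⟫_ℂ‖ := by
      nlinarith only [hfs, norm_nonneg (⟪y, M s x⟫_ℂ)]
    have h3 : ‖⟪y, M s x⟫_ℂ‖ ≤ (1 / 2) * (⟪x, M s x⟫_ℂ).re + (1 / 2) * (⟪y, M s y⟫_ℂ).re := by
      apply le_of_sq_le_sq
      · nlinarith only [hcs, sq_nonneg ((⟪x, M s x⟫_ℂ).re - (⟪y, M s y⟫_ℂ).re)]
      · linarith only [hmx, hmy]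
    have h4 := (abs_le.mp h1).2
    linarith only [h2, h3, h4]
  have I1 : IntervalIntegrable (fun s => (f (bd s) * ⟪y, M s x⟫_ℂ).re) volume 0 (2 * π) :=
    (Complex.continuous_re.comp ((hcg _).mul (hcM y x))).intervalIntegrable _ _
  have I3 : IntervalIntegrable (fun s => (1 / 2) * (⟪x, M s x⟫_ℂ).re) volume 0 (2 * π) :=
    (continuous_const.mul (Complex.continuous_re.comp (hcM x x))).intervalIntegrable _ _
  have I5 : IntervalIntegrable (fun s => (1 / 2) * (⟪y, M s y⟫_ℂ).re) volume 0 (2 * π) :=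
    (continuous_const.mul (Complex.continuous_re.comp (hcM y y))).intervalIntegrable _ _
  have hI := intervalIntegral.integral_nonneg (μ := volume) h2pi (fun s _ => hpt s)
  rw [intervalIntegral.integral_sub (I3.add I5) I1, intervalIntegral.integral_add I3 I5,
    intervalIntegral.integral_const_mul, intervalIntegral.integral_const_mul,
    mass_inner hM hint x hx, mass_inner hM hint y hy, ← re_inner_SInt hbd hM] at hI
  linarith only [hI]

end Vale.Agent.P123
end
end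

section

section

namespace Vale.Agent.P123

open Complex MeasureTheory ContinuousLinearMap
open scoped InnerProductSpace ComplexConjugate Real

variable {X : Type*} [TopologicalSpace X] [CompactSpace X]
variable {H : Type*} [NormedAddCommGroup H] [InnerProductSpace ℂ H] [CompleteSpace H]

/-- existence of the best constant -/
theorem exists_best (A : Subalgebra ℂ (C(X, ℂ) × (H →L[ℂ] H)))
    (hb : ∃ κ : ℝ, ∀ p ∈ A, ‖p.2‖ ≤ κ * ‖p.1‖) :
    ∃ κ : ℝ, 0 ≤ κ ∧ (∀ p ∈ A, ‖p.2‖ ≤ κ * ‖p.1‖) ∧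
      ∀ δ : ℝ, 0 < δ → ∃ p ∈ A, ‖p.1‖ ≤ 1 ∧ κ - δ < ‖p.2‖ := by
  obtain ⟨κ0, h0⟩ := hb
  set T : Set ℝ := {c | ∃ p ∈ A, ‖p.1‖ ≤ 1 ∧ c = ‖p.2‖} with hT
  have hne : T.Nonempty := ⟨‖(0 : H →L[ℂ] H)‖, 0, A.zero_mem, by simp only [Prod.fst_zero, norm_zero, zero_le_one], rfl⟩
  have hbd : BddAbove T := by
    refine ⟨|κ0|, ?_⟩
    rintro c ⟨p, hp, hp1, rfl⟩
    have := h0 p hp
    calc ‖p.2‖ ≤ κ0 * ‖p.1‖ := this
      _ ≤ |κ0| * 1 := mul_le_mul (le_abs_self _) hp1 (norm_nonneg _) (abs_nonneg _)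
      _ = |κ0| := mul_one _
  refine ⟨sSup T, ?_, ?_, ?_⟩
  · obtain ⟨c, hc⟩ := hne
    have : 0 ≤ c := by
      obtain ⟨p, _, _, rfl⟩ := hc
      exact norm_nonneg _
    exact this.trans (le_csSup hbd hc)
  · intro p hp
    by_cases h : ‖p.1‖ = 0
    · have := h0 p hp
      rw [h, mul_zero] at this
      rw [h, mul_zero]; exact this
    · have hpos : 0 < ‖p.1‖ := lt_of_le_of_ne (norm_nonneg _) (Ne.symm h)
      have hmem : ((‖p.1‖⁻¹ : ℝ) : ℂ) • p ∈ A := A.smul_mem hp _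
      have h1 : ‖(((‖p.1‖⁻¹ : ℝ) : ℂ) • p).1‖ ≤ 1 := by
        rw [Prod.smul_fst, norm_smul, Complex.norm_real, norm_inv, norm_norm,
          inv_mul_cancel₀ h]
      have h2 : ‖(((‖p.1‖⁻¹ : ℝ) : ℂ) • p).2‖ ≤ sSup T := le_csSup hbd ⟨_, hmem, h1, rfl⟩
      rw [Prod.smul_snd, norm_smul, Complex.norm_real, norm_inv, norm_norm, inv_mul_le_iff₀ hpos]
        at h2
      linarith
  · intro δ hδ
    obtain ⟨c, ⟨p, hp, hp1, rfl⟩, hc⟩ := exists_lt_of_lt_csSup hne (by linarith only [hδ] : sSup T - δ < sSup T)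
    exact ⟨p, hp, hp1, hc⟩

/-- near-extremal vectors -/
theorem exists_extremal (A : Subalgebra ℂ (C(X, ℂ) × (H →L[ℂ] H))) (κ : ℝ)
    (h1 : ∀ p ∈ A, ‖p.2‖ ≤ κ * ‖p.1‖)
    (h2 : ∀ δ : ℝ, 0 < δ → ∃ p ∈ A, ‖p.1‖ ≤ 1 ∧ κ - δ < ‖p.2‖) (δ : ℝ) (hδ : 0 < δ)
    (hκ : δ < κ) :
    ∃ p ∈ A, ‖p.1‖ ≤ 1 ∧ ∃ (x y : H) (k : ℝ), ‖x‖ = 1 ∧ ‖y‖ = 1 ∧ κ - δ < k ∧ k ≤ κ ∧
      p.2 x = (k : ℂ) • y ∧ ‖adjoint p.2 y - (k : ℂ) • x‖ ^ 2 ≤ κ ^ 2 - k ^ 2 := by
  obtain ⟨p, hp, hp1, hp2⟩ := h2 δ hδ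
  have hn : 0 ≤ κ - δ := by linarith only [hκ]
  lift κ - δ to NNReal using hn with r hr
  obtain ⟨x0, hx0, hx1⟩ := p.2.exists_lt_apply_of_lt_opNNNorm (r := r) (by exact_mod_cast hp2)
  have hx1' : κ - δ < ‖p.2 x0‖ := by rw [← hr]; exact_mod_cast hx1
  have hx0' : ‖x0‖ < 1 := by exact_mod_cast hx0
  have hne : x0 ≠ 0 := by
    rintro rfl
    simp only [map_zero, norm_zero, sub_neg] at hx1'
    linarith only [hκ, hx1']
  have hx0pos : 0 < ‖x0‖ := norm_pos_iff.mpr hne
  set x : H := ((‖x0‖⁻¹ : ℝ) : ℂ) • x0 with hx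
  have hxn : ‖x‖ = 1 := by
    rw [hx, norm_smul, Complex.norm_real, norm_inv, norm_norm, inv_mul_cancel₀ hx0pos.ne']
  set k : ℝ := ‖p.2 x‖ with hk
  have hk1 : ‖p.2 x0‖ ≤ k := by
    rw [hk, hx, map_smul, norm_smul, Complex.norm_real, norm_inv, norm_norm]
    have : 1 ≤ ‖x0‖⁻¹ := (one_le_inv₀ hx0pos).mpr hx0'.le
    nlinarith only [this, hx1]
  have hkpos : 0 < k := by linarith only [hx1, hk1]
  have hp2' : ‖p.2‖ ≤ κ := by
    have := h1 p hp
    (clear h2 r hr hp2 x0 hx0 hx1 hx1' hx0' hne hx0pos x hx hxn k hk hk1 hkpos; nlinarith [norm_nonneg p.1])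
  have hk2 : k ≤ κ := by
    have := p.2.le_opNorm x
    rw [hxn, mul_one] at this
    exact this.trans hp2'
  refine ⟨p, hp, hp1, x, ((k⁻¹ : ℝ) : ℂ) • p.2 x, k, hxn, ?_, by linarith only [hx1, hk1], hk2, ?_, ?_⟩
  · rw [norm_smul, Complex.norm_real, norm_inv, ← hk, Real.norm_of_nonneg hkpos.le,
      inv_mul_cancel₀ hkpos.ne']
  · rw [smul_smul, ← Complex.ofReal_mul, mul_inv_cancel₀ hkpos.ne', Complex.ofReal_one, one_smul]
  · set y : H := ((k⁻¹ : ℝ) : ℂ) • p.2 x with hy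
    have hyn : ‖y‖ = 1 := by
      rw [hy, norm_smul, Complex.norm_real, norm_inv, ← hk, Real.norm_of_nonneg hkpos.le,
        inv_mul_cancel₀ hkpos.ne']
    have hFx : p.2 x = (k : ℂ) • y := by
      rw [hy, smul_smul, ← Complex.ofReal_mul, mul_inv_cancel₀ hkpos.ne', Complex.ofReal_one,
        one_smul]
    have hadj : ‖adjoint p.2 y‖ ≤ κ := by
      have := (adjoint p.2).le_opNorm y
      rw [hyn, mul_one, LinearIsometryEquiv.norm_map] at this
      exact this.trans hp2'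
    have hin : ⟪adjoint p.2 y, (k : ℂ) • x⟫_ℂ = (k : ℂ) ^ 2 := by
      rw [ContinuousLinearMap.adjoint_inner_left, map_smul, hFx, smul_smul, inner_smul_right,
        inner_self_eq_norm_sq_to_K, hyn]
      simp [sq]
    have := @norm_sub_sq ℂ _ _ _ _ (adjoint p.2 y) ((k : ℂ) • x)
    rw [this, hin, norm_smul, hxn, Complex.norm_real, Real.norm_of_nonneg hkpos.le]
    have h3 : (RCLike.re ((k : ℂ) ^ 2) : ℝ) = k ^ 2 := by
      rw [← Complex.ofReal_pow]; exact Complex.ofReal_re (k ^ 2)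
    rw [h3]
    have : ‖adjoint p.2 y‖ ^ 2 ≤ κ ^ 2 := by
      have := norm_nonneg (adjoint p.2 y)
      (clear h2 hp2 hxn hk2 hFx hin h3; nlinarith)
    (clear h2 hp2 hxn hk2 hFx hin h3; nlinarith)

end Vale.Agent.P123
end
end

section

section
namespace Vale.Agent.P123

/-- numeric bounds for the defects -/
theorem num_bounds (k t r1 r2 η : ℝ) (hk1 : 239 / 100 ≤ k) (hη : 0 < η) (hη1 : η ≤ 1 / 100)
    (ht0 : -η ≤ t) (ht1 : t ≤ 1 + 2 * k - k ^ 2)
    (h1 : (3 / 4) * ((t - 1) + (r1 - 1)) ≤ k * (t - 1) + 1 / k - 3 * k - 3 * (t - 1) / k + 13 / 2 + η)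
    (h2 : (3 / 4) * ((r1 - 1) + (r2 - 1)) ≤ k * (r1 - 1) + 1 / k - 3 * k - 3 * (t - 1) / k + 13 / 2 + η) :
    0 ≤ 1 + 2 * k - k ^ 2 + η ∧ k ≤ 242 / 100 ∧
    r1 ≤ (278 / 100) * (1 + 2 * k - k ^ 2 + η) + 6 * η ∧
    r2 ≤ (712 / 100) * (1 + 2 * k - k ^ 2 + η) + 6 * η := by
  have hk0 : 0 < k := by linarith only [hk1]
  have hθ : 0 ≤ 1 + 2 * k - k ^ 2 + η := by linarith only [ht0, ht1]
  have hk2 : k ≤ 242 / 100 := by nlinarith only [hη1, ht0, ht1]
  obtain ⟨θ', hθ'⟩ : ∃ θ' : ℝ, θ' = 1 + 2 * k - k ^ 2 + η := ⟨_, rfl⟩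
  rw [← hθ'] at hθ ⊢
  have e1 : k * (1 / k) = 1 := by field_simp
  have e2 : k * (3 * (t - 1) / k) = 3 * (t - 1) := by (clear * - hk1; field_simp)
  obtain ⟨c, hcdef⟩ : ∃ c : ℝ, c = k ^ 2 - (3 / 4) * k - 3 := ⟨_, rfl⟩
  have g1 : (3 / 4) * k * r1 ≤ 4 * θ' + c * t + k * η := by
    have := mul_le_mul_of_nonneg_left h1 hk0.le
    have e3 : k * (k * (t - 1) + 1 / k - 3 * k - 3 * (t - 1) / k + 13 / 2 + η) =
        k * k * (t - 1) + k * (1 / k) - 3 * k * k - k * (3 * (t - 1) / k) + 13 / 2 * k + k * η := by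
      ring
    rw [e3, e1, e2] at this
    rw [hθ', hcdef]
    linarith only [hη, this]
  have g2 : (3 / 4) * k * r2 ≤ 4 * θ' - 3 * t + (k ^ 2 - (3 / 4) * k) * r1 + k * η := by
    have := mul_le_mul_of_nonneg_left h2 hk0.le
    have e3 : k * (k * (r1 - 1) + 1 / k - 3 * k - 3 * (t - 1) / k + 13 / 2 + η) =
        k * k * (r1 - 1) + k * (1 / k) - 3 * k * k - k * (3 * (t - 1) / k) + 13 / 2 * k + k * η := by
      ring
    rw [e3, e1, e2] at this
    rw [hθ']
    linarith only [hη, this]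
  have hc : 0 ≤ c := by rw [hcdef]; nlinarith only [hk1]
  have hcu : c ≤ 105 / 100 := by rw [hcdef]; nlinarith only [hη1, ht0, ht1]
  have ht' : t ≤ θ' := by linarith only [hη, ht1, hθ']
  refine ⟨hθ, hk2, ?_, ?_⟩
  · have g3 : c * t ≤ c * θ' := mul_le_mul_of_nonneg_left ht' hc
    have g4 : (4 + c) * θ' ≤ (3 / 4) * k * (278 / 100) * θ' := by
      apply mul_le_mul_of_nonneg_right _ hθ
      rw [hcdef]; nlinarith only [hk1, hk2]
    have g5 : (3 / 4) * k * r1 ≤ (3 / 4) * k * ((278 / 100) * θ' + 6 * η) := by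
      have : 0 ≤ k * η := by positivity
      linarith only [g1, g3, g4, this]
    exact le_of_mul_le_mul_left g5 (by positivity)
  · have hk3 : 0 ≤ k - 3 / 4 := by linarith only [hk1]
    have g6 : (k - 3 / 4) * ((3 / 4) * k * r1) ≤ (k - 3 / 4) * (4 * θ' + c * t + k * η) :=
      mul_le_mul_of_nonneg_left g1 hk3
    have e4 : (k - 3 / 4) * ((3 / 4) * k * r1) = (3 / 4) * ((k ^ 2 - (3 / 4) * k) * r1) := by ring
    obtain ⟨d, hd⟩ : ∃ d : ℝ, d = (k - 3 / 4) * c - 9 / 4 := ⟨_, rfl⟩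
    have hd1 : d ≤ 0 := by
      have : (k - 3 / 4) * c ≤ (167 / 100) * (105 / 100) :=
        mul_le_mul (by linarith only [hk2]) hcu hc (by norm_num)
      rw [hd]; (clear * - hη hη1 this; linarith)
    have hd2 : -(9 / 4) ≤ d := by
      have := mul_nonneg hk3 hc
      rw [hd]; linarith only [this]
    have g8 : d * t ≤ (9 / 4) * η := by
      have h3 : d * (t + η) ≤ 0 := mul_nonpos_of_nonpos_of_nonneg hd1 (by linarith only [ht0])
      have h4 : -d * η ≤ (9 / 4) * η := mul_le_mul_of_nonneg_right (by linarith only [hd2]) hη.le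
      linarith only [h3, h4]
    have g9 : (3 / 4) * ((3 / 4) * k * r2) ≤ 4 * k * θ' + (9 / 4) * η + k * k * η := by
      have e5 : (k - 3 / 4) * (4 * θ' + c * t + k * η) + (3 / 4) * (4 * θ' - 3 * t + k * η)
          = 4 * k * θ' + d * t + k * k * η := by rw [hd]; ring
      linarith only [g2, g6, g8, e5]
    have g11 : (9 / 4) * η + k * k * η ≤ (9 / 16) * k * (6 * η) := by
      have h5 : (9 / 4) + k * k ≤ (9 / 16) * k * 6 := by
        clear g9 g8 hd2 hd1 hd e4 g6 hk3 ht' hcu hc g2 g1 hcdef e2 e1 hθ' hθ h2 h1 ht1 ht0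
        nlinarith only [hk2, hk1]
      have h6 := mul_le_mul_of_nonneg_right h5 hη.le
      linarith only [h6]
    have g12 : 4 * k * θ' ≤ (9 / 16) * k * ((712 / 100) * θ') := by
      have h7 := mul_nonneg hk0.le hθ
      linarith only [h7]
    have g10 : (9 / 16) * k * r2 ≤ (9 / 16) * k * ((712 / 100) * θ' + 6 * η) := by
      linarith only [g9, g11, g12]
    exact le_of_mul_le_mul_left g10 (by positivity)

end Vale.Agent.P123
end
end

section

section

namespace Vale.Agent.P123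

open Complex MeasureTheory ContinuousLinearMap
open scoped InnerProductSpace ComplexConjugate Real

variable {X : Type*} [TopologicalSpace X] [CompactSpace X]
variable {H : Type*} [NormedAddCommGroup H] [InnerProductSpace ℂ H] [CompleteSpace H]

/-- The data of a near-extremal situation. -/
structure NE (A : Subalgebra ℂ (C(X, ℂ) × (H →L[ℂ] H))) (κ : ℝ) where
  p : C(X, ℂ) × (H →L[ℂ] H)
  hp : p ∈ A
  hp1 : ‖p.1‖ ≤ 1
  x : H
  y : H
  k : ℝ
  ω : ℝ
  hx : ‖x‖ = 1
  hy : ‖y‖ = 1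
  hk0 : 0 < k
  hk : k ≤ κ
  hω : 0 ≤ ω
  hFx : p.2 x = (k : ℂ) • y
  hadj : ‖adjoint p.2 y - (k : ℂ) • x‖ ≤ ω
  hbest : ∀ q ∈ A, ‖q.2‖ ≤ κ * ‖q.1‖

namespace NE

variable {A : Subalgebra ℂ (C(X, ℂ) × (H →L[ℂ] H))} {κ : ℝ} (E : NE A κ)

theorem inner_Fx (q : C(X, ℂ) × (H →L[ℂ] H)) :
    ⟪E.y, (E.p * q).2 E.x⟫_ℂ = (E.k : ℂ) * ⟪E.x, q.2 E.x⟫_ℂ
      + ⟪adjoint E.p.2 E.y - (E.k : ℂ) • E.x, q.2 E.x⟫_ℂ := by
  rw [inner_sub_left, inner_smul_left, Complex.conj_ofReal, add_sub_cancel,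
    ContinuousLinearMap.adjoint_inner_left]
  rfl

theorem state_bound {q : C(X, ℂ) × (H →L[ℂ] H)} (hq : q ∈ A) :
    E.k * ‖⟪E.x, q.2 E.x⟫_ℂ‖ ≤ κ * (1 + E.ω) * ‖q.1‖ := by
  have hκ : 0 ≤ κ := E.hk0.le.trans E.hk
  have h1 := E.inner_Fx q
  have h2 : (E.k : ℂ) * ⟪E.x, q.2 E.x⟫_ℂ = ⟪E.y, (E.p * q).2 E.x⟫_ℂ
      - ⟪adjoint E.p.2 E.y - (E.k : ℂ) • E.x, q.2 E.x⟫_ℂ := by rw [h1]; ring
  have h3 : ‖⟪E.y, (E.p * q).2 E.x⟫_ℂ‖ ≤ κ * ‖q.1‖ := by
    calc ‖⟪E.y, (E.p * q).2 E.x⟫_ℂ‖ ≤ ‖E.y‖ * ‖(E.p * q).2 E.x‖ := norm_inner_le_norm _ _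
      _ ≤ 1 * (‖(E.p * q).2‖ * ‖E.x‖) := by
          rw [E.hy]; gcongr; exact ContinuousLinearMap.le_opNorm _ _
      _ = ‖(E.p * q).2‖ := by rw [E.hx]; ring
      _ ≤ κ * ‖(E.p * q).1‖ := E.hbest _ (A.mul_mem E.hp hq)
      _ ≤ κ * ‖q.1‖ := by
          gcongr
          calc ‖(E.p * q).1‖ ≤ ‖E.p.1‖ * ‖q.1‖ := norm_mul_le _ _
            _ ≤ 1 * ‖q.1‖ := by gcongr; exact E.hp1
            _ = ‖q.1‖ := one_mul _
  have h4 : ‖⟪adjoint E.p.2 E.y - (E.k : ℂ) • E.x, q.2 E.x⟫_ℂ‖ ≤ E.ω * (κ * ‖q.1‖) := by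
    calc _ ≤ ‖adjoint E.p.2 E.y - (E.k : ℂ) • E.x‖ * ‖q.2 E.x‖ := norm_inner_le_norm _ _
      _ ≤ E.ω * (κ * ‖q.1‖) := by
          have : ‖q.2 E.x‖ ≤ κ * ‖q.1‖ := by
            calc ‖q.2 E.x‖ ≤ ‖q.2‖ * ‖E.x‖ := ContinuousLinearMap.le_opNorm _ _
              _ = ‖q.2‖ := by rw [E.hx, mul_one]
              _ ≤ _ := E.hbest _ hq
          exact mul_le_mul E.hadj this (norm_nonneg _) E.hω
  have h5 : E.k * ‖⟪E.x, q.2 E.x⟫_ℂ‖ = ‖(E.k : ℂ) * ⟪E.x, q.2 E.x⟫_ℂ‖ := by
    rw [norm_mul, Complex.norm_real, Real.norm_of_nonneg E.hk0.le]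
  rw [h5, h2]
  calc _ ≤ _ := norm_sub_le _ _
    _ ≤ κ * ‖q.1‖ + E.ω * (κ * ‖q.1‖) := add_le_add h3 h4
    _ = κ * (1 + E.ω) * ‖q.1‖ := by ring

/-- value of the sum `F + G*` between `x` and `y` -/
theorem inner_sum_y (q g : C(X, ℂ) × (H →L[ℂ] H)) :
    ⟪E.y, ((E.p * q).2 + adjoint g.2) E.x⟫_ℂ = (E.k : ℂ) * ⟪E.x, q.2 E.x⟫_ℂ
      + ⟪adjoint E.p.2 E.y - (E.k : ℂ) • E.x, q.2 E.x⟫_ℂ
      + (E.k : ℂ)⁻¹ * conj (⟪E.x, (g * E.p).2 E.x⟫_ℂ) := by
  have hk : (E.k : ℂ) ≠ 0 := by exact_mod_cast E.hk0.ne'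
  rw [add_apply, inner_add_right, E.inner_Fx,
    ContinuousLinearMap.adjoint_inner_right]
  congr 1
  have h1 : (g * E.p).2 E.x = (E.k : ℂ) • g.2 E.y := by
    change g.2 (E.p.2 E.x) = _
    rw [E.hFx, map_smul]
  rw [h1, inner_smul_right, map_mul, Complex.conj_ofReal, inner_conj_symm, ← mul_assoc,
    inv_mul_cancel₀ hk, one_mul]

theorem inner_sum_y_self (g : C(X, ℂ) × (H →L[ℂ] H)) :
    ⟪E.y, (E.p.2 + adjoint g.2) E.x⟫_ℂ = (E.k : ℂ)
      + (E.k : ℂ)⁻¹ * conj (⟪E.x, (g * E.p).2 E.x⟫_ℂ) := by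
  have hk : (E.k : ℂ) ≠ 0 := by exact_mod_cast E.hk0.ne'
  rw [add_apply, inner_add_right, ContinuousLinearMap.adjoint_inner_right,
    E.hFx, inner_smul_right, inner_self_eq_norm_sq_to_K, E.hy]
  have h1 : (g * E.p).2 E.x = (E.k : ℂ) • g.2 E.y := by
    change g.2 (E.p.2 E.x) = _
    rw [E.hFx, map_smul]
  rw [h1, inner_smul_right, map_mul, Complex.conj_ofReal, inner_conj_symm, ← mul_assoc,
    inv_mul_cancel₀ hk, one_mul]
  simp only [coe_algebraMap, ofReal_one, one_pow, mul_one]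

theorem inner_sum_x (q g : C(X, ℂ) × (H →L[ℂ] H)) :
    ⟪E.x, (q.2 + adjoint g.2) E.x⟫_ℂ = ⟪E.x, q.2 E.x⟫_ℂ + conj (⟪E.x, g.2 E.x⟫_ℂ) := by
  rw [add_apply, inner_add_right, ContinuousLinearMap.adjoint_inner_right,
    inner_conj_symm]


/-- The basic inequality between consecutive states. -/
theorem step {bd : ℝ → X} (hbd : Continuous bd) {M : ℝ → H →L[ℂ] H} (hM : Continuous M)
    (hpos : ∀ s, (M s).IsPositive)
    (hint : ∫ s in (0 : ℝ)..(2 * π), M s = (2 : ℂ) • 1)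
    {q q' r' g : C(X, ℂ) × (H →L[ℂ] H)} (hq : q ∈ A) (hr' : r' ∈ A)
    (hq1 : ‖q.1‖ ≤ 1) (hr1 : ‖r'.1‖ ≤ ‖(E.p * q).1‖)
    (hg : E.p.2 + adjoint g.2 = SInt bd M E.p.1)
    (hq' : q.2 + adjoint q'.2 = SInt bd M q.1)
    (hr : (E.p * q).2 + adjoint r'.2 = SInt bd M (E.p * q).1)
    (η : ℝ) (hk : 2 ≤ E.k) (hη1 : κ * (1 + E.ω) ≤ E.k * (1 + η / 2)) (hη0 : 0 ≤ η)
    (hη2 : E.ω * κ ≤ η / 2) :
    (3 / 4) * ((⟪E.x, q.2 E.x⟫_ℂ).re + (⟪E.x, q'.2 E.x⟫_ℂ).re) ≤
      E.k * (⟪E.x, q.2 E.x⟫_ℂ).re + 1 / E.k - 3 * E.k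
        - 3 * (⟪E.x, (g * E.p).2 E.x⟫_ℂ).re / E.k + 13 / 2 + η := by
  have hk0 : (0 : ℝ) < E.k := E.hk0
  have key := key_ineq hbd hM hpos hint E.p.1 q.1 E.hp1 hq1 E.x E.y E.hx E.hy
  have e0 : E.p.1 * q.1 = (E.p * q).1 := rfl
  rw [e0, ← hr, ← hq', ← hg, E.inner_sum_y, E.inner_sum_y_self, E.inner_sum_x] at key
  simp only [Complex.add_re, Complex.conj_re, Complex.re_ofReal_mul, Complex.ofReal_re,
    ← Complex.ofReal_inv] at key
  have b1 : (⟪adjoint E.p.2 E.y - (E.k : ℂ) • E.x, q.2 E.x⟫_ℂ).re ≤ η / 2 := by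
    calc _ ≤ ‖⟪adjoint E.p.2 E.y - (E.k : ℂ) • E.x, q.2 E.x⟫_ℂ‖ := Complex.re_le_norm _
      _ ≤ ‖adjoint E.p.2 E.y - (E.k : ℂ) • E.x‖ * ‖q.2 E.x‖ := norm_inner_le_norm _ _
      _ ≤ E.ω * κ := by
          have hκ : 0 ≤ κ := E.hk0.le.trans E.hk
          have : ‖q.2 E.x‖ ≤ κ := by
            calc ‖q.2 E.x‖ ≤ ‖q.2‖ * ‖E.x‖ := ContinuousLinearMap.le_opNorm _ _
              _ = ‖q.2‖ := by rw [E.hx, mul_one]
              _ ≤ κ * ‖q.1‖ := E.hbest _ hq
              _ ≤ κ * 1 := by (clear bd hbd M hM hpos hint q' r' g hq hr' hr1 hg hq' hr η hk hη1 hη0 hη2 hk0 e0 key; gcongr)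
              _ = κ := mul_one _
          exact mul_le_mul E.hadj this (norm_nonneg _) E.hω
      _ ≤ η / 2 := hη2
  have hpq : ‖(E.p * q).1‖ ≤ 1 := by
    calc ‖(E.p * q).1‖ ≤ ‖E.p.1‖ * ‖q.1‖ := norm_mul_le _ _
      _ ≤ 1 * 1 := mul_le_mul E.hp1 hq1 (norm_nonneg _) zero_le_one
      _ = 1 := one_mul _
  have b2 : E.k * (⟪E.x, (r' * E.p).2 E.x⟫_ℂ).re ≤ E.k * (1 + η / 2) := by
    have h1 := E.state_bound (A.mul_mem hr' E.hp)
    have h2 : ‖(r' * E.p).1‖ ≤ 1 := by
      calc ‖(r' * E.p).1‖ ≤ ‖r'.1‖ * ‖E.p.1‖ := norm_mul_le _ _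
        _ ≤ 1 * 1 := mul_le_mul (hr1.trans hpq) E.hp1 (norm_nonneg _) zero_le_one
        _ = 1 := one_mul _
    have hκ : 0 ≤ κ := E.hk0.le.trans E.hk
    calc E.k * (⟪E.x, (r' * E.p).2 E.x⟫_ℂ).re ≤ E.k * ‖⟪E.x, (r' * E.p).2 E.x⟫_ℂ‖ := by
          gcongr; exact Complex.re_le_norm _
      _ ≤ κ * (1 + E.ω) * ‖(r' * E.p).1‖ := h1
      _ ≤ κ * (1 + E.ω) * 1 := by
          have := E.hω
          (clear bd hbd M hM hpos hint q' g hq hr' hg hq' hr η hk hη1 hη0 hη2 hk0 e0 key b1 h1; gcongr)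
      _ ≤ E.k * (1 + η / 2) := by (clear bd hbd M hM hpos hint q q' r' g hq hr' hq1 hr1 hg hq' hr hk hη0 hη2 hk0 e0 key b1 hpq h1 h2 hκ; linarith)
  have b3 : (⟪E.x, (r' * E.p).2 E.x⟫_ℂ).re ≤ 1 + η / 2 := le_of_mul_le_mul_left b2 hk0
  have b4 : E.k⁻¹ * (⟪E.x, (r' * E.p).2 E.x⟫_ℂ).re ≤ 1 / E.k + η / 4 := by
    have hinv : E.k⁻¹ ≤ 1 / 2 := by
      rw [inv_le_comm₀ hk0 (by norm_num)]; norm_num; exact hk
    have hinv0 : 0 ≤ E.k⁻¹ := by positivity
    calc _ ≤ E.k⁻¹ * (1 + η / 2) := by (clear bd hbd M hM hpos hint q' g hq hg hq' hr hη0 hη2 e0 key b1 hinv hinv0; gcongr)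
      _ = 1 / E.k + E.k⁻¹ * (η / 2) := by rw [one_div]; ring
      _ ≤ 1 / E.k + (1 / 2) * (η / 2) := by (clear bd hbd M hM hpos hint q q' r' g hq hr' hq1 hr1 hg hq' hr hη1 hη2 e0 key b1 hpq b2 b3 hinv0; gcongr)
      _ = _ := by ring
  have e5 : 3 * (⟪E.x, (g * E.p).2 E.x⟫_ℂ).re / E.k = 3 * (E.k⁻¹ * (⟪E.x, (g * E.p).2 E.x⟫_ℂ).re) := by
    rw [div_eq_mul_inv]; ring
  rw [e5]
  linarith

theorem upper {bd : ℝ → X} (hbd : Continuous bd) {M : ℝ → H →L[ℂ] H} (hM : Continuous M)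
    (hpos : ∀ s, (M s).IsPositive)
    (hint : ∫ s in (0 : ℝ)..(2 * π), M s = (2 : ℂ) • 1)
    {g : C(X, ℂ) × (H →L[ℂ] H)} (hg : E.p.2 + adjoint g.2 = SInt bd M E.p.1) :
    1 + (⟪E.x, (g * E.p).2 E.x⟫_ℂ).re ≤ 1 + 2 * E.k - E.k ^ 2 := by
  have h1 := re_SInt_le_two hbd hM hpos hint E.p.1 E.hp1 E.x E.y E.hx E.hy
  rw [← hg, E.inner_sum_y_self] at h1
  simp only [Complex.add_re, Complex.conj_re, Complex.re_ofReal_mul, Complex.ofReal_re,
    ← Complex.ofReal_inv] at h1
  have hk0 := E.hk0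
  have h2 := mul_le_mul_of_nonneg_left h1 hk0.le
  rw [mul_add, ← mul_assoc, mul_inv_cancel₀ hk0.ne', one_mul] at h2
  (clear bd hbd M hM hpos hint hg h1 hk0; nlinarith)

theorem lower {q : C(X, ℂ) × (H →L[ℂ] H)} (hq : q ∈ A) (hq1 : ‖q.1‖ ≤ 1)
    (η : ℝ) (hη1 : κ * (1 + E.ω) ≤ E.k * (1 + η / 2)) :
    -(1 + η / 2) ≤ (⟪E.x, q.2 E.x⟫_ℂ).re := by
  have h1 := E.state_bound hq
  have hκ : 0 ≤ κ := E.hk0.le.trans E.hk
  have h2 : E.k * ‖⟪E.x, q.2 E.x⟫_ℂ‖ ≤ E.k * (1 + η / 2) := by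
    calc _ ≤ κ * (1 + E.ω) * ‖q.1‖ := h1
      _ ≤ κ * (1 + E.ω) * 1 := by
          have := E.hω
          gcongr
      _ ≤ _ := by (clear q hq hq1 h1 hκ; linarith)
  have h3 : ‖⟪E.x, q.2 E.x⟫_ℂ‖ ≤ 1 + η / 2 := le_of_mul_le_mul_left h2 E.hk0
  have := (abs_le.mp (Complex.abs_re_le_norm (⟪E.x, q.2 E.x⟫_ℂ))).1
  linarith

/-- positivity of the state -/
theorem pos_state {v : C(X, ℂ) × (H →L[ℂ] H)} (hv : v ∈ A) (ε0 B τ : ℝ)
    (hv1 : ∀ z, ε0 ≤ (v.1 z).re) (hv2 : ‖v.1‖ ≤ B) (hε0 : 0 ≤ ε0) (hτ : 2 * ε0 ≤ τ) (hτ0 : 0 < τ)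
    (η : ℝ) (hη0 : 0 ≤ η) (hη1 : κ * (1 + E.ω) ≤ E.k * (1 + η / 2)) :
    ε0 ≤ (⟪E.x, v.2 E.x⟫_ℂ).re + B ^ 2 / τ + (η / 2) * (τ + B ^ 2 / τ) := by
  have hB2 : 0 ≤ B ^ 2 / τ := by positivity
  have hw : algebraMap ℂ _ (τ : ℂ) - v ∈ A := A.sub_mem (A.algebraMap_mem _) hv
  have h1 := E.state_bound hw
  have hκ : 0 ≤ κ := E.hk0.le.trans E.hk
  have hnorm : ‖(algebraMap ℂ (C(X, ℂ) × (H →L[ℂ] H)) (τ : ℂ) - v).1‖ ≤ τ - ε0 + B ^ 2 / τ := by
    have hnn : 0 ≤ τ - ε0 + B ^ 2 / τ := by linarith only [hτ, hτ0, hB2]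
    rw [ContinuousMap.norm_le _ hnn]
    intro z
    have e1 : (algebraMap ℂ (C(X, ℂ) × (H →L[ℂ] H)) (τ : ℂ) - v).1 z = (τ : ℂ) - v.1 z := rfl
    rw [e1]
    apply le_of_sq_le_sq _ hnn
    have h2 : ‖(τ : ℂ) - v.1 z‖ ^ 2 = τ ^ 2 - 2 * τ * (v.1 z).re + ‖v.1 z‖ ^ 2 := by
      rw [← Complex.normSq_eq_norm_sq, ← Complex.normSq_eq_norm_sq, Complex.normSq_apply,
        Complex.normSq_apply]
      simp only [Complex.sub_re, Complex.sub_im, Complex.ofReal_re, Complex.ofReal_im]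
      ring
    rw [h2]
    have h3 : ‖v.1 z‖ ^ 2 ≤ B ^ 2 := by
      have := (v.1.norm_coe_le_norm z).trans hv2
      have h0 := norm_nonneg (v.1 z)
      nlinarith only [this, h0]
    have h4 : τ * ε0 ≤ τ * (v.1 z).re := by
      have := hv1 z
      (clear * - this hτ0; gcongr)
    have h5 : (τ - ε0 + B ^ 2 / τ) ^ 2 = (τ - ε0) ^ 2 + 2 * (B ^ 2 - ε0 * (B ^ 2 / τ))
        + (B ^ 2 / τ) ^ 2 := by
      have : τ * (B ^ 2 / τ) = B ^ 2 := by field_simp
      linarith
    have h6 : ε0 * (B ^ 2 / τ) ≤ B ^ 2 / 2 := by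
      rw [← mul_div_assoc, div_le_div_iff₀ hτ0 (by norm_num)]
      nlinarith only [hτ]
    rw [h5]
    nlinarith only [h3, h4, h6, sq_nonneg ε0]
  have hval : (⟪E.x, (algebraMap ℂ (C(X, ℂ) × (H →L[ℂ] H)) (τ : ℂ) - v).2 E.x⟫_ℂ).re
      = τ - (⟪E.x, v.2 E.x⟫_ℂ).re := by
    have e1 : (algebraMap ℂ (C(X, ℂ) × (H →L[ℂ] H)) (τ : ℂ) - v).2 E.x
        = (τ : ℂ) • E.x - v.2 E.x := by
      have : (algebraMap ℂ (C(X, ℂ) × (H →L[ℂ] H)) (τ : ℂ) - v).2
        = algebraMap ℂ (H →L[ℂ] H) (τ : ℂ) - v.2 := rfl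
      rw [this, Algebra.algebraMap_eq_smul_one]
      simp
    rw [e1, inner_sub_right, inner_smul_right, inner_self_eq_norm_sq_to_K, E.hx]
    simp only [coe_algebraMap, ofReal_one, one_pow, mul_one, sub_re, ofReal_re]
  have h7 : E.k * (τ - (⟪E.x, v.2 E.x⟫_ℂ).re) ≤ E.k * ((1 + η / 2) * (τ - ε0 + B ^ 2 / τ)) := by
    rw [← hval]
    calc _ ≤ E.k * ‖⟪E.x, (algebraMap ℂ (C(X, ℂ) × (H →L[ℂ] H)) (τ : ℂ) - v).2 E.x⟫_ℂ‖ := by
          have := E.hk0.le
          gcongr; exact Complex.re_le_norm _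
      _ ≤ κ * (1 + E.ω) * ‖(algebraMap ℂ (C(X, ℂ) × (H →L[ℂ] H)) (τ : ℂ) - v).1‖ := h1
      _ ≤ (E.k * (1 + η / 2)) * (τ - ε0 + B ^ 2 / τ) := by
          apply mul_le_mul hη1 hnorm (norm_nonneg _)
          have := E.hk0.le
          (clear v hv ε0 B τ hv1 hv2 hε0 hτ hτ0 hη1 hB2 hw h1 hκ hnorm hval; positivity)
      _ = _ := by ring
  have h8 : τ - (⟪E.x, v.2 E.x⟫_ℂ).re ≤ (1 + η / 2) * (τ - ε0 + B ^ 2 / τ) :=
    le_of_mul_le_mul_left h7 E.hk0
  nlinarith [mul_nonneg hη0 hε0]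

end NE

/-- near-extremal data with bounds for the defects of the first two iterated transforms -/
theorem op_defects (A : Subalgebra ℂ (C(X, ℂ) × (H →L[ℂ] H)))
    {bd : ℝ → X} (hbd : Continuous bd) {M : ℝ → H →L[ℂ] H} (hM : Continuous M)
    (hpos : ∀ s, (M s).IsPositive)
    (hint : ∫ s in (0 : ℝ)..(2 * π), M s = (2 : ℂ) • 1)
    (rel : C(X, ℂ) → C(X, ℂ) → Prop)
    (halpha : ∀ p ∈ A, ∃ q ∈ A, rel p.1 q.1 ∧ ‖q.1‖ ≤ ‖p.1‖ ∧
      p.2 + adjoint q.2 = SInt bd M p.1)
    (κ : ℝ) (hκ1 : ∀ p ∈ A, ‖p.2‖ ≤ κ * ‖p.1‖)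
    (hκ2 : ∀ δ : ℝ, 0 < δ → ∃ p ∈ A, ‖p.1‖ ≤ 1 ∧ κ - δ < ‖p.2‖)
    (hκ : 12 / 5 < κ) (η : ℝ) (hη : 0 < η) (hη1 : η ≤ 1 / 100) :
    ∃ (E : NE A κ) (g u1 u2 : C(X, ℂ) × (H →L[ℂ] H)), u1 ∈ A ∧ u2 ∈ A ∧
      ‖u1.1‖ ≤ 1 ∧ ‖u2.1‖ ≤ 1 ∧ rel E.p.1 g.1 ∧ rel (g.1 * E.p.1) u1.1 ∧ rel u1.1 u2.1 ∧
      κ * (1 + E.ω) ≤ E.k * (1 + η / 2) ∧ κ ≤ 3 ∧ κ - η / 1000 ≤ E.k ∧
      1 + (⟪E.x, u1.2 E.x⟫_ℂ).re ≤ (278 / 100) * (1 + 2 * E.k - E.k ^ 2 + η) + 6 * η ∧
      1 + (⟪E.x, u2.2 E.x⟫_ℂ).re ≤ (712 / 100) * (1 + 2 * E.k - E.k ^ 2 + η) + 6 * η := by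
  set δ : ℝ := η ^ 2 / (100 * κ) with hδ
  have hκpos : 0 < κ := by linarith only [hκ]
  have hδ0 : 0 < δ := by (clear * - hη hκ; positivity)
  have hδκ : δ * κ = η ^ 2 / 100 := by rw [hδ]; field_simp
  have hδ1 : δ ≤ η / 1000 := by
    have h1 : δ * (12 / 5) ≤ δ * κ := by (clear * - hκ hη; gcongr)
    have h2 : η ^ 2 ≤ η * (1 / 100) := by nlinarith only [hη, hη1]
    linarith
  obtain ⟨p, hp, hp1, x, y, k, hx, hy, hk1, hk2, hFx, hadj⟩ :=
    exists_extremal A κ hκ1 hκ2 δ hδ0 (by linarith only [hκ, hη1, hδ1])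
  have hk3 : 239 / 100 ≤ k := by linarith only [hκ, hη1, hδ1, hk1]
  have hk0 : 0 < k := by linarith only [hκ, hη1, hδ1, hk1]
  have hadj' : ‖adjoint p.2 y - (k : ℂ) • x‖ ≤ η / 7 := by
    apply le_of_sq_le_sq _ (by positivity)
    have : κ ^ 2 - k ^ 2 ≤ (η / 7) ^ 2 := by nlinarith only [hδκ, hκ, hδ0, hk1, hη1, hδ1]
    (clear A bd hbd M hM hpos hint rel halpha hκ1 hκ2 hκpos hp hp1 hx hy hk2 hFx hk3 hk0; linarith)
  let E : NE A κ :=
    { p := p, hp := hp, hp1 := hp1, x := x, y := y, k := k, ω := η / 7, hx := hx, hy := hy,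
      hk0 := hk0, hk := hk2, hω := by positivity, hFx := hFx, hadj := hadj', hbest := hκ1 }
  have hη1' : κ * (1 + E.ω) ≤ E.k * (1 + η / 2) := by
    change κ * (1 + η / 7) ≤ k * (1 + η / 2)
    nlinarith only [hk1, hκ, hδ1, hη, hη1]
  obtain ⟨g, hgA, hgrel, hgn, hgeq⟩ := halpha p hp
  have hu : g * p ∈ A := A.mul_mem hgA hp
  have hun : ‖(g * p).1‖ ≤ 1 := by
    calc ‖(g * p).1‖ ≤ ‖g.1‖ * ‖p.1‖ := norm_mul_le _ _
      _ ≤ 1 * 1 := mul_le_mul (hgn.trans hp1) hp1 (norm_nonneg _) zero_le_one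
      _ = 1 := one_mul _
  obtain ⟨u1, hu1A, hu1rel, hu1n, hu1eq⟩ := halpha (g * p) hu
  obtain ⟨u2, hu2A, hu2rel, hu2n, hu2eq⟩ := halpha u1 hu1A
  obtain ⟨r1, hr1A, -, hr1n, hr1eq⟩ := halpha (p * (g * p)) (A.mul_mem hp hu)
  obtain ⟨r2, hr2A, -, hr2n, hr2eq⟩ := halpha (p * u1) (A.mul_mem hp hu1A)
  have hu1n' : ‖u1.1‖ ≤ 1 := hu1n.trans hun
  have hu2n' : ‖u2.1‖ ≤ 1 := hu2n.trans hu1n'
  -- upper bound of the state at g * p
  have ht1 := E.upper hbd hM hpos hint hgeq
  have hkη : k ^ 2 - 2 * k ≤ 1 + η / 2 := by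
    have h0 := E.lower hu hun η hη1'
    change -(1 + η / 2) ≤ (⟪x, (g * p).2 x⟫_ℂ).re at h0
    change 1 + (⟪x, (g * p).2 x⟫_ℂ).re ≤ 1 + 2 * k - k ^ 2 at ht1
    linarith only [h0, ht1]
  have hk4 : k ≤ 242 / 100 := by nlinarith only [hη1, hkη, hδ0]
  have hκ3 : κ ≤ 3 := by linarith only [hη1, hδ1, hk1, hk4]
  have hη2' : E.ω * κ ≤ η / 2 := by
    change η / 7 * κ ≤ η / 2
    nlinarith only [hη1, hδ0, hδ1, hk1, hk4]
  have ht0 := E.lower hu hun η hη1'
  have s1 := E.step hbd hM hpos hint hu hr1A hun hr1n hgeq hu1eq hr1eq η (by change 2 ≤ k; linarith only [hκ, hη1, hδ1, hk1])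
    hη1' hη.le hη2'
  have s2 := E.step hbd hM hpos hint hu1A hr2A hu1n' hr2n hgeq hu2eq hr2eq η
    (by change 2 ≤ k; linarith only [hκ, hη1, hδ1, hk1]) hη1' hη.le hη2'
  obtain ⟨a0, ha0⟩ : ∃ a0 : ℝ, a0 = (⟪x, (g * p).2 x⟫_ℂ).re := ⟨_, rfl⟩
  obtain ⟨a1, ha1⟩ : ∃ a1 : ℝ, a1 = (⟪x, u1.2 x⟫_ℂ).re := ⟨_, rfl⟩
  obtain ⟨a2, ha2⟩ : ∃ a2 : ℝ, a2 = (⟪x, u2.2 x⟫_ℂ).re := ⟨_, rfl⟩
  change 1 + (⟪x, (g * p).2 x⟫_ℂ).re ≤ 1 + 2 * k - k ^ 2 at ht1
  change -(1 + η / 2) ≤ (⟪x, (g * p).2 x⟫_ℂ).re at ht0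
  change (3 / 4) * ((⟪x, (g * p).2 x⟫_ℂ).re + (⟪x, u1.2 x⟫_ℂ).re) ≤
    k * (⟪x, (g * p).2 x⟫_ℂ).re + 1 / k - 3 * k
      - 3 * (⟪x, (g * p).2 x⟫_ℂ).re / k + 13 / 2 + η at s1
  change (3 / 4) * ((⟪x, u1.2 x⟫_ℂ).re + (⟪x, u2.2 x⟫_ℂ).re) ≤
    k * (⟪x, u1.2 x⟫_ℂ).re + 1 / k - 3 * k
      - 3 * (⟪x, (g * p).2 x⟫_ℂ).re / k + 13 / 2 + η at s2
  rw [← ha0] at ht0 ht1 s1 s2
  rw [← ha1] at s1 s2
  rw [← ha2] at s2
  obtain ⟨n1, n2, n3, n4⟩ := num_bounds k (1 + a0) (1 + a1) (1 + a2) η hk3 hη hη1 (by linarith only [hδ0, hδ1, ht0])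
    ht1 (by simpa only [add_sub_cancel_left, one_div] using s1) (by simpa only [add_sub_cancel_left, one_div] using s2)
  refine ⟨E, g, u1, u2, hu1A, hu2A, hu1n', hu2n', hgrel, hu1rel, hu2rel, hη1', hκ3, ?_, ?_, ?_⟩
  · change κ - η / 1000 ≤ k
    linarith only [hδ1, hk1]
  · change 1 + (⟪x, u1.2 x⟫_ℂ).re ≤ (278 / 100) * (1 + 2 * k - k ^ 2 + η) + 6 * η
    rw [← ha1]; exact n3
  · change 1 + (⟪x, u2.2 x⟫_ℂ).re ≤ (712 / 100) * (1 + 2 * k - k ^ 2 + η) + 6 * η
    rw [← ha2]; exact n4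

/-- The approximate inequality for the best constant. -/
theorem op_approx (A : Subalgebra ℂ (C(X, ℂ) × (H →L[ℂ] H)))
    {bd : ℝ → X} (hbd : Continuous bd) {M : ℝ → H →L[ℂ] H} (hM : Continuous M)
    (hpos : ∀ s, (M s).IsPositive)
    (hint : ∫ s in (0 : ℝ)..(2 * π), M s = (2 : ℂ) • 1)
    (rel : C(X, ℂ) → C(X, ℂ) → Prop)
    (halpha : ∀ p ∈ A, ∃ q ∈ A, rel p.1 q.1 ∧ ‖q.1‖ ≤ ‖p.1‖ ∧
      p.2 + adjoint q.2 = SInt bd M p.1)
    (c1 c2 ε0 : ℝ) (hc1 : 0 ≤ c1) (hc2 : 0 ≤ c2) (hε0 : 0 ≤ ε0)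
    (hA : ∀ p ∈ A, ‖p.1‖ ≤ 1 → ∀ g u1 u2 : C(X, ℂ), rel p.1 g → rel (g * p.1) u1 → rel u1 u2 →
      ∀ z, ε0 ≤ c1 * (1 + (u1 z).re) + c2 * (1 + (u2 z).re))
    (κ : ℝ) (hκ1 : ∀ p ∈ A, ‖p.2‖ ≤ κ * ‖p.1‖)
    (hκ2 : ∀ δ : ℝ, 0 < δ → ∃ p ∈ A, ‖p.1‖ ≤ 1 ∧ κ - δ < ‖p.2‖)
    (hκ : 12 / 5 < κ) (B : ℝ) (hB : B = 2 * c1 + 2 * c2)
    (η : ℝ) (hη : 0 < η) (hη1 : η ≤ 1 / 100) (τ : ℝ) (hτ : 2 * ε0 ≤ τ) (hτ0 : 0 < τ) :
    ε0 ≤ (278 / 100 * c1 + 712 / 100 * c2) * (1 + 2 * κ - κ ^ 2 + 2 * η) + 6 * (c1 + c2) * η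
        + B ^ 2 / τ + (η / 2) * (τ + B ^ 2 / τ) := by
  obtain ⟨E, g, u1, u2, hu1A, hu2A, hu1n', hu2n', hgrel, hu1rel, hu2rel, hη1', hκ3, hk, n3, n4⟩ :=
    op_defects A hbd hM hpos hint rel halpha κ hκ1 hκ2 hκ η hη hη1
  -- positivity of the state at v
  set v : C(X, ℂ) × (H →L[ℂ] H) := (c1 : ℂ) • (1 + u1) + (c2 : ℂ) • (1 + u2) with hv
  have hvA : v ∈ A :=
    A.add_mem (A.smul_mem (A.add_mem A.one_mem hu1A) _) (A.smul_mem (A.add_mem A.one_mem hu2A) _)
  have hv1 : ∀ z, ε0 ≤ (v.1 z).re := by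
    intro z
    have := hA E.p E.hp E.hp1 g.1 u1.1 u2.1 hgrel hu1rel hu2rel z
    have e1 : v.1 z = (c1 : ℂ) * (1 + u1.1 z) + (c2 : ℂ) * (1 + u2.1 z) := rfl
    rw [e1]
    simp only [Complex.add_re, Complex.re_ofReal_mul, Complex.one_re]
    exact this
  have hone : ‖(1 : C(X, ℂ))‖ ≤ 1 := by
    rw [ContinuousMap.norm_le _ zero_le_one]
    intro z; simp only [ContinuousMap.one_apply, norm_one, Std.le_refl]
  have hv2 : ‖v.1‖ ≤ B := by
    have e1 : v.1 = (c1 : ℂ) • (1 + u1.1) + (c2 : ℂ) • (1 + u2.1) := rfl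
    rw [e1]
    calc _ ≤ ‖(c1 : ℂ) • (1 + u1.1)‖ + ‖(c2 : ℂ) • (1 + u2.1)‖ := norm_add_le _ _
      _ ≤ c1 * (1 + 1) + c2 * (1 + 1) := by
          rw [norm_smul, norm_smul, Complex.norm_real, Complex.norm_real,
            Real.norm_of_nonneg hc1, Real.norm_of_nonneg hc2]
          gcongr
          · exact (norm_add_le _ _).trans (add_le_add hone hu1n')
          · exact (norm_add_le _ _).trans (add_le_add hone hu2n')
      _ = B := by rw [hB]; ring
  have hP := E.pos_state hvA ε0 B τ hv1 hv2 hε0 hτ hτ0 η hη.le hη1'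
  have hval : (⟪E.x, v.2 E.x⟫_ℂ).re = c1 * (1 + (⟪E.x, u1.2 E.x⟫_ℂ).re)
      + c2 * (1 + (⟪E.x, u2.2 E.x⟫_ℂ).re) := by
    have e1 : v.2 E.x = (c1 : ℂ) • (E.x + u1.2 E.x) + (c2 : ℂ) • (E.x + u2.2 E.x) := rfl
    rw [e1, inner_add_right, inner_smul_right, inner_smul_right, inner_add_right,
      inner_add_right, inner_self_eq_norm_sq_to_K, E.hx]
    simp only [coe_algebraMap, ofReal_one, one_pow, add_re, mul_re, ofReal_re, one_re, ofReal_im, add_im, one_im, zero_add, zero_mul, sub_zero]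
  rw [hval] at hP
  have hθ : 1 + 2 * E.k - E.k ^ 2 + η ≤ 1 + 2 * κ - κ ^ 2 + 2 * η := by
    have q0 := E.hk
    have q1 : (κ - E.k) * (κ + E.k - 2) ≤ (η / 1000) * 4 :=
      mul_le_mul (by (clear bd hbd M hM hpos hint rel halpha c1 c2 ε0 hc1 hc2 hε0 hA hκ1 hκ2 hκ B hB hη hη1 τ hτ hτ0 g u1 u2 hu1A hu2A hu1n' hu2n' hgrel hu1rel hu2rel hη1' hκ3 n3 n4 v hv hvA hv1 hone hv2 hP hval q0; linarith)) (by (clear bd hbd M hM hpos hint rel halpha c1 c2 ε0 hc1 hc2 hε0 hA hκ1 hκ2 hκ B hB η hη hη1 τ hτ hτ0 g u1 u2 hu1A hu2A hu1n' hu2n' hgrel hu1rel hu2rel hη1' hk n3 n4 v hv hvA hv1 hone hv2 hP hval; linarith)) (by (clear bd hbd M hM hpos hint rel halpha c1 c2 ε0 hc1 hc2 hε0 hA hκ1 hκ2 B hB τ hτ hτ0 g u1 u2 hu1A hu2A hu1n' hu2n' hgrel hu1rel hu2rel hη1' hκ3 n3 n4 v hv hvA hv1 hone hv2 hP hval q0; linarith)) (by positivity)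
    (clear bd hbd M hM hpos hint rel halpha c1 c2 ε0 hc1 hc2 hε0 hA hκ1 hκ2 B hB τ hτ hτ0 g u1 u2 hu1A hu2A hu1n' hu2n' hgrel hu1rel hu2rel hη1' n3 n4 v hv hvA hv1 hone hv2 hP hval; nlinarith)
  have m1 : c1 * (1 + (⟪E.x, u1.2 E.x⟫_ℂ).re) ≤ c1 * ((278 / 100) * (1 + 2 * κ - κ ^ 2 + 2 * η) + 6 * η) :=
    mul_le_mul_of_nonneg_left (by (clear bd hbd M hM hpos hint rel halpha c1 c2 ε0 hc1 hc2 hε0 hA hκ1 hκ2 B hB τ hτ hτ0 g u2 hu1A hu2A hu1n' hu2n' hgrel hu1rel hu2rel hη1' n4 v hv hvA hv1 hone hv2 hP hval; linarith)) hc1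
  have m2 : c2 * (1 + (⟪E.x, u2.2 E.x⟫_ℂ).re) ≤ c2 * ((712 / 100) * (1 + 2 * κ - κ ^ 2 + 2 * η) + 6 * η) :=
    mul_le_mul_of_nonneg_left (by (clear bd hbd M hM hpos hint rel halpha c1 c2 ε0 hc1 hc2 hε0 hA hκ1 hκ2 B hB τ hτ hτ0 g u1 hu1A hu2A hu1n' hu2n' hgrel hu1rel hu2rel hη1' n3 v hv hvA hv1 hone hv2 hP hval m1; linarith)) hc2
  linarith

/-- The abstract operator theorem: a pointwise inequality for the iterated transforms
forces the best constant to be strictly below `1 + √2`. -/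
theorem op_core (A : Subalgebra ℂ (C(X, ℂ) × (H →L[ℂ] H)))
    {bd : ℝ → X} (hbd : Continuous bd) {M : ℝ → H →L[ℂ] H} (hM : Continuous M)
    (hpos : ∀ s, (M s).IsPositive)
    (hint : ∫ s in (0 : ℝ)..(2 * π), M s = (2 : ℂ) • 1)
    (rel : C(X, ℂ) → C(X, ℂ) → Prop)
    (hb : ∃ κ : ℝ, ∀ p ∈ A, ‖p.2‖ ≤ κ * ‖p.1‖)
    (halpha : ∀ p ∈ A, ∃ q ∈ A, rel p.1 q.1 ∧ ‖q.1‖ ≤ ‖p.1‖ ∧
      p.2 + adjoint q.2 = SInt bd M p.1)
    (c1 c2 ε0 : ℝ) (hc1 : 0 ≤ c1) (hc2 : 0 ≤ c2) (hε0 : 0 ≤ ε0)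
    (hA : ∀ p ∈ A, ‖p.1‖ ≤ 1 → ∀ g u1 u2 : C(X, ℂ), rel p.1 g → rel (g * p.1) u1 → rel u1 u2 →
      ∀ z, ε0 ≤ c1 * (1 + (u1 z).re) + c2 * (1 + (u2 z).re)) :
    ∃ κ : ℝ, 0 ≤ κ ∧ (∀ p ∈ A, ‖p.2‖ ≤ κ * ‖p.1‖) ∧
      (κ ≤ 12 / 5 ∨ ε0 ≤ (278 / 100 * c1 + 712 / 100 * c2) * (1 + 2 * κ - κ ^ 2)) := by
  obtain ⟨κ, hκ0, hκ1, hκ2⟩ := exists_best A hb
  refine ⟨κ, hκ0, hκ1, ?_⟩
  by_cases hκ : κ ≤ 12 / 5
  · exact Or.inl hκ
  right
  push Not at hκ
  set B : ℝ := 2 * c1 + 2 * c2 with hB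
  have main : ∀ η : ℝ, 0 < η → η ≤ 1 / 100 → ∀ τ : ℝ, 2 * ε0 ≤ τ → 0 < τ →
      ε0 ≤ (278 / 100 * c1 + 712 / 100 * c2) * (1 + 2 * κ - κ ^ 2 + 2 * η) + 6 * (c1 + c2) * η
        + B ^ 2 / τ + (η / 2) * (τ + B ^ 2 / τ) := fun η hη hη1 τ hτ hτ0 =>
    op_approx A hbd hM hpos hint rel halpha c1 c2 ε0 hc1 hc2 hε0 hA κ hκ1 hκ2 hκ B hB η hη hη1 τ
      hτ hτ0
  -- let η tend to 0, then τ to infinity
  have main2 : ∀ τ : ℝ, 2 * ε0 ≤ τ → 0 < τ →
      ε0 ≤ (278 / 100 * c1 + 712 / 100 * c2) * (1 + 2 * κ - κ ^ 2) + B ^ 2 / τ := by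
    intro τ hτ hτ0
    apply le_of_forall_pos_le_add
    intro e he
    set D : ℝ := (278 / 100 * c1 + 712 / 100 * c2) * 2 + 6 * (c1 + c2) + (1 / 2) * (τ + B ^ 2 / τ)
      with hD
    have hD0 : 0 < D := by
      have : 0 ≤ B ^ 2 / τ := by (clear * - hτ0; positivity)
      (clear * - hc1 hc2 hτ0; positivity)
    set η : ℝ := min (1 / 100) (e / D) with hη
    have hη0 : 0 < η := lt_min (by norm_num) (by (clear * - he hc1 hc2 hτ0; positivity))
    have hηe : η * D ≤ e := by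
      have : η ≤ e / D := min_le_right _ _
      rwa [le_div_iff₀ hD0] at this
    have := main η hη0 (min_le_left _ _) τ hτ hτ0
    nlinarith only [hηe, this, hD, hη0]
  apply le_of_forall_pos_le_add
  intro e he
  set τ : ℝ := max (max (2 * ε0) 1) (B ^ 2 / e) with hτ
  have hτ1 : 2 * ε0 ≤ τ := (le_max_left _ _).trans (le_max_left _ _)
  have hτ2 : 1 ≤ τ := (le_max_right _ _).trans (le_max_left _ _)
  have hτ3 : B ^ 2 / e ≤ τ := le_max_right _ _
  have h1 := main2 τ hτ1 (by linarith only [hτ2])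
  have h2 : B ^ 2 / τ ≤ e := by
    rw [div_le_iff₀ (by linarith only [hτ2])]
    rw [div_le_iff₀ he] at hτ3
    linarith only [hτ3]
  linarith only [h1, h2]

end Vale.Agent.P123
end
end
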