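import Vale.Agent.P123.MathlibUsed
import Vale.Agent.P123.Bdl.B1

set_option linter.all false

section

section

namespace Vale.Agent.P123
open Complex MeasureTheory Set Filter Topology Polynomial
open scoped Real ComplexConjugate

theorem intervalIntegral_conj_aux (f : ℝ → ℂ) (a b : ℝ) :
    ∫ s in a..b, conj (f s) = conj (∫ s in a..b, f s) := by
  rw [intervalIntegral, intervalIntegral, integral_conj, integral_conj, map_sub]

namespace Dom
variable {D : Dom}
variable {H : Type*} [NormedAddCommGroup H] [InnerProductSpace ℂ H] [CompleteSpace H]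

/-- boundary values of the approximants converge uniformly -/
theorem evS_Er_bd {A : H →L[ℂ] H} {η : ℝ} (hA : D.Inside A η)
    {x : C(D.K, ℂ) × (H →L[ℂ] H)} (hx : x ∈ D.S A) {ε : ℝ} (hε : 0 < ε) :
    ∃ r0 : ℝ, r0 < 1 ∧ ∀ r : ℝ, r0 < r → 0 ≤ r → r < 1 → ∀ t : ℝ,
      ‖evS A (D.bd t) (Er A x.1 r)
        - conj (∫ s in (0:ℝ)..(2*π), x.1 (D.bd s) * (D.k s (D.sig t) : ℂ))‖ ≤ 5 * ε := by
  obtain ⟨r0, h1, h2⟩ := jump_scalar x.1 (fun z hz => S_integral_N hx hz) hε
  refine ⟨r0, h1, fun r hr h0 hr1 t => ?_⟩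
  have h3 := h2 r hr h0 hr1 t
  rw [evS_Er hA x.1 h0 hr1]
  have h4 : ∫ s in (0:ℝ)..(2*π), conj (x.1 (D.bd s)) * D.N s (r * (D.bd t : D.K))
      = conj (∫ s in (0:ℝ)..(2*π), x.1 (D.bd s) * conj (D.N s ((r : ℂ) * D.sig t))) := by
    rw [← intervalIntegral_conj_aux]
    congr 1; ext1 s
    rw [map_mul, Complex.conj_conj, coe_bd]
  rw [h4, ← map_sub, Complex.norm_conj]
  exact h3

/-- a sequence in `[0,1)` tending to one -/
noncomputable def rn (n : ℕ) : ℝ := 1 - 1 / ((n : ℝ) + 1)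

theorem rn_nonneg (n : ℕ) : 0 ≤ rn n := by
  unfold rn
  have h : (0:ℝ) < (n : ℝ) + 1 := by positivity
  rw [sub_nonneg, div_le_one h]
  have : (0:ℝ) ≤ n := Nat.cast_nonneg n
  linarith

theorem rn_lt_one (n : ℕ) : rn n < 1 := by
  unfold rn
  have h : (0:ℝ) < 1 / ((n : ℝ) + 1) := by positivity
  linarith

theorem tendsto_rn : Tendsto rn atTop (𝓝 1) := by
  unfold rn
  have h : Tendsto (fun n : ℕ => 1 / ((n : ℝ) + 1)) atTop (𝓝 0) :=
    tendsto_one_div_add_atTop_nhds_zero_nat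
  simpa using h.const_sub 1

/-- the operator components converge -/
theorem tendsto_opS_Er {A : H →L[ℂ] H} {η : ℝ} (hA : D.Inside A η) (f : C(D.K, ℂ)) :
    Tendsto (fun n => opS A (Er A f (rn n))) atTop
      (𝓝 (∫ s in (0:ℝ)..(2*π), (conj (f (D.bd s)) * D.w s) • resolvent A (D.sig s))) := by
  have hc := continuous_conj_mul_w f
  have hsig := D.continuous_sig
  -- clipped parameter
  have hcont : Continuous fun r : ℝ => ∫ s in (0:ℝ)..(2*π),
      (conj (f (D.bd s)) * D.w s) • resolvent (((max 0 (min 1 r) : ℝ) : ℂ) • A) (D.sig s) := by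
    apply intervalIntegral.continuous_parametric_intervalIntegral_of_continuous'
    have hres : Continuous fun p : ℝ × ℝ =>
        resolvent (((max 0 (min 1 p.1) : ℝ) : ℂ) • A) (D.sig p.2) := by
      rw [continuous_iff_continuousAt]
      rintro ⟨r, s⟩
      have h1 : ContinuousAt Ring.inverse (algebraMap ℂ (H →L[ℂ] H) (D.sig s)
          - ((max 0 (min 1 r) : ℝ) : ℂ) • A) := by
        obtain ⟨u, hu⟩ := hA.res s (max 0 (min 1 r)) ⟨le_max_left _ _, by simp⟩
        rw [← hu]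
        exact NormedRing.inverse_continuousAt u
      have h2 : Continuous fun p : ℝ × ℝ => (algebraMap ℂ (H →L[ℂ] H) (D.sig p.2)
          - ((max 0 (min 1 p.1) : ℝ) : ℂ) • A) := by
        apply Continuous.sub
        · exact (continuous_algebraMap ℂ (H →L[ℂ] H)).comp (hsig.comp continuous_snd)
        · have h3 : Continuous fun p : ℝ × ℝ => ((max 0 (min 1 p.1) : ℝ) : ℂ) := by fun_prop
          exact h3.smul continuous_const
      exact ContinuousAt.comp (f := fun p : ℝ × ℝ => (algebraMap ℂ (H →L[ℂ] H) (D.sig p.2)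
          - ((max 0 (min 1 p.1) : ℝ) : ℂ) • A)) (x := (r, s)) h1 h2.continuousAt
    exact (hc.comp continuous_snd).smul hres
  have h1 := (hcont.tendsto 1).comp tendsto_rn
  have h2 : ((max 0 (min 1 1) : ℝ) : ℂ) • A = A := by simp
  simp only [h2] at h1
  refine h1.congr fun n => ?_
  have h3 : max 0 (min 1 (rn n)) = rn n := by
    rw [min_eq_right (rn_lt_one n).le, max_eq_right (rn_nonneg n)]
  rw [opS_Er hA f (rn_nonneg n) (rn_lt_one n)]
  simp only [Function.comp_apply, h3]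

/-- the function components converge -/
theorem tendsto_fst_Er {A : H →L[ℂ] H} {η : ℝ} (hA : D.Inside A η)
    {x : C(D.K, ℂ) × (H →L[ℂ] H)} (hx : x ∈ D.S A) :
    ∃ g : C(D.K, ℂ), Tendsto (fun n => ((Er A x.1 (rn n) : D.S A) :
        C(D.K, ℂ) × (H →L[ℂ] H)).1) atTop (𝓝 g) ∧
      ∀ t, g (D.bd t) = conj (∫ s in (0:ℝ)..(2*π), x.1 (D.bd s) * (D.k s (D.sig t) : ℂ)) := by
  set y : ℕ → C(D.K, ℂ) × (H →L[ℂ] H) := fun n => (Er A x.1 (rn n) : D.S A) with hy
  have hyS : ∀ n, y n ∈ D.S A := fun n => (Er A x.1 (rn n) : D.S A).2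
  have hbd : ∀ ε > 0, ∃ N, ∀ n ≥ N, ∀ t : ℝ, ‖(y n).1 (D.bd t)
        - conj (∫ s in (0:ℝ)..(2*π), x.1 (D.bd s) * (D.k s (D.sig t) : ℂ))‖ ≤ 5 * ε := by
    intro ε hε
    obtain ⟨r0, h1, h2⟩ := evS_Er_bd hA hx hε
    have h3 : ∀ᶠ n in atTop, r0 < rn n := tendsto_rn.eventually (lt_mem_nhds h1)
    obtain ⟨N, hN⟩ := eventually_atTop.1 h3
    exact ⟨N, fun n hn t => h2 (rn n) (hN n hn) (rn_nonneg n) (rn_lt_one n) t⟩
  have hcau : CauchySeq fun n => (y n).1 := by
    rw [Metric.cauchySeq_iff]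
    intro ε hε
    obtain ⟨N, hN⟩ := hbd (ε / 20) (by positivity)
    refine ⟨N, fun m hm n hn => ?_⟩
    rw [dist_eq_norm]
    have h4 : y m - y n ∈ D.S A := sub_mem (hyS m) (hyS n)
    have h5 : ‖(y m - y n).1‖ ≤ ε / 2 := by
      apply S_norm_fst_le h4
      intro t
      have e1 := hN m hm t
      have e2 := hN n hn t
      have e3 : (y m - y n).1 (D.bd t)
        = ((y m).1 (D.bd t)
            - conj (∫ s in (0:ℝ)..(2*π), x.1 (D.bd s) * (D.k s (D.sig t) : ℂ)))
          - ((y n).1 (D.bd t)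
            - conj (∫ s in (0:ℝ)..(2*π), x.1 (D.bd s) * (D.k s (D.sig t) : ℂ))) := by
        rw [Prod.fst_sub, ContinuousMap.sub_apply]; ring
      rw [e3]
      refine (norm_sub_le _ _).trans ?_
      linarith
    rw [Prod.fst_sub] at h5
    linarith
  obtain ⟨g, hg⟩ := cauchySeq_tendsto_of_complete hcau
  refine ⟨g, hg, fun t => ?_⟩
  have h6 : Tendsto (fun n => (y n).1 (D.bd t)) atTop (𝓝 (g (D.bd t))) :=
    ((continuous_eval_const (D.bd t)).tendsto g).comp hg
  refine tendsto_nhds_unique h6 ?_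
  rw [Metric.tendsto_atTop]
  intro ε hε
  obtain ⟨N, hN⟩ := hbd (ε / 10) (by positivity)
  refine ⟨N, fun n hn => ?_⟩
  rw [dist_eq_norm]
  have := hN n hn t
  linarith

/-- the operator-valued kernel -/
noncomputable def M (D : Dom) (A : H →L[ℂ] H) (s : ℝ) : H →L[ℂ] H :=
  D.w s • resolvent A (D.sig s) + star (D.w s • resolvent A (D.sig s))

theorem continuous_M {A : H →L[ℂ] H} {η : ℝ} (hA : D.Inside A η) : Continuous (D.M A) := by
  have h1 := D.continuous_w
  have h2 := hA.res.continuous_resolvent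
  have h3 : Continuous fun s => D.w s • resolvent A (D.sig s) := h1.smul h2
  unfold M
  exact h3.add h3.star

theorem integral_star {f : ℝ → (H →L[ℂ] H)} (hf : Continuous f) (a b : ℝ) :
    ∫ s in a..b, star (f s) = star (∫ s in a..b, f s) :=
  ContinuousLinearMap.intervalIntegral_comp_comm (μ := volume) (a := a) (b := b)
    ((starL' ℝ : (H →L[ℂ] H) ≃L[ℝ] (H →L[ℂ] H)) : (H →L[ℂ] H) →L[ℝ] (H →L[ℂ] H))
    (hf.intervalIntegrable _ _)

/-- (P4) the operator `α` on the algebra of pairs -/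
theorem S_alpha {A : H →L[ℂ] H} {η : ℝ} (hA : D.Inside A η)
    {x : C(D.K, ℂ) × (H →L[ℂ] H)} (hx : x ∈ D.S A) :
    ∃ y ∈ D.S A,
      (∀ t, y.1 (D.bd t)
        = conj (∫ s in (0:ℝ)..(2*π), x.1 (D.bd s) * (D.k s (D.sig t) : ℂ))) ∧
      y.2 = ∫ s in (0:ℝ)..(2*π), (conj (x.1 (D.bd s)) * D.w s) • resolvent A (D.sig s) ∧
      x.2 + star y.2 = ∫ s in (0:ℝ)..(2*π), x.1 (D.bd s) • D.M A s := by
  obtain ⟨g, hg, hgt⟩ := tendsto_fst_Er hA hx
  have hop := tendsto_opS_Er hA x.1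
  have hlim : Tendsto (fun n => ((Er A x.1 (rn n) : D.S A) : C(D.K, ℂ) × (H →L[ℂ] H)))
      atTop (𝓝 (g, ∫ s in (0:ℝ)..(2*π),
        (conj (x.1 (D.bd s)) * D.w s) • resolvent A (D.sig s))) := by
    exact hg.prodMk_nhds hop
  have hmem := (D.isClosed_S A).mem_of_tendsto hlim
    (Eventually.of_forall fun n => (Er A x.1 (rn n) : D.S A).2)
  refine ⟨_, hmem, hgt, rfl, ?_⟩
  have hc0 := D.continuous_w
  have hcr := hA.res.continuous_resolvent
  have hf : Continuous fun s => x.1 (D.bd s) := x.1.continuous.comp D.continuous_bd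
  have hfc := continuous_conj_mul_w x.1
  have hX : Continuous fun s => D.w s • resolvent A (D.sig s) := hc0.smul hcr
  have hY : Continuous fun s => (conj (x.1 (D.bd s)) * D.w s) • resolvent A (D.sig s) :=
    hfc.smul hcr
  show x.2 + star (∫ s in (0:ℝ)..(2*π),
      (conj (x.1 (D.bd s)) * D.w s) • resolvent A (D.sig s)) = _
  have hZ : Continuous fun s => x.1 (D.bd s) • (D.w s • resolvent A (D.sig s)) := hf.smul hX
  rw [← S_integral_resolvent hA hx, ← integral_star hY,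
    ← intervalIntegral.integral_add (hZ.intervalIntegrable _ _)
      (hY.star.intervalIntegrable _ _)]
  congr 1; ext1 s
  rw [M, smul_add, mul_smul, star_smul]
  congr 2
  simp

end Dom
end Vale.Agent.P123
end
end

section

section

/-!
Interface of the algebra part.  Everything is in the namespace `Vale.Agent.P123.Dom`.

* `D.bd s : D.K` the boundary point, `D.S A` the closed algebra of pairs `(f, f(A))`,
* `D.Inside A η` the numerical range of `A` is inside the domain with margin `η`,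
* `D.M A s` the operator kernel.
-/

namespace Vale.Agent.P123
open Complex MeasureTheory Set Filter Topology Polynomial
open scoped Real ComplexConjugate

namespace Dom
variable {D : Dom}
variable {H : Type*} [NormedAddCommGroup H] [InnerProductSpace ℂ H] [CompleteSpace H]

theorem M_eq (D : Dom) (A : H →L[ℂ] H) (s : ℝ) :
    D.M A s = ((D.R s / (2 * π) : ℝ) : ℂ) • (ee s • resolvent A (D.sig s)
      + star (ee s • resolvent A (D.sig s))) := by
  have hw : D.w s = ((D.R s / (2 * π) : ℝ) : ℂ) * ee s := by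
    unfold w; push_cast; ring
  rw [M, hw, mul_smul, star_smul (((D.R s / (2 * π) : ℝ) : ℂ)), smul_add]
  congr 2
  simp

/-- elements of the algebra are determined by the boundary values -/
theorem S_ext {A : H →L[ℂ] H} {η : ℝ} (hA : D.Inside A η)
    {x y : C(D.K, ℂ) × (H →L[ℂ] H)} (hx : x ∈ D.S A) (hy : y ∈ D.S A)
    (h : ∀ s, x.1 (D.bd s) = y.1 (D.bd s)) : x = y := by
  obtain ⟨kap, hk0, hk⟩ := S_norm_snd_le hA
  have hxy : x - y ∈ D.S A := sub_mem hx hy
  have h1 : ‖(x - y).1‖ ≤ 0 := S_norm_fst_le hxy fun s => by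
    rw [Prod.fst_sub, ContinuousMap.sub_apply, h s, sub_self, norm_zero]
  have h2 : ‖(x - y).2‖ ≤ 0 := by
    refine (hk _ hxy).trans ?_
    have := mul_le_mul_of_nonneg_left h1 hk0
    linarith
  have h3 : (x - y).1 = 0 := norm_le_zero_iff.1 h1
  have h4 : (x - y).2 = 0 := norm_le_zero_iff.1 h2
  exact sub_eq_zero.1 (Prod.ext h3 h4)

omit [CompleteSpace H] in
/-- scalar multiples of one are in the algebra -/
theorem one_mem_S (A : H →L[ℂ] H) : (1 : C(D.K, ℂ) × (H →L[ℂ] H)) ∈ D.S A :=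
  one_mem _

omit [CompleteSpace H] in
theorem mul_mem_S {A : H →L[ℂ] H} {x y : C(D.K, ℂ) × (H →L[ℂ] H)}
    (hx : x ∈ D.S A) (hy : y ∈ D.S A) : (x.1 * y.1, x.2 * y.2) ∈ D.S A :=
  mul_mem hx hy

omit [CompleteSpace H] in
theorem pow_mem_S {A : H →L[ℂ] H} {x : C(D.K, ℂ) × (H →L[ℂ] H)}
    (hx : x ∈ D.S A) (n : ℕ) : (x.1 ^ n, x.2 ^ n) ∈ D.S A :=
  pow_mem hx n

omit [CompleteSpace H] in
theorem add_mem_S {A : H →L[ℂ] H} {x y : C(D.K, ℂ) × (H →L[ℂ] H)}
    (hx : x ∈ D.S A) (hy : y ∈ D.S A) : (x.1 + y.1, x.2 + y.2) ∈ D.S A :=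
  add_mem hx hy

omit [CompleteSpace H] in
theorem smul_mem_S {A : H →L[ℂ] H} {x : C(D.K, ℂ) × (H →L[ℂ] H)}
    (hx : x ∈ D.S A) (c : ℂ) : (c • x.1, c • x.2) ∈ D.S A :=
  Subalgebra.smul_mem _ hx c

omit [CompleteSpace H] in
/-- the element of the algebra given by a polynomial -/
theorem poly_mem_S (A : H →L[ℂ] H) (P : ℂ[X]) :
    ∃ x ∈ D.S A, (∀ z : D.K, x.1 z = P.eval (z : ℂ)) ∧ x.2 = aeval A P :=
  ⟨_, aeval_mem_S A P, aeval_pr_fst_apply A P, aeval_pr_snd A P⟩

/-- the map `α` -/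
noncomputable def alpha {A : H →L[ℂ] H} {η : ℝ} (hA : D.Inside A η)
    {x : C(D.K, ℂ) × (H →L[ℂ] H)} (hx : x ∈ D.S A) : C(D.K, ℂ) × (H →L[ℂ] H) :=
  (S_alpha hA hx).choose

theorem alpha_mem {A : H →L[ℂ] H} {η : ℝ} (hA : D.Inside A η)
    {x : C(D.K, ℂ) × (H →L[ℂ] H)} (hx : x ∈ D.S A) : alpha hA hx ∈ D.S A :=
  (S_alpha hA hx).choose_spec.1

theorem alpha_bd {A : H →L[ℂ] H} {η : ℝ} (hA : D.Inside A η)
    {x : C(D.K, ℂ) × (H →L[ℂ] H)} (hx : x ∈ D.S A) (t : ℝ) :
    (alpha hA hx).1 (D.bd t)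
      = conj (∫ s in (0:ℝ)..(2*π), x.1 (D.bd s) * (D.k s (D.sig t) : ℂ)) :=
  (S_alpha hA hx).choose_spec.2.1 t

theorem alpha_add {A : H →L[ℂ] H} {η : ℝ} (hA : D.Inside A η)
    {x : C(D.K, ℂ) × (H →L[ℂ] H)} (hx : x ∈ D.S A) :
    x.2 + star (alpha hA hx).2 = ∫ s in (0:ℝ)..(2*π), x.1 (D.bd s) • D.M A s :=
  (S_alpha hA hx).choose_spec.2.2.2

/-- `α` is contractive for the sup norm -/
theorem norm_alpha_le {A : H →L[ℂ] H} {η : ℝ} (hA : D.Inside A η)
    {x : C(D.K, ℂ) × (H →L[ℂ] H)} (hx : x ∈ D.S A) {m : ℝ}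
    (h : ∀ s, ‖x.1 (D.bd s)‖ ≤ m) : ‖(alpha hA hx).1‖ ≤ m := by
  have hm : 0 ≤ m := (norm_nonneg _).trans (h 0)
  refine S_norm_fst_le (alpha_mem hA hx) fun t => ?_
  rw [alpha_bd, Complex.norm_conj]
  have h1 : ‖∫ s in (0:ℝ)..(2*π), x.1 (D.bd s) * (D.k s (D.sig t) : ℂ)‖
      ≤ ∫ s in (0:ℝ)..(2*π), m * D.k s (D.sig t) := by
    apply intervalIntegral.norm_integral_le_of_norm_le (by positivity)
    · refine Filter.Eventually.of_forall fun s _ => ?_
      rw [norm_mul, Complex.norm_real, Real.norm_of_nonneg (D.k_nonneg (D.sig_mem_K t) s)]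
      exact mul_le_mul_of_nonneg_right (h s) (D.k_nonneg (D.sig_mem_K t) s)
    · exact (D.intervalIntegrable_k_sig t).const_mul _
  rw [intervalIntegral.integral_const_mul, D.integral_k_sig, mul_one] at h1
  exact h1

end Dom
end Vale.Agent.P123
end
end

section

section

/-!
Positivity of the operator kernel and the operator inequality
`‖f(A) + (α f)(A)*‖ ≤ 2 sup |f|`.
-/

namespace Vale.Agent.P123
open Complex MeasureTheory Set Filter Topology Polynomial
open scoped Real ComplexConjugate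

namespace Dom
variable {D : Dom}
variable {H : Type*} [NormedAddCommGroup H] [InnerProductSpace ℂ H] [CompleteSpace H]

theorem M_re_inner_nonneg {A : H →L[ℂ] H} {η : ℝ} (hA : D.Inside A η) (s : ℝ) (x : H) :
    0 ≤ (inner ℂ x (ee s • resolvent A (D.sig s) x)).re := by
  obtain ⟨m, hm0, hm⟩ := D.exists_h_lower
  have hA' := hA.mono (lt_min hA.1 hm0) (min_le_left _ _)
  have hres := hA.res.isUnit s
  set T := algebraMap ℂ (H →L[ℂ] H) (D.sig s) - A with hT
  set u := resolvent A (D.sig s) x with hu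
  have hTu : T u = x := by
    have h1 : T * resolvent A (D.sig s) = 1 := Ring.mul_inverse_cancel _ hres
    have h2 := congrArg (fun (B : H →L[ℂ] H) => B x) h1
    simpa using h2
  have h3 := hA'.coercive (fun s => (min_le_right _ _).trans (hm s)) s (τ := 1) (by simp) u
  simp only [Complex.ofReal_one, one_smul] at h3
  rw [← hT, hTu] at h3
  have h4 : 0 ≤ min η m * ‖u‖ ^ 2 := by
    have := hA'.1
    positivity
  have h5 : (inner ℂ x (ee s • u)).re = (ee (-s) * inner ℂ u x).re := by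
    rw [inner_smul_right, ← Complex.conj_re, map_mul, inner_conj_symm]
    congr 2
    rw [ee, ee, ← Complex.exp_conj]
    simp
  rw [h5]; linarith

/-- the quadratic form of `M` is real and nonnegative -/
theorem inner_M (A : H →L[ℂ] H) (s : ℝ) (x : H) :
    inner ℂ x (D.M A s x) = ((2 * (D.R s / (2 * π)) *
      (inner ℂ x (ee s • resolvent A (D.sig s) x)).re : ℝ) : ℂ) := by
  rw [M_eq]
  set X : H →L[ℂ] H := ee s • resolvent A (D.sig s) with hX
  have h1 : inner ℂ x ((star X) x) = conj (inner ℂ x (X x)) := by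
    rw [ContinuousLinearMap.star_eq_adjoint, ContinuousLinearMap.adjoint_inner_right,
      inner_conj_symm]
  have h2 : inner ℂ x (X x) = inner ℂ x (ee s • resolvent A (D.sig s) x) := rfl
  rw [smul_apply, add_apply, inner_smul_right,
    inner_add_right, h1, Complex.add_conj, h2]
  push_cast; ring

theorem inner_M_re_nonneg {A : H →L[ℂ] H} {η : ℝ} (hA : D.Inside A η) (s : ℝ) (x : H) :
    0 ≤ (inner ℂ x (D.M A s x)).re := by
  rw [inner_M, Complex.ofReal_re]
  have h1 := D.M_re_inner_nonneg hA s x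
  have h2 := D.R_pos s
  have h3 := Real.pi_pos
  positivity

theorem inner_M_eq_re (A : H →L[ℂ] H) (s : ℝ) (x : H) :
    inner ℂ x (D.M A s x) = (((inner ℂ x (D.M A s x)).re : ℝ) : ℂ) := by
  conv_lhs => rw [inner_M]
  rw [inner_M, Complex.ofReal_re]

theorem isSelfAdjoint_M (A : H →L[ℂ] H) (s : ℝ) : IsSelfAdjoint (D.M A s) := by
  unfold M
  exact IsSelfAdjoint.add_star_self _

theorem isPositive_M {A : H →L[ℂ] H} {η : ℝ} (hA : D.Inside A η) (s : ℝ) :
    (D.M A s).IsPositive := by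
  rw [ContinuousLinearMap.isPositive_iff_complex]
  intro x
  have h1 : inner ℂ (D.M A s x) x = conj (inner ℂ x (D.M A s x)) := by
    rw [inner_conj_symm]
  constructor
  · rw [h1]
    have h2 := inner_M_eq_re (D := D) A s x
    rw [h2]
    simp
  · rw [h1]
    have h2 := inner_M_re_nonneg hA s x
    simpa only [Complex.conj_re, RCLike.re_eq_complex_re] using h2

/-- Cauchy-Schwarz for `M`, in the additive form -/
theorem norm_inner_M_le {A : H →L[ℂ] H} {η : ℝ} (hA : D.Inside A η) (s : ℝ) (x y : H) :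
    ‖inner ℂ x (D.M A s y)‖
      ≤ ((inner ℂ x (D.M A s x)).re + (inner ℂ y (D.M A s y)).re) / 2 := by
  set c : ℂ := inner ℂ x (D.M A s y) with hc
  -- unimodular factor
  obtain ⟨u, hu, huc⟩ : ∃ u : ℂ, ‖u‖ = 1 ∧ u * c = (‖c‖ : ℂ) := by
    by_cases h : c = 0
    · exact ⟨1, by simp, by simp [h]⟩
    · have hn : (‖c‖ : ℂ) ≠ 0 := by exact_mod_cast (norm_ne_zero_iff.2 h)
      refine ⟨(‖c‖ : ℂ) / c, ?_, ?_⟩
      · rw [norm_div, Complex.norm_real, norm_norm, div_self (norm_ne_zero_iff.2 h)]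
      · field_simp
  have h1 := inner_M_re_nonneg hA s (x - u • y)
  have hsa := isSelfAdjoint_M (D := D) A s
  have hyx : inner ℂ y (D.M A s x) = conj c := by
    have h2 : inner ℂ y (D.M A s x) = inner ℂ (D.M A s y) x := by
      have h3 := hsa.adjoint_eq
      conv_lhs => rw [← h3]
      rw [ContinuousLinearMap.adjoint_inner_right]
    rw [h2, hc, inner_conj_symm]
  have e : inner ℂ (x - u • y) (D.M A s (x - u • y))
      = inner ℂ x (D.M A s x) + inner ℂ y (D.M A s y) - u * c - conj (u * c) := by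
    rw [map_sub, map_smul, inner_sub_left, inner_sub_right, inner_sub_right, inner_smul_right,
      inner_smul_left, inner_smul_left, inner_smul_right, hyx, ← hc, map_mul]
    have hu2 : conj u * u = 1 := by
      rw [mul_comm, Complex.mul_conj, Complex.normSq_eq_norm_sq, hu]; simp
    linear_combination (inner ℂ y (D.M A s y)) * hu2
  rw [e, huc, Complex.conj_ofReal] at h1
  simp only [Complex.sub_re, Complex.add_re, Complex.ofReal_re] at h1
  linarith

/-- the total mass of `M` -/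
theorem integral_M {A : H →L[ℂ] H} {η : ℝ} (hA : D.Inside A η) :
    ∫ s in (0:ℝ)..(2*π), D.M A s = (2 : ℂ) • (1 : H →L[ℂ] H) := by
  have h1 := S_integral_resolvent hA (one_mem_S (D := D) A)
  simp only [Prod.fst_one, ContinuousMap.one_apply, one_smul, Prod.snd_one] at h1
  have hX : Continuous fun s => D.w s • resolvent A (D.sig s) :=
    D.continuous_w.smul hA.res.continuous_resolvent
  unfold M
  rw [intervalIntegral.integral_add (hX.intervalIntegrable _ _)
    (hX.star.intervalIntegrable _ _), integral_star hX, h1, star_one, two_smul]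

/-- matrix coefficients of integrals -/
theorem inner_integral {F : ℝ → (H →L[ℂ] H)} (hF : Continuous F) (a b : ℝ) (x y : H) :
    inner ℂ x ((∫ s in a..b, F s) y) = ∫ s in a..b, inner ℂ x (F s y) := by
  have h := ContinuousLinearMap.intervalIntegral_comp_comm (μ := volume) (a := a) (b := b)
    ((innerSL ℂ x).comp (ContinuousLinearMap.apply ℂ H y)) (hF.intervalIntegrable _ _)
  exact h.symm

theorem integral_inner_M {A : H →L[ℂ] H} {η : ℝ} (hA : D.Inside A η) (x y : H) :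
    ∫ s in (0:ℝ)..(2*π), inner ℂ x (D.M A s y) = 2 * inner ℂ x y := by
  rw [← inner_integral (continuous_M hA), integral_M hA, smul_apply, inner_smul_right]
  rfl

theorem continuous_inner_M {A : H →L[ℂ] H} {η : ℝ} (hA : D.Inside A η) (x y : H) :
    Continuous fun s => inner ℂ x (D.M A s y) := by
  have h := continuous_M hA
  exact continuous_const.inner (h.clm_apply continuous_const)

theorem integral_inner_M_re {A : H →L[ℂ] H} {η : ℝ} (hA : D.Inside A η) (x : H) :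
    ∫ s in (0:ℝ)..(2*π), (inner ℂ x (D.M A s x)).re = 2 * ‖x‖ ^ 2 := by
  have h := integral_inner_M hA x x
  have h2 : (fun s => inner ℂ x (D.M A s x))
      = fun s => (((inner ℂ x (D.M A s x)).re : ℝ) : ℂ) :=
    funext fun s => inner_M_eq_re A s x
  rw [h2, intervalIntegral.integral_ofReal, inner_self_eq_norm_sq_to_K] at h
  have h3 := congrArg Complex.re h
  rw [Complex.ofReal_re] at h3
  rw [h3]
  simp only [Complex.coe_algebraMap]
  norm_cast

/-- weighted form of the operator inequality -/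
theorem norm_integral_inner_M_le {A : H →L[ℂ] H} {η : ℝ} (hA : D.Inside A η)
    {f : ℝ → ℂ} {m : ℝ} (hf : Continuous f) (hm : ∀ s, ‖f s‖ ≤ m) (x y : H) :
    ‖∫ s in (0:ℝ)..(2*π), f s * inner ℂ x (D.M A s y)‖ ≤ m * (‖x‖ ^ 2 + ‖y‖ ^ 2) := by
  have hm0 : 0 ≤ m := (norm_nonneg _).trans (hm 0)
  have hx : Continuous fun s => (inner ℂ x (D.M A s x)).re :=
    Complex.continuous_re.comp (continuous_inner_M hA x x)
  have hy : Continuous fun s => (inner ℂ y (D.M A s y)).re :=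
    Complex.continuous_re.comp (continuous_inner_M hA y y)
  have h1 : ‖∫ s in (0:ℝ)..(2*π), f s * inner ℂ x (D.M A s y)‖
      ≤ ∫ s in (0:ℝ)..(2*π), m * (((inner ℂ x (D.M A s x)).re
        + (inner ℂ y (D.M A s y)).re) / 2) := by
    apply intervalIntegral.norm_integral_le_of_norm_le (by positivity)
    · refine Filter.Eventually.of_forall fun s _ => ?_
      rw [norm_mul]
      exact mul_le_mul (hm s) (norm_inner_M_le hA s x y) (norm_nonneg _) hm0
    · exact (continuous_const.mul ((hx.add hy).div_const 2)).intervalIntegrable _ _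
  rw [intervalIntegral.integral_const_mul, intervalIntegral.integral_div,
    intervalIntegral.integral_add (hx.intervalIntegrable _ _) (hy.intervalIntegrable _ _)] at h1
  have e1 := integral_inner_M_re hA x
  have e2 := integral_inner_M_re hA y
  rw [e1, e2] at h1
  linarith

/-- the operator inequality -/
theorem norm_integral_smul_M_le {A : H →L[ℂ] H} {η : ℝ} (hA : D.Inside A η)
    {f : ℝ → ℂ} {m : ℝ} (hf : Continuous f) (hm : ∀ s, ‖f s‖ ≤ m) :
    ‖∫ s in (0:ℝ)..(2*π), f s • D.M A s‖ ≤ 2 * m := by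
  have hm0 : 0 ≤ m := (norm_nonneg _).trans (hm 0)
  have hFc : Continuous fun s => f s • D.M A s := hf.smul (continuous_M hA)
  set T := ∫ s in (0:ℝ)..(2*π), f s • D.M A s with hT
  have key : ∀ x y : H, ‖inner ℂ x (T y)‖ ≤ m * (‖x‖ ^ 2 + ‖y‖ ^ 2) := by
    intro x y
    rw [hT, inner_integral hFc]
    have : ∀ s, inner ℂ x ((f s • D.M A s) y) = f s * inner ℂ x (D.M A s y) := by
      intro s; rw [smul_apply, inner_smul_right]
    simp_rw [this]
    exact norm_integral_inner_M_le hA hf hm x y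
  refine T.opNorm_le_bound (by positivity) fun y => ?_
  by_cases hTy : T y = 0
  · rw [hTy, norm_zero]; positivity
  by_cases hy0 : y = 0
  · exact absurd (by rw [hy0, map_zero]) hTy
  have hny : 0 < ‖y‖ := norm_pos_iff.2 hy0
  have hnT : 0 < ‖T y‖ := norm_pos_iff.2 hTy
  -- test with a vector of the same norm as `y`
  have h1 := key (((‖y‖ / ‖T y‖ : ℝ) : ℂ) • T y) y
  rw [inner_smul_left, inner_self_eq_norm_sq_to_K, norm_smul, norm_mul] at h1
  simp only [Complex.conj_ofReal, Complex.norm_real, Complex.coe_algebraMap, norm_pow] at h1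
  rw [Real.norm_of_nonneg (by positivity : 0 ≤ ‖y‖ / ‖T y‖),
    Real.norm_of_nonneg (norm_nonneg _)] at h1
  have e1 : ‖y‖ / ‖T y‖ * ‖T y‖ ^ 2 = ‖y‖ * ‖T y‖ := by field_simp
  have e2 : ‖y‖ / ‖T y‖ * ‖T y‖ = ‖y‖ := by field_simp
  rw [e1, e2] at h1
  have h2 : ‖y‖ * ‖T y‖ ≤ ‖y‖ * (2 * m * ‖y‖) := by nlinarith
  exact le_of_mul_le_mul_left h2 hny

end Dom
end Vale.Agent.P123
end
end

section

section

namespace Vale.Agent.P123

open Complex MeasureTheory Set Filter Topology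
open scoped Real

namespace Dom

variable (D : Dom)

/-- double layer average (complex) at the boundary point `sig t` -/
noncomputable def Dc (φ : ℝ → ℂ) (t : ℝ) : ℂ :=
  ∫ s in (0:ℝ)..(2*π), φ s * (D.k s (D.sig t) : ℂ)

/-- double layer average (real) at the boundary point `sig t` -/
noncomputable def Dr (w : ℝ → ℝ) (t : ℝ) : ℝ :=
  ∫ s in (0:ℝ)..(2*π), w s * D.k s (D.sig t)

/-- `1 + Re (φ * conj (D φ))` -/
noncomputable def w1 (φ : ℝ → ℂ) (t : ℝ) : ℝ := 1 + (φ t * (starRingEnd ℂ) (D.Dc φ t)).re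

end Dom

/-- boundary values of a function analytic in the domain, bounded by one -/
structure BV (D : Dom) (φ : ℝ → ℂ) : Prop where
  cont : Continuous φ
  per : ∀ s, φ (s + 2 * π) = φ s
  bound : ∀ s, ‖φ s‖ ≤ 1
  cauchy : ∀ p, p ∉ D.K → ∫ s in (0:ℝ)..(2*π), φ s * D.N s p = 0

end Vale.Agent.P123
end
end

section

section

namespace Vale.Agent.P123

open Complex MeasureTheory Set Filter Topology
open scoped Real

theorem periodic_lower_bound {f : ℝ → ℝ} (hf : Continuous f) (hp : ∀ s, f (s + 2 * π) = f s)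
    (hpos : ∀ s, 0 < f s) : ∃ c : ℝ, 0 < c ∧ ∀ s, c < f s := by
  obtain ⟨t0, -, ht0⟩ := (isCompact_Icc (a := (0 : ℝ)) (b := 2 * π)).exists_isMinOn
    (nonempty_Icc.2 Real.two_pi_pos.le) hf.continuousOn
  refine ⟨f t0 / 2, half_pos (hpos t0), fun t => ?_⟩
  have hp' : Function.Periodic f (2 * π) := hp
  obtain ⟨y, hy, hy'⟩ := hp'.exists_mem_Ico₀ Real.two_pi_pos t
  rw [hy']
  have h1 : f t0 ≤ f y := ht0 (show y ∈ Icc (0:ℝ) (2 * π) from ⟨hy.1, hy.2.le⟩)
  have h2 := hpos t0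
  linarith

theorem periodic_upper_bound {f : ℝ → ℝ} (hf : Continuous f) (hp : ∀ s, f (s + 2 * π) = f s) :
    ∃ C : ℝ, 0 < C ∧ ∀ s, f s ≤ C := by
  obtain ⟨C, hC⟩ := (isCompact_Icc (a := (0 : ℝ)) (b := 2 * π)).bddAbove_image hf.continuousOn
  refine ⟨max C 1, by positivity, fun s => ?_⟩
  have hp' : Function.Periodic f (2 * π) := hp
  obtain ⟨y, hy, hy'⟩ := hp'.exists_mem_Ico₀ Real.two_pi_pos s
  rw [hy']
  exact le_trans (hC ⟨y, ⟨hy.1, hy.2.le⟩, rfl⟩) (le_max_left _ _)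

namespace Dom

variable (D : Dom)

/-- inner parallel domain -/
noncomputable def shrink (r : ℝ) (hr : ∀ s, r < D.R s) (hh : ∀ s, r < D.h s) : Dom where
  h := fun s => D.h s - r
  h1 := D.h1
  R := fun s => D.R s - r
  hasDerivAt_h := fun s => (D.hasDerivAt_h s).sub_const r
  hasDerivAt_h1 := fun s => (D.hasDerivAt_h1 s).congr_deriv (by ring)
  continuous_R := D.continuous_R.sub continuous_const
  R_pos := fun s => sub_pos.2 (hr s)
  h_pos := fun s => sub_pos.2 (hh s)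
  periodic := fun s => by rw [D.periodic]

/-- interior ball condition -/
theorem exists_interior_ball : ∃ r : ℝ, 0 < r ∧ ∀ s t : ℝ,
    2 * r * D.gap (D.sig t) s ≤ ‖D.sig s - D.sig t‖ ^ 2 := by
  obtain ⟨c1, hc1, h1⟩ := periodic_lower_bound D.continuous_R D.R_periodic D.R_pos
  obtain ⟨c2, hc2, h2⟩ := periodic_lower_bound D.continuous_h D.periodic D.h_pos
  set r := min c1 c2 with hr
  have hr0 : 0 < r := lt_min hc1 hc2
  have hrR : ∀ s, r < D.R s := fun s => lt_of_le_of_lt (min_le_left _ _) (h1 s)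
  have hrh : ∀ s, r < D.h s := fun s => lt_of_le_of_lt (min_le_right _ _) (h2 s)
  refine ⟨r, hr0, fun s t => ?_⟩
  have h3 := (D.shrink r hrR hrh).gap_sig_nonneg s t
  have h4 : (D.shrink r hrR hrh).sig s = D.sig s - r * ee s := by
    unfold sig shrink
    push_cast
    ring
  rw [h4] at h3
  have h5 : D.gap (D.sig s - r * ee s) t = (D.shrink r hrR hrh).gap (D.sig s - r * ee s) t + r := by
    unfold gap shrink
    ring
  have h6 := D.gap_sub_le (D.sig s - r * ee s) (D.sig t) t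
  rw [D.gap_sig_self] at h6
  have h7 : r ≤ ‖D.sig t - (D.sig s - r * ee s)‖ := by linarith
  have h8 : r ^ 2 ≤ ‖D.sig t - (D.sig s - r * ee s)‖ ^ 2 := by gcongr
  have h9 : ‖D.sig t - (D.sig s - r * ee s)‖ ^ 2 =
      ‖D.sig s - D.sig t‖ ^ 2 - 2 * r * D.gap (D.sig t) s + r ^ 2 := by
    have e1 : D.gap (D.sig t) s = (ee (-s) * (D.sig s - D.sig t)).re :=
      (D.re_ee_neg_mul_sig_sub s (D.sig t)).symm
    rw [e1, ← conj_ee]
    set w := D.sig s - D.sig t
    have e2 : D.sig t - (D.sig s - r * ee s) = r * ee s - w := by simp only [w]; ring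
    rw [e2, ← Complex.normSq_eq_norm_sq, ← Complex.normSq_eq_norm_sq]
    have e3 : Complex.normSq (ee s) = 1 := by
      rw [Complex.normSq_eq_norm_sq, norm_ee]; norm_num
    rw [Complex.normSq_apply] at e3
    simp only [Complex.normSq_apply, Complex.mul_re, Complex.mul_im, Complex.sub_re,
      Complex.sub_im, Complex.ofReal_re, Complex.ofReal_im, Complex.conj_re, Complex.conj_im]
    linear_combination (r ^ 2) * e3
  rw [h9] at h8
  linarith

theorem exists_k_bound : ∃ C : ℝ, 0 ≤ C ∧ ∀ s t : ℝ, D.k s (D.sig t) ≤ C := by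
  obtain ⟨r, hr, h⟩ := D.exists_interior_ball
  obtain ⟨C, hC, hC'⟩ := periodic_upper_bound D.continuous_R D.R_periodic
  have hpi := Real.pi_pos
  refine ⟨C / π * (1 / (2 * r)), by positivity, fun s t => ?_⟩
  rw [D.k_eq]
  have h1 : D.gap (D.sig t) s / ‖D.sig s - D.sig t‖ ^ 2 ≤ 1 / (2 * r) := by
    by_cases h0 : ‖D.sig s - D.sig t‖ ^ 2 = 0
    · rw [h0, div_zero]; positivity
    · have h0' : 0 < ‖D.sig s - D.sig t‖ ^ 2 := lt_of_le_of_ne (sq_nonneg _) (Ne.symm h0)
      rw [div_le_div_iff₀ h0' (by positivity)]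
      have := h s t
      linarith
  have h2 : 0 ≤ D.gap (D.sig t) s / ‖D.sig s - D.sig t‖ ^ 2 :=
    div_nonneg (D.gap_sig_nonneg t s) (sq_nonneg _)
  have h3 : D.R s / π ≤ C / π := by
    have := hC' s
    gcongr
  exact mul_le_mul h3 h1 h2 (by positivity)

theorem continuousAt_k {s : ℝ} {z : ℂ} (h : D.sig s - z ≠ 0) : ContinuousAt (fun s => D.k s z) s := by
  unfold k
  exact continuousAt_const.mul (Complex.continuous_re.continuousAt.comp (D.continuousAt_N h))

theorem continuousAt_N_right {s : ℝ} {z : ℂ} (h : D.sig s - z ≠ 0) :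
    ContinuousAt (fun z => D.N s z) z := by
  unfold N
  apply ContinuousAt.div
  · exact continuousAt_const
  · exact (continuous_const.mul (continuous_const.sub continuous_id)).continuousAt
  · have := pi_ne_zero_C
    exact mul_ne_zero (mul_ne_zero two_ne_zero this) h

theorem continuousAt_k_sig_right {s t : ℝ} (h : D.sig s - D.sig t ≠ 0) :
    ContinuousAt (fun t => D.k s (D.sig t)) t := by
  have h1 := D.continuousAt_N_right h
  have h2 : ContinuousAt (fun t => D.N s (D.sig t)) t :=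
    ContinuousAt.comp (g := fun z => D.N s z) h1 D.continuous_sig.continuousAt
  unfold k
  exact continuousAt_const.mul (Complex.continuous_re.continuousAt.comp h2)

theorem periodic_integrand {E : Type*} [NormedAddCommGroup E] [NormedSpace ℝ E]
    {φ : ℝ → E} (hper : ∀ s, φ (s + 2 * π) = φ s) (t : ℝ) :
    Function.Periodic (fun s => D.k s (D.sig t) • φ s) (2 * π) := by
  intro s
  simp only
  rw [D.k_periodic, hper]

/-- general vector valued version of the double layer average -/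
noncomputable def Dv {E : Type*} [NormedAddCommGroup E] [NormedSpace ℝ E] (φ : ℝ → E) (t : ℝ) : E :=
  ∫ s in (0:ℝ)..(2*π), D.k s (D.sig t) • φ s

section Dv
variable {E : Type*} [NormedAddCommGroup E] [NormedSpace ℝ E]

theorem intervalIntegrable_smul {φ : ℝ → E} (hφ : Continuous φ) (t a b : ℝ) :
    IntervalIntegrable (fun s => D.k s (D.sig t) • φ s) volume a b :=
  (D.intervalIntegrable_k_sig' t a b).smul_continuousOn hφ.continuousOn

theorem Dv_shift {φ : ℝ → E} (hper : ∀ s, φ (s + 2 * π) = φ s) (t a : ℝ) :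
    D.Dv φ t = ∫ s in a..(a + 2*π), D.k s (D.sig t) • φ s := by
  unfold Dv
  have := (D.periodic_integrand hper t).intervalIntegral_add_eq 0 a
  rwa [zero_add] at this

theorem continuous_Dv {φ : ℝ → E} (hφ : Continuous φ) (hper : ∀ s, φ (s + 2 * π) = φ s) :
    Continuous (D.Dv φ) := by
  rw [continuous_iff_continuousAt]
  intro t0
  have h1 : D.Dv φ = fun t => ∫ s in t0..(t0 + 2*π), D.k s (D.sig t) • φ s :=
    funext fun t => D.Dv_shift hper t t0
  rw [h1]
  obtain ⟨C, hC0, hC⟩ := D.exists_k_bound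
  have hle : t0 ≤ t0 + 2 * π := by linarith [Real.two_pi_pos]
  apply intervalIntegral.continuousAt_of_dominated_interval (bound := fun s => C * ‖φ s‖)
  · apply Filter.Eventually.of_forall
    intro t
    have := (D.intervalIntegrable_smul hφ t t0 (t0 + 2*π)).aestronglyMeasurable
    rwa [uIoc_of_le hle]
  · apply Filter.Eventually.of_forall
    intro t
    apply Filter.Eventually.of_forall
    intro s _
    rw [norm_smul, Real.norm_of_nonneg (D.k_nonneg (D.sig_mem_K t) s)]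
    exact mul_le_mul_of_nonneg_right (hC s t) (norm_nonneg _)
  · exact (continuous_const.mul hφ.norm).intervalIntegrable _ _
  · have hae : ∀ᵐ s : ℝ ∂volume, s ≠ t0 + 2 * π := by
      rw [ae_iff]
      simp
    filter_upwards [hae] with s hs hs'
    rw [uIoc_of_le hle] at hs'
    have h2 : s < t0 + 2 * π := lt_of_le_of_ne hs'.2 hs
    exact (D.continuousAt_k_sig_right (D.sig_sub_ne hs'.1 h2)).smul continuousAt_const

theorem Dv_periodic (φ : ℝ → E) (t : ℝ) : D.Dv φ (t + 2 * π) = D.Dv φ t := by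
  unfold Dv
  rw [D.sig_periodic]

end Dv

theorem Dr_eq (w : ℝ → ℝ) : D.Dr w = D.Dv w := by
  funext t
  unfold Dr Dv
  congr 1
  funext s
  rw [smul_eq_mul, mul_comm]

theorem Dc_eq (φ : ℝ → ℂ) : D.Dc φ = D.Dv φ := by
  funext t
  unfold Dc Dv
  congr 1
  funext s
  rw [Complex.real_smul, mul_comm]

theorem continuous_Dr {w : ℝ → ℝ} (hw : Continuous w) (hper : ∀ s, w (s + 2 * π) = w s) :
    Continuous (D.Dr w) := by
  rw [D.Dr_eq]; exact D.continuous_Dv hw hper

theorem continuous_Dc {w : ℝ → ℂ} (hw : Continuous w) (hper : ∀ s, w (s + 2 * π) = w s) :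
    Continuous (D.Dc w) := by
  rw [D.Dc_eq]; exact D.continuous_Dv hw hper

theorem Dr_periodic (w : ℝ → ℝ) (t : ℝ) : D.Dr w (t + 2 * π) = D.Dr w t := by
  rw [D.Dr_eq, D.Dv_periodic]

theorem Dc_periodic (w : ℝ → ℂ) (t : ℝ) : D.Dc w (t + 2 * π) = D.Dc w t := by
  rw [D.Dc_eq, D.Dv_periodic]

theorem intervalIntegrable_mul_k {w : ℝ → ℝ} (hw : Continuous w) (t a b : ℝ) :
    IntervalIntegrable (fun s => w s * D.k s (D.sig t)) volume a b := by
  have := D.intervalIntegrable_smul hw t a b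
  simp only [smul_eq_mul] at this
  simpa [mul_comm] using this

theorem Dr_mono {v w : ℝ → ℝ} (hv : Continuous v) (hw : Continuous w) (h : ∀ s, v s ≤ w s) (t : ℝ) :
    D.Dr v t ≤ D.Dr w t := by
  unfold Dr
  apply intervalIntegral.integral_mono_on Real.two_pi_pos.le
    (D.intervalIntegrable_mul_k hv t _ _) (D.intervalIntegrable_mul_k hw t _ _)
  intro s _
  exact mul_le_mul_of_nonneg_right (h s) (D.k_nonneg (D.sig_mem_K t) s)

theorem Dr_const (c : ℝ) (t : ℝ) : D.Dr (fun _ => c) t = c := by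
  unfold Dr
  rw [intervalIntegral.integral_const_mul, D.integral_k_sig, mul_one]

theorem Dr_nonneg {w : ℝ → ℝ} (h : ∀ s, 0 ≤ w s) (t : ℝ) : 0 ≤ D.Dr w t := by
  unfold Dr
  apply intervalIntegral.integral_nonneg Real.two_pi_pos.le
  intro s _
  exact mul_nonneg (h s) (D.k_nonneg (D.sig_mem_K t) s)

theorem norm_Dc_le {φ : ℝ → ℂ} (hφ : Continuous φ) (hb : ∀ s, ‖φ s‖ ≤ 1) (t : ℝ) :
    ‖D.Dc φ t‖ ≤ 1 := by
  unfold Dc
  calc ‖∫ s in (0:ℝ)..(2*π), φ s * (D.k s (D.sig t) : ℂ)‖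
      ≤ ∫ s in (0:ℝ)..(2*π), ‖φ s * (D.k s (D.sig t) : ℂ)‖ :=
        intervalIntegral.norm_integral_le_integral_norm Real.two_pi_pos.le
    _ ≤ D.Dr (fun _ => 1) t := by
        unfold Dr
        apply intervalIntegral.integral_mono_on Real.two_pi_pos.le
        · have h1 := D.intervalIntegrable_mul_k hφ.norm t 0 (2*π)
          refine h1.congr ?_
          intro s _
          simp only [norm_mul, Complex.norm_real]
          rw [Real.norm_of_nonneg (D.k_nonneg (D.sig_mem_K t) s)]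
        · exact D.intervalIntegrable_mul_k continuous_const t _ _
        · intro s _
          rw [norm_mul, Complex.norm_real, Real.norm_of_nonneg (D.k_nonneg (D.sig_mem_K t) s)]
          exact mul_le_mul_of_nonneg_right (hb s) (D.k_nonneg (D.sig_mem_K t) s)
    _ = 1 := D.Dr_const 1 t

end Dom

namespace BV

variable {D : Dom} {φ : ℝ → ℂ} (hφ : BV D φ)

include hφ

theorem continuous_Dc : Continuous (D.Dc φ) := D.continuous_Dc hφ.cont hφ.per

theorem norm_Dc_le (t : ℝ) : ‖D.Dc φ t‖ ≤ 1 := D.norm_Dc_le hφ.cont hφ.bound t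

theorem continuous_w1 : Continuous (D.w1 φ) := by
  unfold Dom.w1
  exact continuous_const.add (Complex.continuous_re.comp
    (hφ.cont.mul (Complex.continuous_conj.comp hφ.continuous_Dc)))

theorem w1_periodic (t : ℝ) : D.w1 φ (t + 2 * π) = D.w1 φ t := by
  unfold Dom.w1
  rw [hφ.per, D.Dc_periodic]

theorem w1_nonneg (t : ℝ) : 0 ≤ D.w1 φ t := by
  unfold Dom.w1
  have h1 : |(φ t * (starRingEnd ℂ) (D.Dc φ t)).re| ≤ 1 := by
    refine (Complex.abs_re_le_norm _).trans ?_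
    rw [norm_mul, RCLike.norm_conj]
    exact mul_le_one₀ (hφ.bound t) (norm_nonneg _) (hφ.norm_Dc_le t)
  have := (abs_le.1 h1).1
  linarith

theorem continuous_Dr_w1 : Continuous (D.Dr (D.w1 φ)) :=
  D.continuous_Dr hφ.continuous_w1 hφ.w1_periodic

/-- the variance inequality -/
theorem Dr_sq_le (t : ℝ) : D.Dr (fun s => ‖φ s + φ t‖ ^ 2) t ≤ 2 * D.w1 φ t := by
  have hc1 : Continuous (fun s => ‖φ s‖ ^ 2) := hφ.cont.norm.pow 2
  have hc2 : Continuous (fun s => 2 * (φ t * (starRingEnd ℂ) (φ s)).re) :=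
    continuous_const.mul (Complex.continuous_re.comp
      (continuous_const.mul (Complex.continuous_conj.comp hφ.cont)))
  have e1 : ∀ s, ‖φ s + φ t‖ ^ 2 = ‖φ s‖ ^ 2 + ‖φ t‖ ^ 2 + 2 * (φ t * (starRingEnd ℂ) (φ s)).re := by
    intro s
    rw [← Complex.normSq_eq_norm_sq, ← Complex.normSq_eq_norm_sq, ← Complex.normSq_eq_norm_sq,
      Complex.normSq_add]
    simp only [Complex.mul_re, Complex.conj_re, Complex.conj_im]
    ring
  have e2 : D.Dr (fun s => 2 * (φ t * (starRingEnd ℂ) (φ s)).re) t =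
      2 * (φ t * (starRingEnd ℂ) (D.Dc φ t)).re := by
    have h1 : D.Dc φ t = ∫ s in (0:ℝ)..(2*π), φ s * (D.k s (D.sig t) : ℂ) := rfl
    have h2 : (φ t * (starRingEnd ℂ) (D.Dc φ t)).re = ((starRingEnd ℂ) (φ t) * D.Dc φ t).re := by
      simp only [Complex.mul_re, Complex.conj_re, Complex.conj_im]; ring
    rw [h2, h1]
    rw [← intervalIntegral.integral_const_mul]
    have h3 : IntervalIntegrable
        (fun s => (starRingEnd ℂ) (φ t) * (φ s * (D.k s (D.sig t) : ℂ))) volume 0 (2*π) := by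
      apply IntervalIntegrable.const_mul
      have := D.intervalIntegrable_smul hφ.cont t 0 (2*π)
      refine this.congr ?_
      intro s _
      simp only [Complex.real_smul]
      ring
    have h4 := Complex.reCLM.intervalIntegral_comp_comm h3
    simp only [Complex.reCLM_apply] at h4
    rw [← h4, ← intervalIntegral.integral_const_mul]
    unfold Dom.Dr
    congr 1
    funext s
    simp only [Complex.mul_re, Complex.conj_re, Complex.conj_im, Complex.ofReal_re,
      Complex.ofReal_im, Complex.mul_im]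
    ring
  have e3 : D.Dr (fun s => ‖φ s + φ t‖ ^ 2) t = D.Dr (fun s => ‖φ s‖ ^ 2) t +
      D.Dr (fun _ => ‖φ t‖ ^ 2) t + D.Dr (fun s => 2 * (φ t * (starRingEnd ℂ) (φ s)).re) t := by
    unfold Dom.Dr
    rw [← intervalIntegral.integral_add, ← intervalIntegral.integral_add]
    · congr 1
      funext s
      beta_reduce
      rw [e1 s]; ring
    · exact (D.intervalIntegrable_mul_k hc1 t _ _).add
        (D.intervalIntegrable_mul_k continuous_const t _ _)
    · exact D.intervalIntegrable_mul_k hc2 t _ _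
    · exact D.intervalIntegrable_mul_k hc1 t _ _
    · exact D.intervalIntegrable_mul_k continuous_const t _ _
  have e4 : D.Dr (fun s => ‖φ s‖ ^ 2) t ≤ 1 := by
    have := D.Dr_mono hc1 (continuous_const (y := (1:ℝ))) (fun s => by
      have := hφ.bound s
      have h0 := norm_nonneg (φ s)
      nlinarith) t
    rwa [D.Dr_const] at this
  have e5 : ‖φ t‖ ^ 2 ≤ 1 := by
    have := hφ.bound t
    have h0 := norm_nonneg (φ t)
    nlinarith
  rw [e3, D.Dr_const, e2]
  unfold Dom.w1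
  linarith

end BV

end Vale.Agent.P123
end
end

section

section

namespace Vale.Agent.P123

open Complex MeasureTheory Set
open scoped Real

/-- double Steklov average -/
noncomputable def stek (h : ℝ → ℝ) (e s : ℝ) : ℝ :=
  (4 * e ^ 2)⁻¹ * ∫ t in (0:ℝ)..(2 * e), ∫ u in (-t)..t, h (s + u)

/-- first antiderivative -/
noncomputable def prim (h : ℝ → ℝ) (x : ℝ) : ℝ := ∫ u in (0:ℝ)..x, h u

lemma hasDerivAt_prim {h : ℝ → ℝ} (hc : Continuous h) (x : ℝ) : HasDerivAt (prim h) (h x) x :=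
  intervalIntegral.integral_hasDerivAt_right (hc.intervalIntegrable _ _)
    hc.aestronglyMeasurable.stronglyMeasurableAtFilter hc.continuousAt

lemma continuous_prim {h : ℝ → ℝ} (hc : Continuous h) : Continuous (prim h) :=
  continuous_iff_continuousAt.mpr fun x => (hasDerivAt_prim hc x).continuousAt

lemma inner_int_eq {h : ℝ → ℝ} (hc : Continuous h) (s t : ℝ) :
    ∫ u in (-t)..t, h (s + u) = prim h (s + t) - prim h (s - t) := by
  rw [intervalIntegral.integral_comp_add_left (fun x => h x) s]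
  unfold prim
  rw [intervalIntegral.integral_interval_sub_left (hc.intervalIntegrable _ _)
    (hc.intervalIntegrable _ _)]
  congr 1

lemma stek_eq {h : ℝ → ℝ} (hc : Continuous h) (e s : ℝ) :
    stek h e s = (4 * e ^ 2)⁻¹ * (prim (prim h) (s + 2 * e) - 2 * prim (prim h) s
      + prim (prim h) (s - 2 * e)) := by
  unfold stek
  congr 1
  simp only [inner_int_eq hc]
  have hp : Continuous (prim h) := continuous_prim hc
  have h1 : Continuous fun t : ℝ => prim h (s + t) := by fun_prop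
  have h2 : Continuous fun t : ℝ => prim h (s - t) := by fun_prop
  rw [intervalIntegral.integral_sub (h1.intervalIntegrable _ _) (h2.intervalIntegrable _ _),
    intervalIntegral.integral_comp_add_left (fun x => prim h x) s,
    intervalIntegral.integral_comp_sub_left (fun x => prim h x) s]
  have e1 : ∫ x in s + 0..s + 2 * e, prim h x = prim (prim h) (s + 2 * e) - prim (prim h) s := by
    rw [add_zero]
    unfold prim
    rw [intervalIntegral.integral_interval_sub_left]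
    · exact hp.intervalIntegrable _ _
    · exact hp.intervalIntegrable _ _
  have e2 : ∫ x in s - 2 * e..s - 0, prim h x = prim (prim h) s - prim (prim h) (s - 2 * e) := by
    rw [sub_zero]
    unfold prim
    rw [intervalIntegral.integral_interval_sub_left]
    · exact hp.intervalIntegrable _ _
    · exact hp.intervalIntegrable _ _
  rw [e1, e2]; ring

/-- first derivative of the Steklov average -/
noncomputable def stek1 (h : ℝ → ℝ) (e s : ℝ) : ℝ :=
  (4 * e ^ 2)⁻¹ * (prim h (s + 2 * e) - 2 * prim h s + prim h (s - 2 * e))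

/-- second derivative of the Steklov average -/
noncomputable def stek2 (h : ℝ → ℝ) (e s : ℝ) : ℝ :=
  (4 * e ^ 2)⁻¹ * (h (s + 2 * e) - 2 * h s + h (s - 2 * e))

lemma hasDerivAt_stek {h : ℝ → ℝ} (hc : Continuous h) (e s : ℝ) :
    HasDerivAt (stek h e) (stek1 h e s) s := by
  have hfun : stek h e = fun s => (4 * e ^ 2)⁻¹ * (prim (prim h) (s + 2 * e) - 2 * prim (prim h) s
      + prim (prim h) (s - 2 * e)) := funext fun s => stek_eq hc e s
  rw [hfun]
  unfold stek1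
  have hp : Continuous (prim h) := continuous_prim hc
  have d0 := hasDerivAt_prim hp s
  have d1 : HasDerivAt (fun s => prim (prim h) (s + 2 * e)) (prim h (s + 2 * e)) s :=
    (hasDerivAt_prim hp (s + 2 * e)).comp_add_const s (2 * e)
  have d2 : HasDerivAt (fun s => prim (prim h) (s - 2 * e)) (prim h (s - 2 * e)) s :=
    (hasDerivAt_prim hp (s - 2 * e)).comp_sub_const s (2 * e)
  exact ((d1.sub (d0.const_mul 2)).add d2).const_mul _

lemma hasDerivAt_stek1 {h : ℝ → ℝ} (hc : Continuous h) (e s : ℝ) :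
    HasDerivAt (stek1 h e) (stek2 h e s) s := by
  unfold stek2
  have d0 := hasDerivAt_prim hc s
  have d1 : HasDerivAt (fun s => prim h (s + 2 * e)) (h (s + 2 * e)) s :=
    (hasDerivAt_prim hc (s + 2 * e)).comp_add_const s (2 * e)
  have d2 : HasDerivAt (fun s => prim h (s - 2 * e)) (h (s - 2 * e)) s :=
    (hasDerivAt_prim hc (s - 2 * e)).comp_sub_const s (2 * e)
  exact ((d1.sub (d0.const_mul 2)).add d2).const_mul _

lemma stek_mono {g h : ℝ → ℝ} (hg : Continuous g) (hh : Continuous h) {e s : ℝ} (he : 0 ≤ e)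
    (hle : ∀ u, |u| ≤ 2 * e → g (s + u) ≤ h (s + u)) : stek g e s ≤ stek h e s := by
  unfold stek
  refine mul_le_mul_of_nonneg_left ?_ (by positivity)
  have cg : Continuous fun t : ℝ => ∫ u in (-t)..t, g (s + u) := by
    simp only [inner_int_eq hg]
    have := continuous_prim hg
    fun_prop
  have ch : Continuous fun t : ℝ => ∫ u in (-t)..t, h (s + u) := by
    simp only [inner_int_eq hh]
    have := continuous_prim hh
    fun_prop
  refine intervalIntegral.integral_mono_on (by linarith) (cg.intervalIntegrable _ _)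
    (ch.intervalIntegrable _ _) fun t ht => ?_
  refine intervalIntegral.integral_mono_on (by linarith [ht.1]) ?_ ?_ fun u hu => ?_
  · exact (by fun_prop : Continuous fun u => g (s + u)).intervalIntegrable _ _
  · exact (by fun_prop : Continuous fun u => h (s + u)).intervalIntegrable _ _
  · exact hle u (abs_le.mpr ⟨by linarith [hu.1, ht.2], by linarith [hu.2, ht.2]⟩)

lemma stek_const (c : ℝ) {e : ℝ} (he : 0 < e) (s : ℝ) : stek (fun _ => c) e s = c := by
  unfold stek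
  have : ∫ t in (0:ℝ)..(2 * e), ∫ u in (-t)..t, c = 4 * e ^ 2 * c := by
    have h1 : (fun t : ℝ => ∫ u in (-t)..t, c) = fun t => (2 * c) * t := by
      funext t
      rw [intervalIntegral.integral_const, smul_eq_mul]; ring
    rw [h1, intervalIntegral.integral_const_mul, integral_id]; ring
  rw [this]
  field_simp

/-- the sinusoid `s ↦ re (e^{-is} w)` -/
noncomputable def sinus (w : ℂ) (s : ℝ) : ℝ := (ee (-s) * w).re


lemma continuous_sinus (w : ℂ) : Continuous (sinus w) := by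
  unfold sinus
  have := continuous_ee
  fun_prop

lemma stek_sinus (w : ℂ) (e s : ℝ) :
    stek (sinus w) e s = (4 * e ^ 2)⁻¹ * ((2 - 2 * Real.cos (2 * e)) * sinus w s) := by
  unfold stek
  congr 1
  have hc := continuous_sinus w
  have h1 : ∀ t : ℝ, ∫ u in (-t)..t, sinus w (s + u) = 2 * Real.sin t * sinus w s := by
    intro t
    have c1 : Continuous fun u => sinus w (s + u) := by fun_prop
    have c2 : Continuous fun u => sinus w (s - u) := by fun_prop
    rw [← intervalIntegral.integral_add_adjacent_intervals (b := 0) (c1.intervalIntegrable _ _)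
      (c1.intervalIntegrable _ _)]
    have h2 : ∫ u in (-t)..0, sinus w (s + u) = ∫ u in (0:ℝ)..t, sinus w (s - u) := by
      have := intervalIntegral.integral_comp_neg (a := 0) (b := t) (fun u => sinus w (s + u))
      simp only [neg_zero] at this
      rw [← this]
      simp only [← sub_eq_add_neg]
    rw [h2, ← intervalIntegral.integral_add (c2.intervalIntegrable _ _)
      (c1.intervalIntegrable _ _)]
    have h3 : (fun u => sinus w (s - u) + sinus w (s + u)) =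
        fun u => (2 * sinus w s) * Real.cos u := by
      funext u
      unfold sinus
      rw [add_comm, ee_add_ee]; ring
    rw [h3, intervalIntegral.integral_const_mul, integral_cos]
    simp; ring
  simp only [h1]
  have h4 : (fun t : ℝ => 2 * Real.sin t * sinus w s) = fun t => (2 * sinus w s) * Real.sin t := by
    funext t; ring
  rw [h4, intervalIntegral.integral_const_mul, integral_sin]
  simp; ring

end Vale.Agent.P123
end
end

section

section

namespace Vale.Agent.P123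

open Complex MeasureTheory Set
open scoped Real ComplexConjugate

lemma stek_near {W : Set ℂ} {M : ℝ} (hne : W.Nonempty) (hW : ∀ w ∈ W, ‖w‖ ≤ M) {e : ℝ}
    (he : 0 < e) (s : ℝ) :
    suppFn W s - 2 * e * M ≤ stek (suppFn W) e s ∧
      stek (suppFn W) e s ≤ suppFn W s + 2 * e * M := by
  have hc := continuous_suppFn hne hW
  have hM : 0 ≤ M := by
    obtain ⟨w, hw⟩ := hne
    exact (norm_nonneg _).trans (hW w hw)
  have key : ∀ u, |u| ≤ 2 * e → |suppFn W (s + u) - suppFn W s| ≤ 2 * e * M := by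
    intro u hu
    calc |suppFn W (s + u) - suppFn W s| ≤ M * |s + u - s| := abs_suppFn_sub_le hne hW _ _
      _ = M * |u| := by congr 2; ring
      _ ≤ M * (2 * e) := by gcongr
      _ = 2 * e * M := by ring
  constructor
  · rw [← stek_const (suppFn W s - 2 * e * M) he s]
    refine stek_mono continuous_const hc he.le fun u hu => ?_
    have := abs_le.mp (key u hu)
    linarith [this.1]
  · conv_rhs => rw [← stek_const (suppFn W s + 2 * e * M) he s]
    refine stek_mono hc continuous_const he.le fun u hu => ?_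
    have := abs_le.mp (key u hu)
    linarith [this.2]

lemma stek_add_stek2_nonneg {W : Set ℂ} {M : ℝ} (hne : W.Nonempty) (hW : ∀ w ∈ W, ‖w‖ ≤ M)
    {e : ℝ} (he : 0 < e) (s : ℝ) : 0 ≤ stek (suppFn W) e s + stek2 (suppFn W) e s := by
  have hc := continuous_suppFn hne hW
  have h4 : (0:ℝ) < 4 * e ^ 2 := by positivity
  have key : suppFn W s ≤ suppFn W s +
      (2 * e ^ 2) * (stek (suppFn W) e s + stek2 (suppFn W) e s) := by
    refine suppFn_le hne fun w hw => ?_
    have h1 : stek (sinus w) e s ≤ stek (suppFn W) e s :=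
      stek_mono (continuous_sinus w) hc he.le fun u _ => le_suppFn hW hw _
    rw [stek_sinus] at h1
    have h2 : sinus w (s + 2 * e) ≤ suppFn W (s + 2 * e) := le_suppFn hW hw _
    have h3 : sinus w (s - 2 * e) ≤ suppFn W (s - 2 * e) := le_suppFn hW hw _
    have h5 : sinus w (s + 2 * e) + sinus w (s - 2 * e) = 2 * Real.cos (2 * e) * sinus w s :=
      ee_add_ee s (2 * e) w
    have h6 : (2 - 2 * Real.cos (2 * e)) * sinus w s ≤ 4 * e ^ 2 * stek (suppFn W) e s := by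
      have := mul_le_mul_of_nonneg_left h1 h4.le
      rwa [← mul_assoc, mul_inv_cancel₀ h4.ne', one_mul] at this
    have h7 : 4 * e ^ 2 * stek2 (suppFn W) e s =
        suppFn W (s + 2 * e) - 2 * suppFn W s + suppFn W (s - 2 * e) := by
      unfold stek2
      rw [← mul_assoc, mul_inv_cancel₀ h4.ne', one_mul]
    have h8 : (ee (-s) * w).re = sinus w s := rfl
    rw [h8]
    nlinarith [h2, h3, h5, h6, h7]
  have h9 : 0 ≤ (2 * e ^ 2) * (stek (suppFn W) e s + stek2 (suppFn W) e s) := by linarith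
  exact nonneg_of_mul_nonneg_right h9 (by positivity)

lemma stek_periodic {h : ℝ → ℝ} (hp : ∀ s, h (s + 2 * π) = h s) (e s : ℝ) :
    stek h e (s + 2 * π) = stek h e s := by
  unfold stek
  congr 1
  refine intervalIntegral.integral_congr fun t _ => ?_
  refine intervalIntegral.integral_congr fun u _ => ?_
  show h (s + 2 * π + u) = h (s + u)
  rw [show s + 2 * π + u = (s + u) + 2 * π by ring, hp]

/-- the smooth outer domain of a bounded set `W` containing the origin -/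
noncomputable def outerDom (W : Set ℂ) (M e eta : ℝ) (h0 : (0:ℂ) ∈ W) (hW : ∀ w ∈ W, ‖w‖ ≤ M)
    (he : 0 < e) (heta : 0 < eta) : Dom where
  h s := stek (suppFn W) e s + (2 * e * M + eta)
  h1 s := stek1 (suppFn W) e s
  R s := (stek (suppFn W) e s + (2 * e * M + eta)) + stek2 (suppFn W) e s
  hasDerivAt_h s := (hasDerivAt_stek (continuous_suppFn ⟨0, h0⟩ hW) e s).add_const _
  hasDerivAt_h1 s := by
    have := hasDerivAt_stek1 (continuous_suppFn ⟨0, h0⟩ hW) e s
    convert this using 1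
    ring
  continuous_R := by
    have hc := continuous_suppFn ⟨0, h0⟩ hW
    have c1 : Continuous (stek (suppFn W) e) :=
      continuous_iff_continuousAt.mpr fun s => (hasDerivAt_stek hc e s).continuousAt
    have c2 : Continuous (stek2 (suppFn W) e) := by unfold stek2; fun_prop
    fun_prop
  R_pos s := by
    have hM : 0 ≤ M := (norm_nonneg _).trans (hW 0 h0)
    have := stek_add_stek2_nonneg ⟨0, h0⟩ hW he s
    have h2 : 0 ≤ 2 * e * M := by positivity
    linarith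
  h_pos s := by
    have hM : 0 ≤ M := (norm_nonneg _).trans (hW 0 h0)
    have h2 : 0 ≤ 2 * e * M := by positivity
    have h1 : 0 ≤ stek (suppFn W) e s := by
      rw [← stek_const 0 he s]
      refine stek_mono continuous_const (continuous_suppFn ⟨0, h0⟩ hW) he.le fun u _ => ?_
      have := le_suppFn hW h0 (s + u)
      simpa using this
    linarith
  periodic s := by
    rw [stek_periodic (suppFn_periodic W)]

lemma outerDom_ge {W : Set ℂ} {M e eta : ℝ} (h0 : (0:ℂ) ∈ W) (hW : ∀ w ∈ W, ‖w‖ ≤ M)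
    (he : 0 < e) (heta : 0 < eta) (s : ℝ) :
    suppFn W s + eta ≤ (outerDom W M e eta h0 hW he heta).h s := by
  have := (stek_near ⟨0, h0⟩ hW he s).1
  show suppFn W s + eta ≤ stek (suppFn W) e s + (2 * e * M + eta)
  linarith

lemma outerDom_le {W : Set ℂ} {M e eta : ℝ} (h0 : (0:ℂ) ∈ W) (hW : ∀ w ∈ W, ‖w‖ ≤ M)
    (he : 0 < e) (heta : 0 < eta) (s : ℝ) :
    (outerDom W M e eta h0 hW he heta).h s ≤ suppFn W s + (4 * e * M + eta) := by
  have := (stek_near ⟨0, h0⟩ hW he s).2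
  show stek (suppFn W) e s + (2 * e * M + eta) ≤ suppFn W s + (4 * e * M + eta)
  linarith

/-- points satisfying the relaxed support inequalities are close to the closure -/
lemma near_of_support {W : Set ℂ} (hne : W.Nonempty) (hconv : Convex ℝ W) {M : ℝ}
    (hW : ∀ w ∈ W, ‖w‖ ≤ M) {δ : ℝ} (hδ : 0 ≤ δ) {z : ℂ}
    (hz : ∀ s, (ee (-s) * z).re ≤ suppFn W s + δ) : ∃ v ∈ closure W, ‖z - v‖ ≤ δ := by
  obtain ⟨v, hv, hvz⟩ := exists_norm_eq_iInf_of_complete_convex (hne.closure)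
    (isClosed_closure.isComplete) hconv.closure z
  refine ⟨v, hv, ?_⟩
  have hin := (norm_eq_iInf_iff_real_inner_le_zero hconv.closure hv).mp hvz
  by_cases hc : z - v = 0
  · rw [hc]; simpa using hδ
  set θ : ℝ := Complex.arg (z - v) with hθ
  have hpol : z - v = (‖z - v‖ : ℂ) * ee θ := by
    unfold ee; rw [hθ]; exact (Complex.norm_mul_exp_arg_mul_I (z - v)).symm
  have hcpos : 0 < ‖z - v‖ := norm_pos_iff.mpr hc
  have hee : conj (ee θ) = ee (-θ) := by
    unfold ee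
    rw [← Complex.exp_conj]
    congr 1
    simp
  have h1 : suppFn W θ ≤ (ee (-θ) * v).re := by
    refine suppFn_le hne fun w hw => ?_
    have h2 := hin w (subset_closure hw)
    have h3 : inner ℝ (z - v) (w - v) = ‖z - v‖ * (ee (-θ) * (w - v)).re := by
      rw [Complex.inner]
      conv_lhs => rw [hpol]
      rw [map_mul, Complex.conj_ofReal, hee, mul_left_comm, Complex.re_ofReal_mul, mul_comm (w - v)]
    rw [h3] at h2
    have h4 : (ee (-θ) * (w - v)).re ≤ 0 := by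
      by_contra hcon
      exact absurd h2 (not_le.mpr (mul_pos hcpos (not_le.mp hcon)))
    rw [mul_sub, Complex.sub_re] at h4
    linarith
  have h5 := hz θ
  have h6 : (ee (-θ) * z).re = (ee (-θ) * v).re + ‖z - v‖ := by
    have h7 : ee (-θ) * (z - v) = (‖z - v‖ : ℂ) := by
      conv_lhs => rw [hpol]
      rw [mul_left_comm]
      have h8 : ee (-θ) * ee θ = 1 := by
        unfold ee
        rw [← Complex.exp_add]
        simp
      rw [h8, mul_one]
    have h9 : ee (-θ) * z = ee (-θ) * v + (‖z - v‖ : ℂ) := by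
      rw [← h7]; ring
    rw [h9, Complex.add_re, Complex.ofReal_re]
  linarith

lemma poly_le_sSup_closure {W : Set ℂ} {M : ℝ} (hW : ∀ w ∈ W, ‖w‖ ≤ M) (P : Polynomial ℂ)
    {v : ℂ} (hv : v ∈ closure W) :
    ‖P.eval v‖ ≤ sSup ((fun z => ‖P.eval z‖) '' W) := by
  have hbdd : BddAbove ((fun z => ‖P.eval z‖) '' W) := by
    have hcomp : IsCompact (Metric.closedBall (0:ℂ) M) := isCompact_closedBall _ _
    have hb := (hcomp.image (f := fun z => ‖P.eval z‖) (by fun_prop)).bddAbove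
    refine hb.mono (image_mono fun w hw => ?_)
    simpa using hW w hw
  have hcl : closure W ⊆ {z : ℂ | ‖P.eval z‖ ≤ sSup ((fun z => ‖P.eval z‖) '' W)} := by
    refine closure_minimal (fun w hw => le_csSup hbdd ⟨w, hw, rfl⟩) ?_
    exact isClosed_le (by fun_prop) continuous_const
  exact hcl hv

lemma exists_delta (P : Polynomial ℂ) (M : ℝ) {ε : ℝ} (hε : 0 < ε) :
    ∃ δ > 0, δ ≤ 1 ∧ ∀ z v : ℂ, ‖v‖ ≤ M → ‖z - v‖ ≤ δ → ‖P.eval z‖ ≤ ‖P.eval v‖ + ε := by
  have hcomp : IsCompact (Metric.closedBall (0:ℂ) (M + 1)) := isCompact_closedBall _ _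
  have huc : UniformContinuousOn (fun z => P.eval z) (Metric.closedBall (0:ℂ) (M + 1)) :=
    hcomp.uniformContinuousOn_of_continuous (by fun_prop)
  rw [Metric.uniformContinuousOn_iff] at huc
  obtain ⟨δ, hδ, hd⟩ := huc ε hε
  refine ⟨min (δ / 2) 1, by positivity, min_le_right _ _, fun z v hv hzv => ?_⟩
  have h1 : ‖z - v‖ ≤ 1 := hzv.trans (min_le_right _ _)
  have h2 : ‖z - v‖ < δ := by
    have := hzv.trans (min_le_left _ _)
    linarith
  have hz : z ∈ Metric.closedBall (0:ℂ) (M + 1) := by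
    rw [mem_closedBall_zero_iff]
    calc ‖z‖ = ‖v + (z - v)‖ := by congr 1; ring
      _ ≤ ‖v‖ + ‖z - v‖ := norm_add_le _ _
      _ ≤ M + 1 := add_le_add hv h1
  have hv' : v ∈ Metric.closedBall (0:ℂ) (M + 1) := by
    rw [mem_closedBall_zero_iff]; linarith
  have h3 := hd z hz v hv' (by rwa [dist_eq_norm])
  rw [dist_eq_norm] at h3
  calc ‖P.eval z‖ = ‖P.eval v + (P.eval z - P.eval v)‖ := by congr 1; ring
    _ ≤ ‖P.eval v‖ + ‖P.eval z - P.eval v‖ := norm_add_le _ _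
    _ ≤ ‖P.eval v‖ + ε := by linarith

variable {H : Type*} [NormedAddCommGroup H] [InnerProductSpace ℂ H]

/-- outer approximation when `0` is in the numerical range -/
theorem exists_dom_of_zero_mem (A : H →L[ℂ] H) (h0 : (0:ℂ) ∈ numRange A) (P : Polynomial ℂ)
    {ε : ℝ} (hε : 0 < ε) :
    ∃ (D : Dom) (eta : ℝ), 0 < eta ∧
      (∀ (s : ℝ) (x : H), (ee (-s) * inner ℂ x (A x)).re ≤ (D.h s - eta) * ‖x‖ ^ 2) ∧
      (∀ z ∈ D.K, ‖P.eval z‖ ≤ sSup ((fun z => ‖P.eval z‖) '' numRange A) + ε) := by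
  have hW : ∀ w ∈ numRange A, ‖w‖ ≤ ‖A‖ := fun w hw => norm_le_of_mem_numRange A hw
  obtain ⟨δ, hδ, hδ1, hd⟩ := exists_delta P ‖A‖ hε
  set e : ℝ := δ / (8 * (‖A‖ + 1)) with he
  have hepos : 0 < e := by positivity
  set eta : ℝ := δ / 2 with heta
  have hetapos : 0 < eta := by positivity
  refine ⟨outerDom (numRange A) ‖A‖ e eta h0 hW hepos hetapos, eta, hetapos, ?_, ?_⟩
  · intro s x
    by_cases hx : x = 0
    · subst hx; simp
    have h1 := le_suppFn hW (inner_mem_of_ne_zero A hx) s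
    have h2 := outerDom_ge h0 hW hepos hetapos s
    have hn : 0 < ‖x‖ ^ 2 := by positivity
    have h3 : (ee (-s) * inner ℂ x (A x)).re =
        (ee (-s) * (inner ℂ x (A x) / ((‖x‖ : ℂ) ^ 2))).re * ‖x‖ ^ 2 := by
      have hn' : ((‖x‖ : ℂ) ^ 2) ≠ 0 := by
        exact_mod_cast hn.ne'
      have h4 : ee (-s) * inner ℂ x (A x) =
          ((‖x‖ ^ 2 : ℝ) : ℂ) * (ee (-s) * (inner ℂ x (A x) / ((‖x‖ : ℂ) ^ 2))) := by
        push_cast
        rw [mul_left_comm, mul_div_cancel₀ _ hn']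
      rw [h4, Complex.re_ofReal_mul]
      ring
    rw [h3]
    gcongr
    linarith
  · intro z hz
    have hz' : ∀ s, (ee (-s) * z).re ≤ suppFn (numRange A) s + δ := by
      intro s
      have h1 := hz s
      have h2 := outerDom_le h0 hW hepos hetapos s
      have h3 : 4 * e * ‖A‖ + eta ≤ δ := by
        have h4 : 4 * e * ‖A‖ ≤ δ / 2 := by
          rw [he]
          have : 4 * (δ / (8 * (‖A‖ + 1))) * ‖A‖ = (δ / 2) * (‖A‖ / (‖A‖ + 1)) := by
            field_simp; ring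
          rw [this]
          have h5 : ‖A‖ / (‖A‖ + 1) ≤ 1 := by
            rw [div_le_one (by positivity)]; linarith
          have h6 : 0 ≤ δ / 2 := by positivity
          nlinarith
        linarith
      linarith
    obtain ⟨v, hv, hzv⟩ := near_of_support ⟨0, h0⟩ (convex_numRange A) hW hδ.le hz'
    have hvM : ‖v‖ ≤ ‖A‖ := by
      have hcl : closure (numRange A) ⊆ Metric.closedBall (0:ℂ) ‖A‖ := by
        refine closure_minimal (fun w hw => ?_) Metric.isClosed_closedBall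
        simpa using hW w hw
      simpa using hcl hv
    have h1 := hd z v hvM hzv
    have h2 := poly_le_sSup_closure hW P hv
    linarith

/-- Reduction of the main estimate to smooth strictly convex domains. -/
theorem reduction [CompleteSpace H] [Nontrivial H] {C : ℝ} (hC : 0 ≤ C)
    (main : ∀ (D : Dom) (A : H →L[ℂ] H) (eta : ℝ), 0 < eta →
      (∀ (s : ℝ) (x : H), (ee (-s) * inner ℂ x (A x)).re ≤ (D.h s - eta) * ‖x‖ ^ 2) →
      ∀ (P : Polynomial ℂ) (m : ℝ), (∀ z ∈ D.K, ‖P.eval z‖ ≤ m) →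
        ‖Polynomial.aeval A P‖ ≤ C * m)
    (A : H →L[ℂ] H) (P : Polynomial ℂ) :
    ‖Polynomial.aeval A P‖ ≤ C * sSup ((fun z => ‖P.eval z‖) '' numRange A) := by
  obtain ⟨c, x, hx, hcx⟩ := numRange_nonempty A
  set B : H →L[ℂ] H := A - algebraMap ℂ (H →L[ℂ] H) c with hB
  set Q : Polynomial ℂ := P.comp (Polynomial.X + Polynomial.C c) with hQ
  have hBv : ∀ v : H, ‖v‖ = 1 → inner ℂ v (B v) = inner ℂ v (A v) - c := by
    intro v hv
    rw [hB]
    simp only [sub_apply, ContinuousLinearMap.algebraMap_apply, inner_sub_right, inner_smul_right]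
    rw [inner_self_eq_norm_sq_to_K, hv]; simp
  have hBW : (fun z => ‖Q.eval z‖) '' numRange B = (fun z => ‖P.eval z‖) '' numRange A := by
    ext r
    constructor
    · rintro ⟨_, ⟨v, hv, rfl⟩, rfl⟩
      refine ⟨inner ℂ v (A v), ⟨v, hv, rfl⟩, ?_⟩
      simp [hQ, hBv v hv]
    · rintro ⟨_, ⟨v, hv, rfl⟩, rfl⟩
      refine ⟨inner ℂ v (B v), ⟨v, hv, rfl⟩, ?_⟩
      simp [hQ, hBv v hv]
  have hBQ : Polynomial.aeval B Q = Polynomial.aeval A P := by
    rw [hQ, Polynomial.aeval_comp]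
    congr 1
    simp [hB]
  have h0 : (0:ℂ) ∈ numRange B := ⟨x, hx, by rw [hBv x hx, hcx, sub_self]⟩
  refine le_of_forall_pos_le_add fun ε hε => ?_
  have hε' : 0 < ε / (C + 1) := by positivity
  obtain ⟨D, eta, heta, hAD, hPD⟩ := exists_dom_of_zero_mem B h0 Q hε'
  have h1 := main D B eta heta hAD Q _ hPD
  rw [hBQ, hBW] at h1
  calc ‖Polynomial.aeval A P‖
      ≤ C * (sSup ((fun z => ‖P.eval z‖) '' numRange A) + ε / (C + 1)) := h1
    _ = C * sSup ((fun z => ‖P.eval z‖) '' numRange A) + ε * (C / (C + 1)) := by ring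
    _ ≤ C * sSup ((fun z => ‖P.eval z‖) '' numRange A) + ε * 1 := by
      gcongr
      rw [div_le_one (by positivity)]; linarith
    _ = _ := by ring

end Vale.Agent.P123
end
end

section

section

namespace Vale.Agent.P123
open Complex MeasureTheory Set Filter Topology Polynomial
open scoped Real ComplexConjugate

namespace Dom

/-- `w0` is the equilibrium density of the boundary curve: the positive density invariant
under the transposed double layer operator -/
structure Equil (D : Dom) (w0 : ℝ → ℝ) : Prop where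
  cont : Continuous w0
  per : ∀ s, w0 (s + 2 * π) = w0 s
  pos : ∀ s, 0 < w0 s
  mass : ∫ s in (0:ℝ)..(2*π), w0 s = 1
  inv : ∀ φ : ℝ → ℂ, Continuous φ → (∀ s, φ (s + 2 * π) = φ s) →
    ∫ t in (0:ℝ)..(2*π), D.Dc φ t * (w0 t : ℂ) = ∫ t in (0:ℝ)..(2*π), φ t * (w0 t : ℂ)
  lim : ∀ φ : ℝ → ℂ, Continuous φ → (∀ s, φ (s + 2 * π) = φ s) → ∀ ε : ℝ, 0 < ε →
    ∃ N : ℕ, ∀ n : ℕ, N ≤ n → ∀ t : ℝ,
      ‖(D.Dc^[n] φ) t - ∫ s in (0:ℝ)..(2*π), φ s * (w0 s : ℂ)‖ ≤ ε

/-- interior Cauchy transform -/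
noncomputable def Cin (D : Dom) (φ : ℝ → ℂ) (z : ℂ) : ℂ :=
  ∫ s in (0:ℝ)..(2*π), φ s * D.N s z

/-- exterior Cauchy transform of the equilibrium density -/
noncomputable def Eext (D : Dom) (w0 : ℝ → ℝ) (z : ℂ) : ℂ :=
  ∫ t in (0:ℝ)..(2*π), (w0 t : ℂ) / (z - D.sig t)

end Dom
end Vale.Agent.P123
end
end

section

section

namespace Vale.Agent.P123
open Complex MeasureTheory Set Filter Topology Polynomial
open scoped Real ComplexConjugate

namespace Dom
variable {D : Dom}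

/-- a periodic function is a function of the boundary point -/
theorem eq_of_sig_eq {φ : ℝ → ℂ} (hper : ∀ s, φ (s + 2 * π) = φ s) {s t : ℝ}
    (h : D.sig s = D.sig t) : φ s = φ t := by
  have hp : Function.Periodic (fun s => (D.sig s, φ s)) (2 * π) := by
    intro x
    simp only [D.sig_periodic, hper]
  obtain ⟨y, hy, hy'⟩ := hp.exists_mem_Ico Real.two_pi_pos s t
  rw [Prod.mk.injEq] at hy'
  rcases eq_or_lt_of_le hy.1 with h1 | h1
  · rw [hy'.2, h1]
  · exfalso
    apply D.sig_sub_ne h1 hy.2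
    rw [← hy'.1, h, sub_self]

/-- uniform continuity with respect to the boundary point -/
theorem unif_sig {φ : ℝ → ℂ} (hφ : Continuous φ) (hper : ∀ s, φ (s + 2 * π) = φ s)
    {ε : ℝ} (hε : 0 < ε) :
    ∃ δ : ℝ, 0 < δ ∧ ∀ s t : ℝ, ‖D.sig s - D.sig t‖ < δ → ‖φ s - φ t‖ < ε := by
  set Q : Set (ℝ × ℝ) := (Icc 0 (2 * π) ×ˢ Icc 0 (2 * π)) ∩ {p | ε ≤ ‖φ p.1 - φ p.2‖} with hQ
  have hQc : IsCompact Q := by
    apply (isCompact_Icc.prod isCompact_Icc).inter_right
    exact isClosed_le continuous_const (by fun_prop)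
  have hp : Function.Periodic (fun s => (D.sig s, φ s)) (2 * π) := by
    intro x
    simp only [D.sig_periodic, hper]
  rcases Q.eq_empty_or_nonempty with hQe | hQn
  · refine ⟨1, one_pos, fun s t _ => ?_⟩
    by_contra hcon
    rw [not_lt] at hcon
    obtain ⟨y, hy, hy'⟩ := hp.exists_mem_Ico₀ Real.two_pi_pos s
    obtain ⟨x, hx, hx'⟩ := hp.exists_mem_Ico₀ Real.two_pi_pos t
    rw [Prod.mk.injEq] at hy' hx'
    have : (y, x) ∈ Q := by
      refine ⟨⟨⟨hy.1, hy.2.le⟩, ⟨hx.1, hx.2.le⟩⟩, ?_⟩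
      change ε ≤ ‖φ y - φ x‖
      rw [← hy'.2, ← hx'.2]
      exact hcon
    rw [hQe] at this
    exact this
  · have hc : Continuous (fun p : ℝ × ℝ => ‖D.sig p.1 - D.sig p.2‖) := by
      have := D.continuous_sig
      fun_prop
    obtain ⟨p0, hp0, hmin⟩ := hQc.exists_isMinOn hQn hc.continuousOn
    refine ⟨‖D.sig p0.1 - D.sig p0.2‖, ?_, fun s t hst => ?_⟩
    · rw [norm_pos_iff, sub_ne_zero]
      intro h
      have h1 := eq_of_sig_eq hper h
      have h2 : ε ≤ ‖φ p0.1 - φ p0.2‖ := hp0.2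
      rw [h1, sub_self, norm_zero] at h2
      linarith only [hε, h2]
    · by_contra hcon
      rw [not_lt] at hcon
      obtain ⟨y, hy, hy'⟩ := hp.exists_mem_Ico₀ Real.two_pi_pos s
      obtain ⟨x, hx, hx'⟩ := hp.exists_mem_Ico₀ Real.two_pi_pos t
      rw [Prod.mk.injEq] at hy' hx'
      have h3 : (y, x) ∈ Q := by
        refine ⟨⟨⟨hy.1, hy.2.le⟩, ⟨hx.1, hx.2.le⟩⟩, ?_⟩
        change ε ≤ ‖φ y - φ x‖
        rw [← hy'.2, ← hx'.2]
        exact hcon
      have h4 : ‖D.sig p0.1 - D.sig p0.2‖ ≤ ‖D.sig y - D.sig x‖ := isMinOn_iff.1 hmin (y, x) h3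
      rw [← hy'.1, ← hx'.1] at h4
      linarith only [hst, h4]

theorem jump_pointwise' {φ : ℝ → ℂ} {F : ℝ} (hF : ∀ s, ‖φ s‖ ≤ F) {z' : ℂ} (hz' : z' ∈ D.K)
    {W M δ ε r : ℝ} {s t : ℝ}
    (hW : ‖D.w s‖ ≤ W) (hδ : 0 < δ) (hε : 0 < ε) (hr : (1 - r) * M ≤ δ / 2)
    (hdist : ‖z' - D.sig t‖ ≤ (1 - r) * M)
    (hfδ : ∀ a b : ℝ, ‖D.sig a - D.sig b‖ < δ → ‖φ a - φ b‖ < ε) :
    ‖(φ s - φ t) * ((D.k s z' : ℂ) - (D.k s (D.sig t) : ℂ))‖
      ≤ ε * (D.k s z' + D.k s (D.sig t))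
          + 2 * F * (2 * (2 * W * ((1 - r) * M) / δ ^ 2)) := by
  rw [norm_mul]
  have hk0 : 0 ≤ D.k s z' := D.k_nonneg hz' s
  have hk0' : 0 ≤ D.k s (D.sig t) := D.k_nonneg (D.sig_mem_K t) s
  have hee : 0 ≤ (1 - r) * M := (norm_nonneg _).trans hdist
  have hW0 : 0 ≤ W := (norm_nonneg _).trans hW
  have hF0 : 0 ≤ F := (norm_nonneg _).trans (hF s)
  by_cases hcase : ‖D.sig s - D.sig t‖ < δ
  · have h5 : ‖φ s - φ t‖ ≤ ε := (hfδ s t hcase).le
    have h6 : ‖(D.k s z' : ℂ) - (D.k s (D.sig t) : ℂ)‖ ≤ D.k s z' + D.k s (D.sig t) := by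
      refine (norm_sub_le _ _).trans ?_
      rw [Complex.norm_real, Complex.norm_real, Real.norm_of_nonneg hk0,
        Real.norm_of_nonneg hk0']
    calc ‖φ s - φ t‖ * ‖(D.k s z' : ℂ) - (D.k s (D.sig t) : ℂ)‖
        ≤ ε * (D.k s z' + D.k s (D.sig t)) :=
          mul_le_mul h5 h6 (norm_nonneg _) hε.le
      _ ≤ _ := by
          have : 0 ≤ 2 * F * (2 * (2 * W * ((1 - r) * M) / δ ^ 2)) := by (clear * - hF0 hW0 hee hδ; positivity)
          linarith only [this]
  · have h5 : ‖φ s - φ t‖ ≤ 2 * F := by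
      refine (norm_sub_le _ _).trans ?_
      have := hF s
      have := hF t
      linarith
    have h6 : ‖(D.k s z' : ℂ) - (D.k s (D.sig t) : ℂ)‖
        ≤ 2 * (2 * W * ((1 - r) * M) / δ ^ 2) := by
      have h7 := norm_N_sub_le hW hδ (not_lt.1 hcase) hdist hr
      rw [← Complex.ofReal_sub, Complex.norm_real]
      have h8 : D.k s z' - D.k s (D.sig t) = 2 * (D.N s z' - D.N s (D.sig t)).re := by
        unfold k; rw [Complex.sub_re]; ring
      rw [h8, norm_mul, Real.norm_of_nonneg (by norm_num : (0:ℝ) ≤ 2)]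
      have h9 : ‖(D.N s z' - D.N s (D.sig t)).re‖ ≤ ‖D.N s z' - D.N s (D.sig t)‖ := by
        rw [Real.norm_eq_abs]; exact Complex.abs_re_le_norm _
      linarith only [h7, h9]
    calc ‖φ s - φ t‖ * ‖(D.k s z' : ℂ) - (D.k s (D.sig t) : ℂ)‖
        ≤ 2 * F * (2 * (2 * W * ((1 - r) * M) / δ ^ 2)) :=
          mul_le_mul h5 h6 (norm_nonneg _) (by (clear * - hF0; positivity))
      _ ≤ _ := by
          have : 0 ≤ ε * (D.k s z' + D.k s (D.sig t)) := by (clear * - hε hk0 hk0'; positivity)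
          linarith only [this]

theorem jump_uniform {φ : ℝ → ℂ} (hφ : Continuous φ) (hper : ∀ s, φ (s + 2 * π) = φ s)
    {ε : ℝ} (hε : 0 < ε) :
    ∃ r0 : ℝ, r0 < 1 ∧ ∀ r : ℝ, r0 < r → 0 ≤ r → r < 1 → ∀ t : ℝ,
      ‖(∫ s in (0:ℝ)..(2*π), φ s * (D.k s ((r : ℂ) * D.sig t) : ℂ)) - φ t - D.Dc φ t‖ ≤ ε := by
  obtain ⟨W, hW0, hW⟩ := D.exists_w_bound
  obtain ⟨M, hM0, hM⟩ := D.exists_sig_bound
  obtain ⟨F, hF0, hF⟩ := periodic_upper_bound hφ.norm (fun s => by rw [hper])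
  set e : ℝ := ε / 4 with he
  have he0 : 0 < e := by positivity
  obtain ⟨δ, hδ, hfδ⟩ := unif_sig (D := D) hφ hper he0
  -- choose r0
  set c : ℝ := 2 * F * (2 * (2 * W * M / δ ^ 2)) * (2 * π) + 1 with hc
  have hc0 : 0 < c := by (clear * - hF0 hW0 hM0 hδ; positivity)
  refine ⟨1 - min (δ / (2 * M)) (e / c), by
    have : 0 < min (δ / (2 * M)) (e / c) := by positivity
    linarith only [this], fun r hr h0 h1 t => ?_⟩
  have hr1 : (1 - r) * M < δ / 2 := by
    have : 1 - r < δ / (2 * M) := by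
      have := min_le_left (δ / (2 * M)) (e / c)
      linarith only [hr, this]
    calc (1 - r) * M < δ / (2 * M) * M := by (clear * - this hM0; gcongr)
      _ = δ / 2 := by (clear * - hM0 hδ; field_simp)
  have hr2 : (1 - r) * c < e := by
    have : 1 - r < e / c := by
      have := min_le_right (δ / (2 * M)) (e / c)
      linarith only [hr, this]
    calc (1 - r) * c < e / c * c := by (clear * - this hF0 hW0 hM0 hδ; gcongr)
      _ = e := by (clear * - hc0 he0; field_simp)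
  have hz'Om : (r : ℂ) * D.sig t ∈ D.Om := D.smul_mem_Om (D.sig_mem_K t) h0 h1
  obtain ⟨z', hz'⟩ : ∃ z' : ℂ, z' = (r : ℂ) * D.sig t := ⟨_, rfl⟩
  rw [← hz'] at hz'Om ⊢
  have hdist : ‖z' - D.sig t‖ ≤ (1 - r) * M := by
    have : z' - D.sig t = ((-(1 - r) : ℝ) : ℂ) * D.sig t := by
      rw [hz']; push_cast; ring
    rw [this, norm_mul, Complex.norm_real, norm_neg, Real.norm_of_nonneg (by linarith only [h1])]
    exact mul_le_mul_of_nonneg_left (hM t) (by linarith only [h1])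
  have hck := continuous_k (D.sig_ne_of_mem_Om hz'Om)
  have hint1 : IntervalIntegrable (fun s => φ s * (D.k s (D.sig t) : ℂ)) volume 0 (2*π) :=
    (D.intervalIntegrable_k_sig_ofReal t).continuousOn_mul hφ.continuousOn
  have hint2 : IntervalIntegrable (fun s => φ s * (D.k s z' : ℂ)) volume 0 (2*π) :=
    (hφ.mul (Complex.continuous_ofReal.comp hck)).intervalIntegrable _ _
  have hint3 : IntervalIntegrable (fun s => φ t * (D.k s (D.sig t) : ℂ))
      volume 0 (2*π) :=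
    (D.intervalIntegrable_k_sig_ofReal t).const_mul _
  have hint4 : IntervalIntegrable (fun s => φ t * (D.k s z' : ℂ)) volume 0 (2*π) :=
    (continuous_const.mul (Complex.continuous_ofReal.comp hck)).intervalIntegrable _ _
  have hk1 : ∫ s in (0:ℝ)..(2*π), (D.k s (D.sig t) : ℂ) = 1 := by
    rw [intervalIntegral.integral_ofReal, D.integral_k_sig]; simp
  have hk2 : ∫ s in (0:ℝ)..(2*π), (D.k s z' : ℂ) = 2 := by
    rw [intervalIntegral.integral_ofReal, D.integral_k_of_mem_Om hz'Om]; simp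
  have hI : (∫ s in (0:ℝ)..(2*π), φ s * (D.k s z' : ℂ)) - φ t - D.Dc φ t
      = ∫ s in (0:ℝ)..(2*π), (φ s - φ t) * ((D.k s z' : ℂ) - (D.k s (D.sig t) : ℂ)) := by
    have : ∀ s, (φ s - φ t) * ((D.k s z' : ℂ) - (D.k s (D.sig t) : ℂ))
        = (φ s * (D.k s z' : ℂ) - φ s * (D.k s (D.sig t) : ℂ))
          - (φ t * (D.k s z' : ℂ) - φ t * (D.k s (D.sig t) : ℂ)) := by
      intro s; ring
    simp_rw [this]
    rw [intervalIntegral.integral_sub (hint2.sub hint1) (hint4.sub hint3),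
      intervalIntegral.integral_sub hint2 hint1, intervalIntegral.integral_sub hint4 hint3,
      intervalIntegral.integral_const_mul, intervalIntegral.integral_const_mul, hk1, hk2]
    unfold Dc
    ring
  rw [hI]
  have hpos : (0:ℝ) ≤ 2 * π := by positivity
  have hint : IntervalIntegrable (fun s => e * (D.k s z' + D.k s (D.sig t))) volume 0 (2*π) := by
    apply IntervalIntegrable.const_mul
    exact (hck.intervalIntegrable _ _).add (D.intervalIntegrable_k_sig t)
  have hb : ‖∫ s in (0:ℝ)..(2*π), (φ s - φ t) * ((D.k s z' : ℂ) - (D.k s (D.sig t) : ℂ))‖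
      ≤ ∫ s in (0:ℝ)..(2*π), (e * (D.k s z' + D.k s (D.sig t))
          + 2 * F * (2 * (2 * W * ((1 - r) * M) / δ ^ 2))) := by
    apply intervalIntegral.norm_integral_le_of_norm_le hpos
    · refine Filter.Eventually.of_forall fun s _ => ?_
      exact jump_pointwise' hF (D.Om_subset_K hz'Om) (hW s) hδ he0 hr1.le hdist hfδ
    · exact hint.add intervalIntegrable_const
  have hb2 : ∫ s in (0:ℝ)..(2*π), (e * (D.k s z' + D.k s (D.sig t))
          + 2 * F * (2 * (2 * W * ((1 - r) * M) / δ ^ 2)))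
      = e * 3 + (1 - r) * (c - 1) := by
    rw [intervalIntegral.integral_add hint intervalIntegrable_const,
      intervalIntegral.integral_const_mul,
      intervalIntegral.integral_add (hck.intervalIntegrable _ _) (D.intervalIntegrable_k_sig t),
      D.integral_k_of_mem_Om hz'Om, D.integral_k_sig, intervalIntegral.integral_const, hc]
    simp only [smul_eq_mul]; ring
  rw [hb2] at hb
  refine hb.trans ?_
  have h2 : (1 - r) * (c - 1) ≤ e := by
    have : (1 - r) * (c - 1) = (1 - r) * c - (1 - r) := by ring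
    linarith only [h1, hr2]
  linarith only [he, h1, hr2]

theorem continuousAt_Cin {φ : ℝ → ℂ} (hφ : Continuous φ) {z : ℂ} (hz : z ∈ D.Om) :
    ContinuousAt (D.Cin φ) z := by
  obtain ⟨c, hc, hcz⟩ := D.exists_gap_ge hz
  obtain ⟨W, hW0, hW⟩ := D.exists_w_bound
  have hfar : ∀ x : ℂ, ‖x - z‖ < c / 2 → ∀ s, c / 2 ≤ ‖D.sig s - x‖ := by
    intro x hx s
    have h1 : c ≤ D.gap z s := hcz s
    have h2 := D.gap_sub_le z x s
    have h3 : D.gap x s ≤ ‖D.sig s - x‖ := by
      rw [← D.re_ee_neg_mul_sig_sub]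
      refine (le_abs_self _).trans (abs_re_ee_mul_le _ _)
    linarith
  unfold ContinuousAt Cin
  apply intervalIntegral.continuousAt_of_dominated_interval
    (bound := fun s => ‖φ s‖ * (W / (c / 2)))
  · filter_upwards [D.isOpen_Om.mem_nhds hz] with x hx
    exact (hφ.mul (continuous_N (D.sig_ne_of_mem_Om hx))).aestronglyMeasurable
  · filter_upwards [Metric.ball_mem_nhds z (half_pos hc)] with x hx
    apply Filter.Eventually.of_forall
    intro s _
    rw [Metric.mem_ball, dist_eq_norm] at hx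
    rw [norm_mul, N_eq, norm_div]
    apply mul_le_mul_of_nonneg_left _ (norm_nonneg _)
    exact div_le_div₀ hW0.le (hW s) (by positivity) (hfar x hx s)
  · exact (hφ.norm.mul continuous_const).intervalIntegrable _ _
  · apply Filter.Eventually.of_forall
    intro s _
    exact continuousAt_const.mul (D.continuousAt_N_right (D.sig_ne_of_mem_Om hz s))

theorem sig_div_not_mem_K (s : ℝ) {r : ℝ} (h0 : 0 < r) (h1 : r < 1) : D.sig s / (r : ℂ) ∉ D.K := by
  intro h
  have h2 := h s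
  have h3 : ee (-s) * (D.sig s / (r : ℂ)) = ((r⁻¹ : ℝ) : ℂ) * (ee (-s) * D.sig s) := by
    push_cast
    rw [div_eq_mul_inv]
    ring
  rw [h3, Complex.re_ofReal_mul, D.re_ee_neg_mul_sig] at h2
  have h4 : 1 < r⁻¹ := (one_lt_inv₀ h0).2 h1
  have h5 := D.h_pos s
  nlinarith only [h2, h4, h5]

theorem sig_sub_smul_ne {r : ℝ} (h0 : 0 ≤ r) (h1 : r < 1) {w : ℂ} (hw : w ∈ D.K) (s : ℝ) :
    D.sig s - (r : ℂ) * w ≠ 0 :=
  D.sig_ne_of_mem_Om (D.smul_mem_Om hw h0 h1) s

theorem integral_aux {r : ℝ} (h0 : 0 ≤ r) (h1 : r < 1) (s : ℝ) :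
    ∫ t in (0:ℝ)..(2*π), (r : ℂ) * D.w t / (D.sig s - (r : ℂ) * D.sig t) = 0 := by
  rcases eq_or_lt_of_le h0 with h | h
  · rw [← h]; simp
  · have h2 := D.integral_N_of_not_mem_K (D.sig_div_not_mem_K s h h1)
    have hr : (r : ℂ) ≠ 0 := by exact_mod_cast h.ne'
    have h3 : ∀ t, (r : ℂ) * D.w t / (D.sig s - (r : ℂ) * D.sig t)
        = - D.N t (D.sig s / (r : ℂ)) := by
      intro t
      have h4 := sig_sub_smul_ne h0 h1 (D.sig_mem_K t) s
      have h5 : D.sig t - D.sig s / (r : ℂ) ≠ 0 := by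
        intro h6
        apply h4
        have : D.sig s = (r : ℂ) * (D.sig s / (r : ℂ)) := by (clear * - hr; field_simp)
        rw [this, ← mul_sub]
        have h7 : D.sig s / (r : ℂ) - D.sig t = 0 := by rw [← neg_sub, h6, neg_zero]
        rw [h7, mul_zero]
      rw [N_eq, ← neg_div_neg_eq, neg_div, neg_inj] 
      rw [div_eq_div_iff (by rw [neg_ne_zero]; exact h4) h5]
      field_simp
      ring
    simp_rw [h3]
    rw [intervalIntegral.integral_neg, h2, neg_zero]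

theorem integral_N_N {r : ℝ} (h0 : 0 ≤ r) (h1 : r < 1) {z : ℂ} (hz : z ∈ D.Om) (s : ℝ) :
    ∫ t in (0:ℝ)..(2*π), D.N s ((r : ℂ) * D.sig t) * D.N t z = D.N s ((r : ℂ) * z) := by
  have h2 : ∀ t, D.N s ((r : ℂ) * D.sig t) * D.N t z = D.N s ((r : ℂ) * z) *
      (D.N t z + (r : ℂ) * D.w t / (D.sig s - (r : ℂ) * D.sig t)) := by
    intro t
    have h3 := sig_sub_smul_ne h0 h1 (D.sig_mem_K t) s
    have h4 := sig_sub_smul_ne h0 h1 (D.Om_subset_K hz) s
    have h5 := D.sig_ne_of_mem_Om hz t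
    rw [N_eq, N_eq, N_eq]
    field_simp
    ring
  simp_rw [h2]
  have hc1 : Continuous (fun t => D.N t z) := continuous_N (D.sig_ne_of_mem_Om hz)
  have hc2 : Continuous (fun t => (r : ℂ) * D.w t / (D.sig s - (r : ℂ) * D.sig t)) :=
    (continuous_const.mul D.continuous_w).div
      (continuous_const.sub (continuous_const.mul D.continuous_sig))
      (fun t => sig_sub_smul_ne h0 h1 (D.sig_mem_K t) s)
  rw [intervalIntegral.integral_const_mul, intervalIntegral.integral_add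
    (hc1.intervalIntegrable _ _) (hc2.intervalIntegrable _ _), integral_aux h0 h1,
    D.integral_N_of_mem_Om hz, add_zero, mul_one]

theorem Cin_Cin {φ : ℝ → ℂ} (hφ : Continuous φ) {z : ℂ} (hz : z ∈ D.Om) {r : ℝ}
    (h0 : 0 ≤ r) (h1 : r < 1) :
    ∫ t in (0:ℝ)..(2*π), D.Cin φ ((r : ℂ) * D.sig t) * D.N t z = D.Cin φ ((r : ℂ) * z) := by
  have hc1 : Continuous (fun t => D.N t z) := continuous_N (D.sig_ne_of_mem_Om hz)
  have hc2 : Continuous (fun p : ℝ × ℝ => D.N p.2 ((r : ℂ) * D.sig p.1)) := by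
    simp_rw [N_eq]
    exact (D.continuous_w.comp continuous_snd).div
      ((D.continuous_sig.comp continuous_snd).sub
        (continuous_const.mul (D.continuous_sig.comp continuous_fst)))
      (fun p => sig_sub_smul_ne h0 h1 (D.sig_mem_K p.1) p.2)
  have hc : Continuous (Function.uncurry fun t s =>
      φ s * D.N s ((r : ℂ) * D.sig t) * D.N t z) :=
    ((hφ.comp continuous_snd).mul hc2).mul (hc1.comp continuous_fst)
  have hint : IntegrableOn (Function.uncurry fun t s =>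
      φ s * D.N s ((r : ℂ) * D.sig t) * D.N t z) (uIoc 0 (2*π) ×ˢ uIoc 0 (2*π)) := by
    apply (hc.continuousOn.integrableOn_compact
      ((isCompact_Icc (a := (0:ℝ)) (b := 2*π)).prod
        (isCompact_Icc (a := (0:ℝ)) (b := 2*π)))).mono_set
    rw [uIoc_of_le Real.two_pi_pos.le]
    exact prod_mono Ioc_subset_Icc_self Ioc_subset_Icc_self
  have h2 : ∀ t, D.Cin φ ((r : ℂ) * D.sig t) * D.N t z =
      ∫ s in (0:ℝ)..(2*π), φ s * D.N s ((r : ℂ) * D.sig t) * D.N t z := by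
    intro t
    rw [Cin, ← intervalIntegral.integral_mul_const]
  simp_rw [h2]
  rw [intervalIntegral_intervalIntegral_swap hint]
  unfold Cin
  congr 1
  funext s
  simp_rw [mul_assoc]
  rw [intervalIntegral.integral_const_mul, integral_N_N h0 h1 hz]

theorem Dc_conj (φ : ℝ → ℂ) (t : ℝ) : D.Dc (fun s => conj (φ s)) t = conj (D.Dc φ t) := by
  unfold Dc
  rw [← intervalIntegral_conj_aux]
  congr 1
  funext s
  rw [map_mul, Complex.conj_ofReal]

theorem norm_integral_mul_N_le {z : ℂ} (hz : z ∈ D.Om) {ε : ℝ} {g : ℝ → ℂ}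
    (hg : ∀ t, ‖g t‖ ≤ ε) :
    ‖∫ t in (0:ℝ)..(2*π), g t * D.N t z‖ ≤ ε * ∫ t in (0:ℝ)..(2*π), ‖D.N t z‖ := by
  have hc1 : Continuous (fun t => D.N t z) := continuous_N (D.sig_ne_of_mem_Om hz)
  rw [← intervalIntegral.integral_const_mul]
  apply intervalIntegral.norm_integral_le_of_norm_le Real.two_pi_pos.le
  · refine Filter.Eventually.of_forall fun s _ => ?_
    rw [norm_mul]
    exact mul_le_mul_of_nonneg_right (hg s) (norm_nonneg _)
  · exact (continuous_const.mul hc1.norm).intervalIntegrable _ _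

theorem integral_sub_cont {f g : ℝ → ℂ} (hf : Continuous f) (hg : Continuous g) :
    ∫ s in (0:ℝ)..(2*π), (f s - g s) =
      (∫ s in (0:ℝ)..(2*π), f s) - ∫ s in (0:ℝ)..(2*π), g s :=
  intervalIntegral.integral_sub (hf.intervalIntegrable _ _) (hg.intervalIntegrable _ _)

theorem integral_add_cont {f g : ℝ → ℂ} (hf : Continuous f) (hg : Continuous g) :
    ∫ s in (0:ℝ)..(2*π), (f s + g s) =
      (∫ s in (0:ℝ)..(2*π), f s) + ∫ s in (0:ℝ)..(2*π), g s :=
  intervalIntegral.integral_add (hf.intervalIntegrable _ _) (hg.intervalIntegrable _ _)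

theorem Cin_sub {φ ψ : ℝ → ℂ} (hφ : Continuous φ) (hψ : Continuous ψ) {z : ℂ} (hz : z ∈ D.Om) :
    D.Cin (fun s => φ s - ψ s) z = D.Cin φ z - D.Cin ψ z := by
  have hc1 : Continuous (fun t => D.N t z) := continuous_N (D.sig_ne_of_mem_Om hz)
  have h := integral_sub_cont (hφ.mul hc1) (hψ.mul hc1)
  unfold Cin
  refine Eq.trans ?_ h
  congr 1
  funext s
  simp only [Pi.mul_apply]
  ring

theorem Cin_add {φ ψ : ℝ → ℂ} (hφ : Continuous φ) (hψ : Continuous ψ) {z : ℂ} (hz : z ∈ D.Om) :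
    D.Cin (fun s => φ s + ψ s) z = D.Cin φ z + D.Cin ψ z := by
  have hc1 : Continuous (fun t => D.N t z) := continuous_N (D.sig_ne_of_mem_Om hz)
  have h := integral_add_cont (hφ.mul hc1) (hψ.mul hc1)
  unfold Cin
  refine Eq.trans ?_ h
  congr 1
  funext s
  simp only [Pi.mul_apply]
  ring

theorem Cin_const (c : ℂ) {z : ℂ} (hz : z ∈ D.Om) : D.Cin (fun _ => c) z = c := by
  unfold Cin
  rw [intervalIntegral.integral_const_mul, D.integral_N_of_mem_Om hz, mul_one]

theorem Cin_smul_tendsto {φ : ℝ → ℂ} (hφ : Continuous φ) {z : ℂ} (hz : z ∈ D.Om) :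
    Tendsto (fun r : ℝ => D.Cin φ ((r : ℂ) * z)) (𝓝[<] 1) (𝓝 (D.Cin φ z)) := by
  have h1 : Tendsto (fun r : ℝ => (r : ℂ) * z) (𝓝[<] 1) (𝓝 z) := by
    have : Continuous (fun r : ℝ => (r : ℂ) * z) := Complex.continuous_ofReal.mul continuous_const
    have h2 := (this.tendsto 1).mono_left (nhdsWithin_le_nhds (s := Iio (1:ℝ)))
    simpa only [ofReal_one, one_mul] using h2
  exact (continuousAt_Cin hφ hz).tendsto.comp h1

theorem Cin_step {φ : ℝ → ℂ} (hφ : Continuous φ) (hper : ∀ s, φ (s + 2 * π) = φ s)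
    (hV : ∀ z ∈ D.Om, D.Cin φ z = 0) :
    ∀ z ∈ D.Om, D.Cin (D.Dc (fun s => conj (φ s))) z = 0 := by
  intro z hz
  set ψ : ℝ → ℂ := fun s => conj (φ s) with hψ
  have hψc : Continuous ψ := Complex.continuous_conj.comp hφ
  have hψp : ∀ s, ψ (s + 2 * π) = ψ s := fun s => by simp only [hψ, hper]
  have hDc : Continuous (D.Dc ψ) := D.continuous_Dc hψc hψp
  -- the values inside
  have hval : ∀ ζ ∈ D.Om, D.Cin ψ ζ = ∫ s in (0:ℝ)..(2*π), ψ s * (D.k s ζ : ℂ) := by
    intro ζ hζ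
    have hcN : Continuous (fun t => D.N t ζ) := continuous_N (D.sig_ne_of_mem_Om hζ)
    have h1 : ∫ s in (0:ℝ)..(2*π), ψ s * conj (D.N s ζ) = 0 := by
      have h2 := hV ζ hζ
      unfold Cin at h2
      have h3 : ∫ s in (0:ℝ)..(2*π), ψ s * conj (D.N s ζ)
          = conj (∫ s in (0:ℝ)..(2*π), φ s * D.N s ζ) := by
        rw [← intervalIntegral_conj_aux]
        congr 1
        funext s
        rw [map_mul]
      rw [h3, h2, map_zero]
    have h4 : ∫ s in (0:ℝ)..(2*π), ψ s * (D.k s ζ : ℂ) = D.Cin ψ ζ +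
        ∫ s in (0:ℝ)..(2*π), ψ s * conj (D.N s ζ) := by
      have h5 := integral_add_cont (hψc.mul hcN) (hψc.mul (Complex.continuous_conj.comp hcN))
      unfold Cin
      refine Eq.trans ?_ h5
      congr 1
      funext s
      simp only [Pi.mul_apply, Function.comp]
      rw [ofReal_k]
      ring
    rw [h4, h1, add_zero]
  -- the identity for each r, and passage to the limit
  have hlim1 := Cin_smul_tendsto hψc hz
  have hlim2 : Tendsto (fun r : ℝ => D.Cin ψ ((r : ℂ) * z)) (𝓝[<] 1)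
      (𝓝 (D.Cin (fun s => ψ s + D.Dc ψ s) z)) := by
    rw [Metric.tendsto_nhds]
    intro ε hε
    set B : ℝ := ∫ t in (0:ℝ)..(2*π), ‖D.N t z‖ with hB
    have hB0 : 0 ≤ B := intervalIntegral.integral_nonneg Real.two_pi_pos.le
      (fun s _ => norm_nonneg _)
    set e : ℝ := ε / (2 * (B + 1)) with he
    have he0 : 0 < e := by (clear * - hε hB0; positivity)
    obtain ⟨r0, hr0, hr⟩ := jump_uniform (D := D) hψc hψp he0
    have h0 : Ioo (max r0 0) 1 ∈ 𝓝[<] (1:ℝ) := Ioo_mem_nhdsLT (max_lt hr0 one_pos)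
    filter_upwards [h0] with r hr1
    have hr2 : r0 < r := (le_max_left _ _).trans_lt hr1.1
    have hr3 : 0 < r := (le_max_right _ _).trans_lt hr1.1
    rw [dist_eq_norm, ← Cin_Cin hψc hz hr3.le hr1.2]
    have hcont : Continuous (fun t => D.Cin ψ ((r : ℂ) * D.sig t)) := by
      rw [continuous_iff_continuousAt]
      intro t
      have h1 := continuousAt_Cin hψc (D.smul_mem_Om (D.sig_mem_K t) hr3.le hr1.2)
      exact ContinuousAt.comp (g := D.Cin ψ) (f := fun t => (r : ℂ) * D.sig t) h1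
        (continuous_const.mul D.continuous_sig).continuousAt
    have h1 : (∫ t in (0:ℝ)..(2*π), D.Cin ψ ((r : ℂ) * D.sig t) * D.N t z)
        - D.Cin (fun s => ψ s + D.Dc ψ s) z
        = ∫ t in (0:ℝ)..(2*π), (D.Cin ψ ((r : ℂ) * D.sig t) - (ψ t + D.Dc ψ t)) * D.N t z := by
      exact (Cin_sub hcont (hψc.add hDc) hz).symm
    rw [h1]
    have h2 := norm_integral_mul_N_le (D := D) hz (ε := e)
      (g := fun t => D.Cin ψ ((r : ℂ) * D.sig t) - (ψ t + D.Dc ψ t)) (fun t => by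
        have h3 := hr r hr2 hr3.le hr1.2 t
        rw [hval _ (D.smul_mem_Om (D.sig_mem_K t) hr3.le hr1.2), ← sub_sub]
        exact h3)
    refine h2.trans_lt ?_
    rw [← hB, he]
    rw [div_mul_eq_mul_div, div_lt_iff₀ (by (clear * - hB0; positivity))]
    nlinarith only [hε, hB0]
  have h5 := tendsto_nhds_unique hlim1 hlim2
  have h6 : D.Cin (fun s => ψ s + D.Dc ψ s) z = D.Cin ψ z + D.Cin (D.Dc ψ) z :=
    Cin_add hψc hDc hz
  rw [h6] at h5
  have h7 : D.Cin (D.Dc ψ) z = D.Cin ψ z + D.Cin (D.Dc ψ) z - D.Cin ψ z := by ring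
  rw [h7, ← h5, sub_self]

/-- the Cauchy transform of the Cauchy kernel vanishes -/
theorem Cin_inv {z : ℂ} (hz : z ∈ D.Om) : ∀ ζ ∈ D.Om, D.Cin (fun s => 1 / (D.sig s - z)) ζ = 0 := by
  have hφ : Continuous (fun s => 1 / (D.sig s - z)) :=
    continuous_const.div (D.continuous_sig.sub continuous_const) (D.sig_ne_of_mem_Om hz)
  have hne : ∀ ζ ∈ D.Om, ζ ≠ z → D.Cin (fun s => 1 / (D.sig s - z)) ζ = 0 := by
    intro ζ hζ hζz
    have h1 : ∀ s, 1 / (D.sig s - z) * D.N s ζ = (D.N s z - D.N s ζ) / (z - ζ) := by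
      intro s
      have h2 := D.sig_ne_of_mem_Om hz s
      have h3 := D.sig_ne_of_mem_Om hζ s
      have h4 : z - ζ ≠ 0 := sub_ne_zero.2 (Ne.symm hζz)
      rw [N_eq, N_eq]
      field_simp
      ring
    unfold Cin
    simp_rw [h1]
    rw [intervalIntegral.integral_div, integral_sub_cont
      (continuous_N (D.sig_ne_of_mem_Om hz)) (continuous_N (D.sig_ne_of_mem_Om hζ)),
      D.integral_N_of_mem_Om hz, D.integral_N_of_mem_Om hζ, sub_self, zero_div]
  intro ζ hζ
  by_cases h : ζ = z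
  · have h1 := (continuousAt_Cin hφ hζ).tendsto.mono_left (nhdsWithin_le_nhds (s := {ζ}ᶜ))
    have h2 : ∀ᶠ x in 𝓝[≠] ζ, D.Cin (fun s => 1 / (D.sig s - z)) x = 0 := by
      have h3 : ∀ᶠ x in 𝓝[≠] ζ, x ∈ D.Om := nhdsWithin_le_nhds (D.isOpen_Om.mem_nhds hζ)
      filter_upwards [h3, self_mem_nhdsWithin] with x hx hx'
      apply hne x hx
      rw [← h]
      exact hx'
    have h3 : Tendsto (D.Cin (fun s => 1 / (D.sig s - z))) (𝓝[≠] ζ) (𝓝 0) :=
      tendsto_const_nhds.congr' (h2.mono fun x hx => hx.symm)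
    exact tendsto_nhds_unique h1 h3
  · exact hne ζ hζ h

theorem iterate_props {φ : ℝ → ℂ} (hφ : Continuous φ) (hper : ∀ s, φ (s + 2 * π) = φ s)
    (hV : ∀ z ∈ D.Om, D.Cin φ z = 0) (n : ℕ) :
    Continuous (D.Dc^[2 * n] φ) ∧ (∀ s, (D.Dc^[2 * n] φ) (s + 2 * π) = (D.Dc^[2 * n] φ) s) ∧
      ∀ z ∈ D.Om, D.Cin (D.Dc^[2 * n] φ) z = 0 := by
  induction n with
  | zero => exact ⟨hφ, hper, hV⟩
  | succ n ih =>
    obtain ⟨h1, h2, h3⟩ := ih
    have h4 : D.Dc^[2 * (n + 1)] φ = D.Dc (D.Dc (D.Dc^[2 * n] φ)) := by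
      rw [show 2 * (n + 1) = (2 * n + 1) + 1 by ring, Function.iterate_succ_apply',
        Function.iterate_succ_apply']
    rw [h4]
    have h5 : Continuous (D.Dc (D.Dc^[2 * n] φ)) := D.continuous_Dc h1 h2
    refine ⟨D.continuous_Dc h5 (D.Dc_periodic _), D.Dc_periodic _, ?_⟩
    -- two steps
    have h6 := Cin_step h1 h2 h3
    have h7 : D.Dc (fun s => conj ((D.Dc^[2 * n] φ) s)) = fun t => conj (D.Dc (D.Dc^[2 * n] φ) t) := by
      funext t
      exact Dc_conj _ t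
    rw [h7] at h6
    have h8 := Cin_step (Complex.continuous_conj.comp h5)
      (fun s => by simp only [Function.comp, D.Dc_periodic]) h6
    simp only [Function.comp, conj_conj] at h8
    exact h8

theorem equil_inside {w0 : ℝ → ℝ} (hw : D.Equil w0) {z : ℂ} (hz : z ∈ D.Om) :
    D.Eext w0 z = 0 := by
  set φ : ℝ → ℂ := fun s => 1 / (D.sig s - z) with hφd
  have hφ : Continuous φ :=
    continuous_const.div (D.continuous_sig.sub continuous_const) (D.sig_ne_of_mem_Om hz)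
  have hper : ∀ s, φ (s + 2 * π) = φ s := fun s => by simp only [hφd, D.sig_periodic]
  have hV : ∀ ζ ∈ D.Om, D.Cin φ ζ = 0 := Cin_inv hz
  set c : ℂ := ∫ s in (0:ℝ)..(2*π), φ s * (w0 s : ℂ) with hc
  have hc0 : c = 0 := by
    by_contra hne
    set B : ℝ := ∫ t in (0:ℝ)..(2*π), ‖D.N t z‖ with hB
    have hB0 : 0 ≤ B := intervalIntegral.integral_nonneg Real.two_pi_pos.le
      (fun s _ => norm_nonneg _)
    have hcpos : 0 < ‖c‖ := norm_pos_iff.2 hne
    obtain ⟨n0, hn0⟩ := hw.lim φ hφ hper (‖c‖ / (2 * (B + 1))) (by (clear * - hne hB0; positivity))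
    obtain ⟨h1, h2, h3⟩ := iterate_props hφ hper hV n0
    have h4 := hn0 (2 * n0) (by omega)
    have h5 : D.Cin (fun s => (D.Dc^[2 * n0] φ) s - c) z = - c := by
      rw [Cin_sub h1 continuous_const hz, h3 z hz, Cin_const c hz, zero_sub]
    have h6 := norm_integral_mul_N_le (D := D) hz h4
    unfold Cin at h5
    rw [h5, norm_neg, ← hB, div_mul_eq_mul_div, le_div_iff₀ (by (clear * - hB0; positivity))] at h6
    nlinarith only [hcpos, h6, hB0]
  have h1 : D.Eext w0 z = - c := by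
    rw [hc, Eext, ← intervalIntegral.integral_neg]
    congr 1
    funext t
    simp only [hφd]
    rw [← neg_sub (D.sig t) z, div_neg, one_div, div_eq_mul_inv]
    ring
  rw [h1, hc0, neg_zero]

end Dom
end Vale.Agent.P123
end
end

section

section

namespace Vale.Agent.P123
open Complex MeasureTheory Set Filter Topology Polynomial
open scoped Real ComplexConjugate

namespace Dom
variable {D : Dom}
variable {H : Type*} [NormedAddCommGroup H] [InnerProductSpace ℂ H] [CompleteSpace H]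

/-- interior Cauchy transforms as elements of the algebra (scaled argument) -/
noncomputable def Eg (A : H →L[ℂ] H) (φ : ℝ → ℂ) (r : ℝ) : D.S A :=
  ∫ s in (0:ℝ)..(2*π), (φ s * D.w s) • resolvent ((r : ℂ) • D.xS A) (D.sig s)

theorem opS_Eg {A : H →L[ℂ] H} {η : ℝ} (hA : D.Inside A η) {φ : ℝ → ℂ} (hφ : Continuous φ)
    {r : ℝ} (h0 : 0 ≤ r) (h1 : r < 1) :
    opS A (Eg (D := D) A φ r) = ∫ s in (0:ℝ)..(2*π),
      (φ s * D.w s) • resolvent ((r : ℂ) • A) (D.sig s) := by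
  have hcs : CompleteSpace (D.S A) := D.completeSpace_S A
  have hc : Continuous fun s => φ s * D.w s := hφ.mul D.continuous_w
  have h := map_integral_resolvent (D := D) (B := D.S A) (B' := H →L[ℂ] H) (opS (D := D) A)
    (continuous_opS (D := D) A) (res_xS hA h0 h1) hc
  rw [Eg, h, map_smul]
  rfl

theorem evS_Eg {A : H →L[ℂ] H} {η : ℝ} (hA : D.Inside A η) {φ : ℝ → ℂ} (hφ : Continuous φ)
    {r : ℝ} (h0 : 0 ≤ r) (h1 : r < 1) (z : D.K) :
    evS A z (Eg A φ r) = D.Cin φ (r * z) := by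
  have hcs : CompleteSpace (D.S A) := D.completeSpace_S A
  have hc : Continuous fun s => φ s * D.w s := hφ.mul D.continuous_w
  have h := map_integral_resolvent (D := D) (B := D.S A) (B' := ℂ) (evS (D := D) A z)
    (continuous_evS (D := D) A z) (res_xS hA h0 h1) hc
  rw [Eg, h, map_smul, Cin]
  congr 1; ext1 s
  have e : evS A z (D.xS A) = (z : ℂ) := rfl
  rw [e, resolvent, N_eq]
  simp only [Algebra.algebraMap_self, RingHom.id_apply, smul_eq_mul, Ring.inverse_eq_inv']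
  rw [div_eq_mul_inv]; ring

theorem integral_mul_k_eq {φ : ℝ → ℂ} (hφ : Continuous φ) {z : ℂ} (hz : z ∈ D.Om) :
    ∫ s in (0:ℝ)..(2*π), φ s * (D.k s z : ℂ)
      = D.Cin φ z + conj (D.Cin (fun s => conj (φ s)) z) := by
  have hN := continuous_N (D.sig_ne_of_mem_Om hz)
  rw [Cin, Cin, ← intervalIntegral_conj_aux, ← intervalIntegral.integral_add]
  · congr 1; ext1 s
    rw [ofReal_k, map_mul, Complex.conj_conj]; ring
  · exact (hφ.mul hN).intervalIntegrable _ _
  · exact (Complex.continuous_conj.comp ((Complex.continuous_conj.comp hφ).mul hN)).intervalIntegrable _ _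

theorem evS_Eg_bd {A : H →L[ℂ] H} {η : ℝ} (hA : D.Inside A η) {φ : ℝ → ℂ} (hφ : Continuous φ)
    (hper : ∀ s, φ (s + 2 * π) = φ s) {c : ℂ}
    (hV : ∀ z ∈ D.Om, D.Cin (fun s => conj (φ s)) z = c) {ε : ℝ} (hε : 0 < ε) :
    ∃ r0 : ℝ, r0 < 1 ∧ ∀ r : ℝ, r0 < r → 0 ≤ r → r < 1 → ∀ t : ℝ,
      ‖evS A (D.bd t) (Eg A φ r) - (φ t + D.Dc φ t - conj c)‖ ≤ ε := by
  obtain ⟨r0, h1, h2⟩ := jump_uniform (D := D) hφ hper hε
  refine ⟨r0, h1, fun r hr h0 hr1 t => ?_⟩
  have h3 := h2 r hr h0 hr1 t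
  have hz : (r : ℂ) * D.sig t ∈ D.Om := D.smul_mem_Om (D.sig_mem_K t) h0 hr1
  rw [integral_mul_k_eq hφ hz, hV _ hz] at h3
  rw [evS_Eg hA hφ h0 hr1, coe_bd]
  refine le_of_eq_of_le ?_ h3
  congr 1; ring

/-- the operator components converge -/
theorem tendsto_opS_Eg {A : H →L[ℂ] H} {η : ℝ} (hA : D.Inside A η) {φ : ℝ → ℂ}
    (hφ : Continuous φ) :
    Tendsto (fun n => opS A (Eg (D := D) A φ (rn n))) atTop
      (𝓝 (∫ s in (0:ℝ)..(2*π), φ s • (D.w s • resolvent A (D.sig s)))) := by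
  have hc : Continuous fun s => φ s * D.w s := hφ.mul D.continuous_w
  have hsig := D.continuous_sig
  have hcont : Continuous fun r : ℝ => ∫ s in (0:ℝ)..(2*π),
      (φ s * D.w s) • resolvent (((max 0 (min 1 r) : ℝ) : ℂ) • A) (D.sig s) := by
    apply intervalIntegral.continuous_parametric_intervalIntegral_of_continuous'
    have hres : Continuous fun p : ℝ × ℝ =>
        resolvent (((max 0 (min 1 p.1) : ℝ) : ℂ) • A) (D.sig p.2) := by
      rw [continuous_iff_continuousAt]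
      rintro ⟨r, s⟩
      have h1 : ContinuousAt Ring.inverse (algebraMap ℂ (H →L[ℂ] H) (D.sig s)
          - ((max 0 (min 1 r) : ℝ) : ℂ) • A) := by
        obtain ⟨u, hu⟩ := hA.res s (max 0 (min 1 r)) ⟨le_max_left _ _, by simp only [sup_le_iff, zero_le_one, inf_le_left, and_self]⟩
        rw [← hu]
        exact NormedRing.inverse_continuousAt u
      have h2 : Continuous fun p : ℝ × ℝ => (algebraMap ℂ (H →L[ℂ] H) (D.sig p.2)
          - ((max 0 (min 1 p.1) : ℝ) : ℂ) • A) := by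
        apply Continuous.sub
        · exact (continuous_algebraMap ℂ (H →L[ℂ] H)).comp (hsig.comp continuous_snd)
        · have h3 : Continuous fun p : ℝ × ℝ => ((max 0 (min 1 p.1) : ℝ) : ℂ) := by fun_prop
          exact h3.smul continuous_const
      exact ContinuousAt.comp (f := fun p : ℝ × ℝ => (algebraMap ℂ (H →L[ℂ] H) (D.sig p.2)
          - ((max 0 (min 1 p.1) : ℝ) : ℂ) • A)) (x := (r, s)) h1 h2.continuousAt
    exact (hc.comp continuous_snd).smul hres
  have h1 := (hcont.tendsto 1).comp tendsto_rn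
  have h2 : ((max 0 (min 1 1) : ℝ) : ℂ) • A = A := by simp only [min_self, zero_le_one, sup_of_le_right, ofReal_one, one_smul]
  simp only [mul_smul, h2] at h1
  refine h1.congr fun n => ?_
  have h3 : max 0 (min 1 (rn n)) = rn n := by
    rw [min_eq_right (rn_lt_one n).le, max_eq_right (rn_nonneg n)]
  rw [opS_Eg hA hφ (rn_nonneg n) (rn_lt_one n)]
  simp only [Function.comp_apply, h3, mul_smul]

/-- the function components converge -/
theorem tendsto_fst_Eg {A : H →L[ℂ] H} {η : ℝ} (hA : D.Inside A η) {φ : ℝ → ℂ}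
    (hφ : Continuous φ) (hper : ∀ s, φ (s + 2 * π) = φ s) {c : ℂ}
    (hV : ∀ z ∈ D.Om, D.Cin (fun s => conj (φ s)) z = c) :
    ∃ g : C(D.K, ℂ), Tendsto (fun n => ((Eg A φ (rn n) : D.S A) :
        C(D.K, ℂ) × (H →L[ℂ] H)).1) atTop (𝓝 g) ∧
      ∀ t, g (D.bd t) = φ t + D.Dc φ t - conj c := by
  set y : ℕ → C(D.K, ℂ) × (H →L[ℂ] H) := fun n => (Eg A φ (rn n) : D.S A) with hy
  have hyS : ∀ n, y n ∈ D.S A := fun n => (Eg A φ (rn n) : D.S A).2
  have hbd : ∀ ε > 0, ∃ N, ∀ n ≥ N, ∀ t : ℝ, ‖(y n).1 (D.bd t)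
        - (φ t + D.Dc φ t - conj c)‖ ≤ ε := by
    intro ε hε
    obtain ⟨r0, h1, h2⟩ := evS_Eg_bd hA hφ hper hV hε
    have h3 : ∀ᶠ n in atTop, r0 < rn n := tendsto_rn.eventually (lt_mem_nhds h1)
    obtain ⟨N, hN⟩ := eventually_atTop.1 h3
    exact ⟨N, fun n hn t => h2 (rn n) (hN n hn) (rn_nonneg n) (rn_lt_one n) t⟩
  have hcau : CauchySeq fun n => (y n).1 := by
    rw [Metric.cauchySeq_iff]
    intro ε hε
    obtain ⟨N, hN⟩ := hbd (ε / 4) (by (clear * - hε; positivity))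
    refine ⟨N, fun m hm n hn => ?_⟩
    rw [dist_eq_norm]
    have h4 : y m - y n ∈ D.S A := sub_mem (hyS m) (hyS n)
    have h5 : ‖(y m - y n).1‖ ≤ ε / 2 := by
      apply S_norm_fst_le h4
      intro t
      have e1 := hN m hm t
      have e2 := hN n hn t
      have e3 : (y m - y n).1 (D.bd t)
        = ((y m).1 (D.bd t) - (φ t + D.Dc φ t - conj c))
          - ((y n).1 (D.bd t) - (φ t + D.Dc φ t - conj c)) := by
        rw [Prod.fst_sub, ContinuousMap.sub_apply]; ring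
      rw [e3]
      refine (norm_sub_le _ _).trans ?_
      linarith only [e1, e2]
    rw [Prod.fst_sub] at h5
    linarith only [hε, h5]
  obtain ⟨g, hg⟩ := cauchySeq_tendsto_of_complete hcau
  refine ⟨g, hg, fun t => ?_⟩
  have h6 : Tendsto (fun n => (y n).1 (D.bd t)) atTop (𝓝 (g (D.bd t))) :=
    ((continuous_eval_const (D.bd t)).tendsto g).comp hg
  refine tendsto_nhds_unique h6 ?_
  rw [Metric.tendsto_atTop]
  intro ε hε
  obtain ⟨N, hN⟩ := hbd (ε / 2) (by (clear * - hε; positivity))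
  refine ⟨N, fun n hn => ?_⟩
  rw [dist_eq_norm]
  have := hN n hn t
  linarith only [hε, this]

/-- interior Cauchy transforms of continuous functions whose conjugate has constant interior
Cauchy transform belong to the algebra -/
theorem S_cauchy' {A : H →L[ℂ] H} {η : ℝ} (hA : D.Inside A η) {φ : ℝ → ℂ} (hφ : Continuous φ)
    (hper : ∀ s, φ (s + 2 * π) = φ s) {c : ℂ}
    (hV : ∀ z ∈ D.Om, D.Cin (fun s => conj (φ s)) z = c) :
    ∃ y ∈ D.S A, (∀ t, y.1 (D.bd t) = φ t + D.Dc φ t - conj c) ∧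
      y.2 = ∫ s in (0:ℝ)..(2*π), φ s • (D.w s • resolvent A (D.sig s)) := by
  obtain ⟨g, hg, hgt⟩ := tendsto_fst_Eg hA hφ hper hV
  have hop := tendsto_opS_Eg hA hφ
  have hlim : Tendsto (fun n => ((Eg A φ (rn n) : D.S A) : C(D.K, ℂ) × (H →L[ℂ] H)))
      atTop (𝓝 (g, ∫ s in (0:ℝ)..(2*π), φ s • (D.w s • resolvent A (D.sig s)))) :=
    hg.prodMk_nhds hop
  have hmem := (D.isClosed_S A).mem_of_tendsto hlim
    (Eventually.of_forall fun n => (Eg A φ (rn n) : D.S A).2)
  exact ⟨_, hmem, hgt, rfl⟩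

end Dom
end Vale.Agent.P123
end
end

section

section

namespace Vale.Agent.P123
open Complex MeasureTheory Set Filter Topology Polynomial
open scoped Real ComplexConjugate

namespace Dom
variable {D : Dom}

theorem exists_dist_of_not_mem_K {z : ℂ} (hz : z ∉ D.K) :
    ∃ δ : ℝ, 0 < δ ∧ ∀ t, δ ≤ ‖z - D.sig t‖ := by
  have h1 := D.isClosed_K.isOpen_compl
  rw [Metric.isOpen_iff] at h1
  obtain ⟨δ, hδ, hb⟩ := h1 z hz
  refine ⟨δ, hδ, fun t => ?_⟩
  by_contra hcon
  rw [not_le] at hcon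
  have : D.sig t ∈ Metric.ball z δ := by
    rw [Metric.mem_ball, dist_eq_norm, norm_sub_rev]; exact hcon
  exact hb this (D.sig_mem_K t)

theorem Eext_differentiableAt {w0 : ℝ → ℝ} (hw : D.Equil w0) {z : ℂ} (hz : z ∉ D.K) :
    DifferentiableAt ℂ (D.Eext w0) z := by
  obtain ⟨δ, hδ, hd⟩ := exists_dist_of_not_mem_K hz
  have hc0 := hw.cont
  have hne : ∀ x ∈ Metric.ball z (δ / 2), ∀ t, δ / 2 ≤ ‖x - D.sig t‖ := by
    intro x hx t
    rw [Metric.mem_ball, dist_eq_norm] at hx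
    have h1 := hd t
    have h2 : ‖z - D.sig t‖ ≤ ‖x - D.sig t‖ + ‖x - z‖ := by
      calc ‖z - D.sig t‖ = ‖(x - D.sig t) - (x - z)‖ := by congr 1; ring
        _ ≤ _ := norm_sub_le _ _
    linarith only [hx, h1, h2]
  have hne' : ∀ x ∈ Metric.ball z (δ / 2), ∀ t, x - D.sig t ≠ 0 := by
    intro x hx t h0
    have := hne x hx t
    rw [h0, norm_zero] at this
    linarith
  have key := intervalIntegral.hasDerivAt_integral_of_dominated_loc_of_deriv_le
    (μ := volume) (a := (0:ℝ)) (b := 2 * π) (𝕜 := ℂ)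
    (F := fun (x : ℂ) (t : ℝ) => (w0 t : ℂ) / (x - D.sig t))
    (F' := fun (x : ℂ) (t : ℝ) => -(w0 t : ℂ) / (x - D.sig t) ^ 2)
    (x₀ := z) (s := Metric.ball z (δ / 2)) (bound := fun t => w0 t * (4 / δ ^ 2))
    (Metric.ball_mem_nhds z (half_pos hδ)) ?_ ?_ ?_ ?_ ?_ ?_
  · exact key.2.differentiableAt
  · filter_upwards [Metric.ball_mem_nhds z (half_pos hδ)] with x hx
    have : Continuous fun t => (w0 t : ℂ) / (x - D.sig t) :=
      (Complex.continuous_ofReal.comp hc0).div (continuous_const.sub D.continuous_sig) (hne' x hx)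
    exact this.aestronglyMeasurable
  · have : Continuous fun t => (w0 t : ℂ) / (z - D.sig t) :=
      (Complex.continuous_ofReal.comp hc0).div (continuous_const.sub D.continuous_sig)
        (hne' z (Metric.mem_ball_self (half_pos hδ)))
    exact this.intervalIntegrable _ _
  · have : Continuous fun t => -(w0 t : ℂ) / (z - D.sig t) ^ 2 :=
      (Complex.continuous_ofReal.comp hc0).neg.div ((continuous_const.sub D.continuous_sig).pow 2)
        (fun t => pow_ne_zero 2 (hne' z (Metric.mem_ball_self (half_pos hδ)) t))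
    exact this.aestronglyMeasurable
  · refine Filter.Eventually.of_forall fun t _ x hx => ?_
    rw [norm_div, norm_neg, norm_pow, Complex.norm_real, Real.norm_of_nonneg (hw.pos t).le]
    have h1 := hne x hx t
    have h2 : (δ / 2) ^ 2 ≤ ‖x - D.sig t‖ ^ 2 := by
      have : 0 ≤ δ / 2 := by positivity
      gcongr
    calc w0 t / ‖x - D.sig t‖ ^ 2 ≤ w0 t / (δ / 2) ^ 2 := by
          apply div_le_div_of_nonneg_left (hw.pos t).le (by positivity) h2
      _ = w0 t * (4 / δ ^ 2) := by field_simp; ring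
  · exact (hc0.mul continuous_const).intervalIntegrable _ _
  · refine Filter.Eventually.of_forall fun t _ x hx => ?_
    have h1 : HasDerivAt (fun x : ℂ => x - D.sig t) 1 x := (hasDerivAt_id x).sub_const _
    have h2 := (h1.inv (hne' x hx t)).const_mul (w0 t : ℂ)
    simp only [div_eq_mul_inv]
    refine h2.congr_deriv ?_
    have := hne' x hx t
    field_simp

theorem Eext_ne_zero {w0 : ℝ → ℝ} (hw : D.Equil w0) {z : ℂ} (hz : z ∉ D.K) : D.Eext w0 z ≠ 0 := by
  obtain ⟨s, hs⟩ := D.exists_gap_neg hz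
  have hc0 := hw.cont
  have hne : ∀ t, z - D.sig t ≠ 0 := fun t => by
    have := D.sig_ne_of_not_mem_K hz t
    rwa [ne_eq, ← neg_eq_zero, neg_sub] at this
  have hcont : Continuous fun t => (w0 t : ℂ) / (z - D.sig t) :=
    (Complex.continuous_ofReal.comp hc0).div (continuous_const.sub D.continuous_sig) hne
  have hre : ∀ t, 0 < (ee s * ((w0 t : ℂ) / (z - D.sig t))).re := by
    intro t
    have h1 : 0 < (ee (-s) * (z - D.sig t)).re := by
      rw [mul_sub, Complex.sub_re]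
      have h2 := D.gap_sig_nonneg t s
      unfold gap at h2 hs
      linarith only [hs, h2]
    have h3 : ee s * ((w0 t : ℂ) / (z - D.sig t)) = (w0 t : ℂ) * (ee (-s) * (z - D.sig t))⁻¹ := by
      have := ee_ne_zero (-s)
      have h4 := ee_neg_mul s
      have h5 := hne t
      rw [mul_inv, div_eq_mul_inv]
      have h6 : (ee (-s))⁻¹ = ee s := inv_eq_of_mul_eq_one_right h4
      rw [h6]; ring
    rw [h3, Complex.re_ofReal_mul, Complex.inv_re]
    have h7 : 0 < Complex.normSq (ee (-s) * (z - D.sig t)) :=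
      Complex.normSq_pos.2 (mul_ne_zero (ee_ne_zero _) (hne t))
    exact mul_pos (hw.pos t) (div_pos h1 h7)
  intro h0
  have h1 : ∫ t in (0:ℝ)..(2*π), (ee s * ((w0 t : ℂ) / (z - D.sig t))).re = 0 := by
    have h2 := Complex.reCLM.intervalIntegral_comp_comm (μ := volume) (a := (0:ℝ)) (b := 2*π)
      (f := fun t => ee s * ((w0 t : ℂ) / (z - D.sig t)))
      ((continuous_const.mul hcont).intervalIntegrable _ _)
    simp only [Complex.reCLM_apply] at h2
    rw [h2, intervalIntegral.integral_const_mul]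
    have h3 : ∫ t in (0:ℝ)..(2*π), (w0 t : ℂ) / (z - D.sig t) = 0 := h0
    rw [h3]; simp
  have h2 : 0 < ∫ t in (0:ℝ)..(2*π), (ee s * ((w0 t : ℂ) / (z - D.sig t))).re := by
    apply intervalIntegral.intervalIntegral_pos_of_pos_on _ (fun t _ => hre t) Real.two_pi_pos
    exact (Complex.continuous_re.comp (continuous_const.mul hcont)).intervalIntegrable _ _
  linarith only [h1, h2]

theorem Eext_tendsto {w0 : ℝ → ℝ} (hw : D.Equil w0) :
    Tendsto (fun z => z * D.Eext w0 z) (Bornology.cobounded ℂ) (𝓝 1) := by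
  obtain ⟨M, hM0, hM⟩ := D.exists_sig_bound
  have hc0 := hw.cont
  have hnorm : Tendsto (fun z : ℂ => ‖z‖) (Bornology.cobounded ℂ) atTop := tendsto_norm_cobounded_atTop
  have hlim : Tendsto (fun z : ℂ => M / (‖z‖ - M)) (Bornology.cobounded ℂ) (𝓝 0) := by
    apply Tendsto.div_atTop tendsto_const_nhds
    exact tendsto_atTop_add_const_right _ _ hnorm
  rw [tendsto_iff_norm_sub_tendsto_zero]
  refine squeeze_zero' (Filter.Eventually.of_forall fun z => norm_nonneg _) ?_ hlim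
  filter_upwards [hnorm.eventually_gt_atTop M] with z hz
  have hzs : ∀ t, ‖z‖ - M ≤ ‖z - D.sig t‖ := by
    intro t
    have := norm_sub_norm_le z (D.sig t)
    have := hM t
    linarith
  have hne : ∀ t, z - D.sig t ≠ 0 := by
    intro t h0
    have := hzs t
    rw [h0, norm_zero] at this
    linarith only [hz, this]
  have hcont : Continuous fun t => (w0 t : ℂ) / (z - D.sig t) :=
    (Complex.continuous_ofReal.comp hc0).div (continuous_const.sub D.continuous_sig) hne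
  have h1 : z * D.Eext w0 z - 1 = ∫ t in (0:ℝ)..(2*π), (w0 t : ℂ) * (D.sig t / (z - D.sig t)) := by
    have h2 : (1 : ℂ) = ∫ t in (0:ℝ)..(2*π), (w0 t : ℂ) := by
      rw [intervalIntegral.integral_ofReal, hw.mass]; simp
    unfold Eext
    rw [← intervalIntegral.integral_const_mul]
    conv_lhs => rw [h2]
    rw [← intervalIntegral.integral_sub]
    · congr 1; ext1 t
      have := hne t
      field_simp
      ring
    · exact (continuous_const.mul hcont).intervalIntegrable _ _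
    · exact (Complex.continuous_ofReal.comp hc0).intervalIntegrable _ _
  rw [h1]
  calc ‖∫ t in (0:ℝ)..(2*π), (w0 t : ℂ) * (D.sig t / (z - D.sig t))‖
      ≤ ∫ t in (0:ℝ)..(2*π), w0 t * (M / (‖z‖ - M)) := by
        apply intervalIntegral.norm_integral_le_of_norm_le Real.two_pi_pos.le
        · refine Filter.Eventually.of_forall fun t _ => ?_
          rw [norm_mul, Complex.norm_real, Real.norm_of_nonneg (hw.pos t).le, norm_div]
          have h3 : ‖D.sig t‖ / ‖z - D.sig t‖ ≤ M / (‖z‖ - M) :=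
            div_le_div₀ hM0.le (hM t) (by linarith only [hz]) (hzs t)
          exact mul_le_mul_of_nonneg_left h3 (hw.pos t).le
        · exact (hc0.mul continuous_const).intervalIntegrable _ _
    _ = M / (‖z‖ - M) := by
        rw [intervalIntegral.integral_mul_const, hw.mass, one_mul]

/-- uniform continuity of a periodic function with respect to the chord distance -/
theorem chord_uniform {g : ℝ → ℂ} (hg : Continuous g) (hper : ∀ s, g (s + 2 * π) = g s)
    {ε : ℝ} (hε : 0 < ε) :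
    ∃ δ : ℝ, 0 < δ ∧ ∀ s t : ℝ, ‖D.sig s - D.sig t‖ < δ → ‖g s - g t‖ < ε := by
  let Q : Set (ℝ × ℝ) := (Icc (0:ℝ) (2*π) ×ˢ Icc (0:ℝ) (2*π)) ∩
    {p | ε ≤ ‖g p.1 - g p.2‖}
  have hQ : IsCompact Q := by
    apply (isCompact_Icc.prod isCompact_Icc).inter_right
    exact isClosed_le continuous_const
      ((hg.comp continuous_fst).sub (hg.comp continuous_snd)).norm
  have hf : Continuous fun p : ℝ × ℝ => ‖D.sig p.1 - D.sig p.2‖ :=
    ((D.continuous_sig.comp continuous_fst).sub (D.continuous_sig.comp continuous_snd)).norm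
  have hpos : ∀ p ∈ Q, 0 < ‖D.sig p.1 - D.sig p.2‖ := by
    rintro ⟨s, t⟩ ⟨⟨hs, ht⟩, hst⟩
    simp only [mem_ofPred_eq] at hst
    rw [norm_pos_iff]
    intro h0
    have h1 : ¬ (s < t ∧ t < s + 2 * π) := fun h => D.sig_sub_ne h.1 h.2 (by
      rw [← neg_sub, h0, neg_zero])
    have h2 : ¬ (t < s ∧ s < t + 2 * π) := fun h => D.sig_sub_ne h.1 h.2 h0
    have hs1 := hs.1
    have hs2 := hs.2
    have ht1 := ht.1
    have ht2 := ht.2
    simp only at hs1 hs2 ht1 ht2
    have h3 : g s = g t := by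
      rcases lt_trichotomy s t with h | h | h
      · have h4 : s + 2 * π ≤ t := by
          by_contra hcon
          exact h1 ⟨h, not_le.1 hcon⟩
        have h5 : t = s + 2 * π := by linarith only [h4, hs1, ht2]
        rw [h5, hper]
      · rw [h]
      · have h4 : t + 2 * π ≤ s := by
          by_contra hcon
          exact h2 ⟨h, not_le.1 hcon⟩
        have h5 : s = t + 2 * π := by linarith only [h4, hs2, ht1]
        rw [h5, hper]
    rw [h3, sub_self, norm_zero] at hst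
    linarith only [hε, hst]
  have hgp : Function.Periodic g (2 * π) := hper
  have hsp : Function.Periodic D.sig (2 * π) := D.sig_periodic
  have key : ∃ δ : ℝ, 0 < δ ∧ ∀ p ∈ Q, δ ≤ ‖D.sig p.1 - D.sig p.2‖ := by
    rcases Q.eq_empty_or_nonempty with h | h
    · exact ⟨1, one_pos, fun p hp => by rw [h] at hp; exact absurd hp (notMem_empty _)⟩
    · obtain ⟨p0, hp0, hmin⟩ := hQ.exists_isMinOn h hf.continuousOn
      exact ⟨_, hpos p0 hp0, fun p hp => hmin hp⟩
  obtain ⟨δ, hδ, hQδ⟩ := key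
  refine ⟨δ, hδ, fun s t hst => ?_⟩
  by_contra hcon
  rw [not_lt] at hcon
  -- reduce modulo the period
  obtain ⟨s', hs', n, hns⟩ : ∃ s' ∈ Ico (0:ℝ) (2*π), ∃ n : ℤ, s' = s - n * (2*π) := by
    obtain ⟨n, hn, -⟩ := existsUnique_sub_zsmul_mem_Ico Real.two_pi_pos s 0
    refine ⟨s - n • (2*π), by simpa only [zsmul_eq_mul, mem_Ico, sub_nonneg, zero_add] using hn, n, by simp only [zsmul_eq_mul]⟩
  obtain ⟨t', ht', m, hmt⟩ : ∃ t' ∈ Ico (0:ℝ) (2*π), ∃ n : ℤ, t' = t - n * (2*π) := by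
    obtain ⟨n, hn, -⟩ := existsUnique_sub_zsmul_mem_Ico Real.two_pi_pos t 0
    refine ⟨t - n • (2*π), by simpa only [zsmul_eq_mul, mem_Ico, sub_nonneg, zero_add] using hn, n, by simp only [zsmul_eq_mul]⟩
  have e1 : g s' = g s := by rw [hns]; exact hgp.sub_int_mul_eq n
  have e2 : g t' = g t := by rw [hmt]; exact hgp.sub_int_mul_eq m
  have e3 : D.sig s' = D.sig s := by rw [hns]; exact hsp.sub_int_mul_eq n
  have e4 : D.sig t' = D.sig t := by rw [hmt]; exact hsp.sub_int_mul_eq m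
  have hmem : (s', t') ∈ Q := by
    refine ⟨⟨⟨hs'.1, hs'.2.le⟩, ⟨ht'.1, ht'.2.le⟩⟩, ?_⟩
    simp only [mem_ofPred_eq]
    rw [e1, e2]; exact hcon
  have := hQδ _ hmem
  simp only at this
  rw [e3, e4] at this
  linarith only [hst, this]

theorem w_ne_zero (D : Dom) (s : ℝ) : D.w s ≠ 0 := by
  unfold w
  have h1 : (D.R s : ℂ) ≠ 0 := by exact_mod_cast (D.R_pos s).ne'
  have h2 := ee_ne_zero s
  have h3 := pi_ne_zero_C
  exact div_ne_zero (mul_ne_zero h1 h2) (mul_ne_zero two_ne_zero h3)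

theorem w_periodic (D : Dom) (s : ℝ) : D.w (s + 2 * π) = D.w s := by
  unfold w; rw [D.R_periodic, ee_periodic]

theorem norm_w_eq (D : Dom) (s : ℝ) : ‖D.w s‖ = D.R s / (2 * π) := by
  unfold w
  rw [norm_div, norm_mul, norm_mul, norm_ee, Complex.norm_real, Complex.norm_real,
    Real.norm_of_nonneg (D.R_pos s).le, Real.norm_of_nonneg Real.pi_pos.le]
  simp only [mul_one, norm_ofNat]

theorem smul_sig_not_mem_K_aux (D : Dom) (t : ℝ) {l : ℝ} (hl : 1 < l) :
    (l : ℂ) * D.sig t ∉ D.K := by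
  intro h
  have h1 := h t
  have h2 : ee (-t) * ((l : ℂ) * D.sig t) = (l : ℂ) * (ee (-t) * D.sig t) := by ring
  rw [h2, Complex.re_ofReal_mul, D.re_ee_neg_mul_sig] at h1
  have := D.h_pos t
  nlinarith only [h1, hl, this]

/-- lower bound for the distance of an exterior point to the curve -/
theorem dist_exterior (s t : ℝ) {l : ℝ} :
    (l - 1) * D.h s ≤ ‖(l : ℂ) * D.sig s - D.sig t‖ := by
  have h1 : (ee (-s) * ((l : ℂ) * D.sig s - D.sig t)).re ≤ ‖(l : ℂ) * D.sig s - D.sig t‖ :=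
    (le_abs_self _).trans (abs_re_ee_mul_le _ _)
  have h2 : (ee (-s) * ((l : ℂ) * D.sig s - D.sig t)).re
      = l * D.h s - (ee (-s) * D.sig t).re := by
    have : ee (-s) * ((l : ℂ) * D.sig s - D.sig t)
        = (l : ℂ) * (ee (-s) * D.sig s) - ee (-s) * D.sig t := by ring
    rw [this, Complex.sub_re, Complex.re_ofReal_mul, D.re_ee_neg_mul_sig]
  have h3 := D.gap_sig_nonneg t s
  unfold gap at h3
  rw [h2] at h1
  linarith only [h1, h3]

/-- the difference kernel -/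
noncomputable def Pk (D : Dom) (l : ℝ) (s t : ℝ) : ℂ :=
  D.N t (((l⁻¹ : ℝ) : ℂ) * D.sig s) - D.N t ((l : ℂ) * D.sig s)

theorem norm_Pk_eq (s t : ℝ) {l : ℝ} (hl : 1 < l) :
    ‖D.Pk l s t‖ = ‖D.w t‖ * ((l - l⁻¹) * ‖D.sig s‖) /
      (‖D.sig t - ((l⁻¹ : ℝ) : ℂ) * D.sig s‖ * ‖(l : ℂ) * D.sig s - D.sig t‖) := by
  have hl0 : 0 < l := by linarith only [hl]
  have hin : ((l⁻¹ : ℝ) : ℂ) * D.sig s ∈ D.Om :=
    D.smul_mem_Om (D.sig_mem_K s) (by positivity) (inv_lt_one_of_one_lt₀ hl)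
  have h1 := D.sig_ne_of_mem_Om hin t
  have h2 := D.sig_ne_of_not_mem_K (D.smul_sig_not_mem_K_aux s hl) t
  have h3 : D.Pk l s t = D.w t * ((((l⁻¹ - l : ℝ)) : ℂ) * D.sig s) /
      ((D.sig t - ((l⁻¹ : ℝ) : ℂ) * D.sig s) * (D.sig t - (l : ℂ) * D.sig s)) := by
    unfold Pk
    rw [N_eq, N_eq, div_sub_div _ _ h1 h2]
    congr 1
    push_cast
    ring
  rw [h3, norm_div, norm_mul, norm_mul, norm_mul, Complex.norm_real, norm_sub_rev (D.sig t)
    ((l : ℂ) * D.sig s)]
  have h4 : ‖l⁻¹ - l‖ = l - l⁻¹ := by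
    rw [Real.norm_eq_abs, abs_of_nonpos]
    · ring
    · have : l⁻¹ < 1 := inv_lt_one_of_one_lt₀ hl
      linarith only [hl, this]
  rw [h4]

theorem norm_Pk_le {m M : ℝ} (hm0 : 0 < m) (hm : ∀ s, m ≤ D.h s) (hM0 : 0 < M)
    (hM : ∀ s, ‖D.sig s‖ ≤ M) (s t : ℝ) {l : ℝ} (hl : 1 < l) (hl2 : l < 2) :
    ‖D.Pk l s t‖ ≤ (3 / 2 * M * (1 + 2 * M / m) / m) * D.k t (((l⁻¹ : ℝ) : ℂ) * D.sig s) := by
  have hl0 : 0 < l := by linarith only [hl]
  have hinv : l⁻¹ < 1 := inv_lt_one_of_one_lt₀ hl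
  have hinv0 : 0 < l⁻¹ := by positivity
  have hin : ((l⁻¹ : ℝ) : ℂ) * D.sig s ∈ D.Om :=
    D.smul_mem_Om (D.sig_mem_K s) (by positivity) hinv
  have h1 := D.sig_ne_of_mem_Om hin t
  have h2 := D.sig_ne_of_not_mem_K (D.smul_sig_not_mem_K_aux s hl) t
  rw [norm_Pk_eq s t hl, k_eq, norm_w_eq]
  set a := ‖D.sig t - ((l⁻¹ : ℝ) : ℂ) * D.sig s‖ with ha
  set b := ‖(l : ℂ) * D.sig s - D.sig t‖ with hb
  have ha0 : 0 < a := norm_pos_iff.2 h1
  have hb0 : 0 < b := by
    rw [hb, norm_sub_rev]; exact norm_pos_iff.2 h2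
  have hR := D.R_pos t
  have hpi := Real.pi_pos
  -- gap lower bound
  have hgap : (1 - l⁻¹) * m ≤ D.gap (((l⁻¹ : ℝ) : ℂ) * D.sig s) t := by
    have h3 := D.gap_sig_nonneg s t
    unfold gap at h3 ⊢
    have h4 : ee (-t) * (((l⁻¹ : ℝ) : ℂ) * D.sig s) = ((l⁻¹ : ℝ) : ℂ) * (ee (-t) * D.sig s) := by
      ring
    rw [h4, Complex.re_ofReal_mul]
    have h5 := hm t
    have h6 : l⁻¹ * (ee (-t) * D.sig s).re ≤ l⁻¹ * D.h t :=
      mul_le_mul_of_nonneg_left (by linarith only [h3]) hinv0.le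
    have h7 : (1 - l⁻¹) * m ≤ (1 - l⁻¹) * D.h t :=
      mul_le_mul_of_nonneg_left h5 (by linarith only [hinv])
    linarith only [h6, h7]
  -- comparison of distances
  have hab : a ≤ (1 + 2 * M / m) * b := by
    have h3 : a ≤ b + (l - l⁻¹) * ‖D.sig s‖ := by
      have e : D.sig t - ((l⁻¹ : ℝ) : ℂ) * D.sig s
          = (((l - l⁻¹ : ℝ)) : ℂ) * D.sig s - ((l : ℂ) * D.sig s - D.sig t) := by
        push_cast; ring
      rw [ha, e]
      refine (norm_sub_le _ _).trans ?_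
      rw [norm_mul, Complex.norm_real, Real.norm_of_nonneg (by linarith only [hl, hinv]), ← hb]
      linarith only []
    have h4 : (l - 1) * m ≤ b :=
      (mul_le_mul_of_nonneg_left (hm s) (by linarith only [hl])).trans (dist_exterior s t)
    have h5 : l - l⁻¹ ≤ 2 * (l - 1) := by
      have : l * l⁻¹ = 1 := mul_inv_cancel₀ hl0.ne'
      nlinarith only [this, hl]
    have h6 : (l - l⁻¹) * ‖D.sig s‖ ≤ 2 * (l - 1) * M :=
      mul_le_mul h5 (hM s) (norm_nonneg _) (by linarith only [hl])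
    have h7 : 2 * (l - 1) * M ≤ 2 * M / m * b := by
      rw [div_mul_eq_mul_div, le_div_iff₀ hm0]
      nlinarith only [hM0, h4]
    linarith
  have hkey : (l - l⁻¹) * ‖D.sig s‖ * a ≤ (3 * M * (1 + 2 * M / m) / m) *
      (D.gap (((l⁻¹ : ℝ) : ℂ) * D.sig s) t) * b := by
    have h3 : l - l⁻¹ ≤ 3 * (1 - l⁻¹) := by
      have : l * l⁻¹ = 1 := mul_inv_cancel₀ hl0.ne'
      nlinarith only [this, hl, hl2]
    have h4 : (l - l⁻¹) * ‖D.sig s‖ ≤ 3 * (1 - l⁻¹) * M :=
      mul_le_mul h3 (hM s) (norm_nonneg _) (by linarith only [hinv])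
    calc (l - l⁻¹) * ‖D.sig s‖ * a ≤ (3 * (1 - l⁻¹) * M) * ((1 + 2 * M / m) * b) :=
          mul_le_mul h4 hab ha0.le (by
            have : 0 ≤ 1 - l⁻¹ := by linarith only [hinv]
            positivity)
      _ = (3 * M * (1 + 2 * M / m) / m) * ((1 - l⁻¹) * m) * b := by (clear * - hl hm0 hb0 hM0; field_simp)
      _ ≤ _ := by gcongr
  have e1 : D.R t / (2 * π) * ((l - l⁻¹) * ‖D.sig s‖) / (a * b)
      = D.R t / (2 * π) * ((l - l⁻¹) * ‖D.sig s‖ * a) / (a ^ 2 * b) := by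
    (clear * - hb0 ha0 hl hR; field_simp)
  have e2 : 3 / 2 * M * (1 + 2 * M / m) / m * (D.R t / π *
      (D.gap (((l⁻¹ : ℝ) : ℂ) * D.sig s) t / a ^ 2))
      = D.R t / (2 * π) * ((3 * M * (1 + 2 * M / m) / m) *
      (D.gap (((l⁻¹ : ℝ) : ℂ) * D.sig s) t) * b) / (a ^ 2 * b) := by
    (clear * - hm0 hb0 ha0 hR hM0; field_simp)
  rw [e1, e2]
  (clear * - hkey hR h1 hb0; gcongr)

theorem norm_Pk_le_far {W M δ : ℝ} (hW : ∀ s, ‖D.w s‖ ≤ W) (hM0 : 0 < M)
    (hM : ∀ s, ‖D.sig s‖ ≤ M) (hδ : 0 < δ) (s t : ℝ) {l : ℝ} (hl : 1 < l)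
    (hlδ : (l - 1) * M ≤ δ / 2) (hst : δ ≤ ‖D.sig s - D.sig t‖) :
    ‖D.Pk l s t‖ ≤ 8 * W * M / δ ^ 2 * (l - 1) := by
  have hl0 : 0 < l := by linarith only [hl]
  have hinv : l⁻¹ < 1 := inv_lt_one_of_one_lt₀ hl
  have hinv0 : 0 < l⁻¹ := by (clear * - hl; positivity)
  have hll : l * l⁻¹ = 1 := mul_inv_cancel₀ hl0.ne'
  have hW0 : 0 ≤ W := (norm_nonneg _).trans (hW 0)
  rw [norm_Pk_eq s t hl]
  have h1 : δ / 2 ≤ ‖(l : ℂ) * D.sig s - D.sig t‖ := by
    have e : D.sig s - D.sig t = ((l : ℂ) * D.sig s - D.sig t) - ((l - 1 : ℝ) : ℂ) * D.sig s := by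
      push_cast; ring
    have h3 : ‖D.sig s - D.sig t‖ ≤ ‖(l : ℂ) * D.sig s - D.sig t‖ + (l - 1) * ‖D.sig s‖ := by
      conv_lhs => rw [e]
      refine (norm_sub_le _ _).trans ?_
      rw [norm_mul, Complex.norm_real, Real.norm_of_nonneg (by linarith only [hl] : (0:ℝ) ≤ l - 1)]
    have h4 : (l - 1) * ‖D.sig s‖ ≤ (l - 1) * M :=
      mul_le_mul_of_nonneg_left (hM s) (by linarith only [hl])
    linarith only [hlδ, hst, h3, h4]
  have h2 : δ / 2 ≤ ‖D.sig t - ((l⁻¹ : ℝ) : ℂ) * D.sig s‖ := by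
    have e : D.sig s - D.sig t = ((1 - l⁻¹ : ℝ) : ℂ) * D.sig s
        - (D.sig t - ((l⁻¹ : ℝ) : ℂ) * D.sig s) := by
      push_cast; ring
    have h3 : ‖D.sig s - D.sig t‖ ≤ (1 - l⁻¹) * ‖D.sig s‖
        + ‖D.sig t - ((l⁻¹ : ℝ) : ℂ) * D.sig s‖ := by
      conv_lhs => rw [e]
      refine (norm_sub_le _ _).trans ?_
      rw [norm_mul, Complex.norm_real, Real.norm_of_nonneg (by linarith only [hinv] : (0:ℝ) ≤ 1 - l⁻¹)]
    have h4 : (1 - l⁻¹) * ‖D.sig s‖ ≤ (l - 1) * M :=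
      mul_le_mul (by nlinarith only [hll, hl]) (hM s) (norm_nonneg _) (by linarith only [hl])
    linarith only [hlδ, hst, h3, h4]
  have h5 : l - l⁻¹ ≤ 2 * (l - 1) := by nlinarith only [hll, hl]
  have h6 : ‖D.w t‖ * ((l - l⁻¹) * ‖D.sig s‖) ≤ W * (2 * (l - 1) * M) :=
    mul_le_mul (hW t) (mul_le_mul h5 (hM s) (norm_nonneg _) (by linarith only [hl]))
      (mul_nonneg (by linarith only [hl, hinv]) (norm_nonneg _)) hW0
  have h7 : (δ / 2) * (δ / 2) ≤
      ‖D.sig t - ((l⁻¹ : ℝ) : ℂ) * D.sig s‖ * ‖(l : ℂ) * D.sig s - D.sig t‖ :=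
    mul_le_mul h2 h1 (by positivity) (norm_nonneg _)
  calc _ ≤ W * (2 * (l - 1) * M) / ((δ / 2) * (δ / 2)) :=
        div_le_div₀ (by
          have : 0 ≤ l - 1 := by linarith only [hl]
          (clear * - hW0 hl hM0; positivity)) h6 (by positivity) h7
    _ = 8 * W * M / δ ^ 2 * (l - 1) := by field_simp; ring

theorem Eext_boundary_of {w0 : ℝ → ℝ} (hw : D.Equil w0) (hin : ∀ z ∈ D.Om, D.Eext w0 z = 0)
    {ε : ℝ} (hε : 0 < ε) :
    ∃ l0 : ℝ, 1 < l0 ∧ ∀ l : ℝ, 1 < l → l < l0 → ∀ t : ℝ,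
      ‖D.w t * D.Eext w0 ((l : ℂ) * D.sig t) - (w0 t : ℂ)‖ ≤ ε := by
  obtain ⟨m, hm0, hm⟩ := D.exists_h_lower
  obtain ⟨M, hM0, hM⟩ := D.exists_sig_bound
  obtain ⟨W, hW0, hW⟩ := D.exists_w_bound
  have hc0 := hw.cont
  have hcw := D.continuous_w
  set g : ℝ → ℂ := fun t => (w0 t : ℂ) / D.w t with hg
  have hgc : Continuous g := (Complex.continuous_ofReal.comp hc0).div hcw D.w_ne_zero
  have hgper : ∀ s, g (s + 2 * π) = g s := by
    intro s; simp only [hg]; rw [hw.per, D.w_periodic]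
  obtain ⟨G, hG0, hG⟩ : ∃ G : ℝ, 0 < G ∧ ∀ s, ‖g s‖ ≤ G :=
    periodic_upper_bound hgc.norm (fun s => by rw [hgper])
  set C : ℝ := 3 / 2 * M * (1 + 2 * M / m) / m with hC
  have hC0 : 0 < C := by (clear * - hM0 hm0; positivity)
  have hpi := Real.pi_pos
  set ε' : ℝ := ε / (4 * W * C) with hε'
  have hε'0 : 0 < ε' := by positivity
  obtain ⟨δ, hδ, hgδ⟩ := chord_uniform (D := D) hgc hgper hε'0
  set c2 : ℝ := W * (2 * G * (8 * W * M / δ ^ 2) * (2 * π)) with hc2
  have hc20 : 0 < c2 := by (clear * - hW0 hG0 hM0 hδ; positivity)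
  refine ⟨1 + min 1 (min (δ / (2 * M)) (ε / (2 * c2))), by
    have : 0 < min 1 (min (δ / (2 * M)) (ε / (2 * c2))) := by (clear * - hδ hM0 hε hW0 hG0; positivity)
    linarith only [this], fun l hl hl' s => ?_⟩
  have hl2 : l < 2 := by
    have := min_le_left 1 (min (δ / (2 * M)) (ε / (2 * c2)))
    linarith only [hl', this]
  have hlδ : (l - 1) * M ≤ δ / 2 := by
    have h1 := min_le_right 1 (min (δ / (2 * M)) (ε / (2 * c2)))
    have h2 := min_le_left (δ / (2 * M)) (ε / (2 * c2))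
    have h3 : l - 1 ≤ δ / (2 * M) := by linarith only [hl', h1, h2]
    calc (l - 1) * M ≤ δ / (2 * M) * M := by (clear * - h3 hM0; gcongr)
      _ = δ / 2 := by (clear * - hM0 hδ; field_simp)
  have hlε : (l - 1) * c2 ≤ ε / 2 := by
    have h1 := min_le_right 1 (min (δ / (2 * M)) (ε / (2 * c2)))
    have h2 := min_le_right (δ / (2 * M)) (ε / (2 * c2))
    have h3 : l - 1 ≤ ε / (2 * c2) := by linarith only [hl', h1, h2]
    calc (l - 1) * c2 ≤ ε / (2 * c2) * c2 := by (clear * - h3 hW0 hG0 hM0 hδ; gcongr)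
      _ = ε / 2 := by (clear * - hc20 hε; field_simp)
  have hl0 : 0 < l := by linarith only [hl]
  have hinv : l⁻¹ < 1 := inv_lt_one_of_one_lt₀ hl
  have hinvOm : ((l⁻¹ : ℝ) : ℂ) * D.sig s ∈ D.Om :=
    D.smul_mem_Om (D.sig_mem_K s) (by (clear * - hl; positivity)) hinv
  have hout := D.smul_sig_not_mem_K_aux s hl
  have hne1 := D.sig_ne_of_mem_Om hinvOm
  have hne2 := D.sig_ne_of_not_mem_K hout
  have hcN1 : Continuous fun t => D.N t (((l⁻¹ : ℝ) : ℂ) * D.sig s) := continuous_N hne1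
  have hcN2 : Continuous fun t => D.N t ((l : ℂ) * D.sig s) := continuous_N hne2
  have hcP : Continuous fun t => D.Pk l s t := hcN1.sub hcN2
  have hPint : ∫ t in (0:ℝ)..(2*π), D.Pk l s t = 1 := by
    unfold Pk
    rw [intervalIntegral.integral_sub (hcN1.intervalIntegrable _ _)
      (hcN2.intervalIntegrable _ _), D.integral_N_of_mem_Om hinvOm,
      D.integral_N_of_not_mem_K hout, sub_zero]
  -- the representation
  have hrep : D.Eext w0 ((l : ℂ) * D.sig s) = ∫ t in (0:ℝ)..(2*π), g t * D.Pk l s t := by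
    have h0 := hin _ hinvOm
    have h1 : D.Eext w0 ((l : ℂ) * D.sig s) = -∫ t in (0:ℝ)..(2*π), g t * D.N t ((l : ℂ) * D.sig s) := by
      unfold Eext
      rw [← intervalIntegral.integral_neg]
      congr 1; ext1 t
      have h3 := hne2 t
      have h4 : (l : ℂ) * D.sig s - D.sig t ≠ 0 := by
        rwa [ne_eq, ← neg_eq_zero, neg_sub]
      have h5 := D.w_ne_zero t
      rw [N_eq]
      simp only [hg]
      rw [div_mul_div_comm, mul_comm (D.w t) (D.sig t - _), mul_div_mul_right _ _ h5,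
        ← div_neg, neg_sub]
    have h2 : D.Eext w0 (((l⁻¹ : ℝ) : ℂ) * D.sig s)
        = -∫ t in (0:ℝ)..(2*π), g t * D.N t (((l⁻¹ : ℝ) : ℂ) * D.sig s) := by
      unfold Eext
      rw [← intervalIntegral.integral_neg]
      congr 1; ext1 t
      have h3 := hne1 t
      have h5 := D.w_ne_zero t
      rw [N_eq]
      simp only [hg]
      rw [div_mul_div_comm, mul_comm (D.w t) (D.sig t - _), mul_div_mul_right _ _ h5,
        ← div_neg, neg_sub]
    have h3 : D.Eext w0 ((l : ℂ) * D.sig s)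
        = D.Eext w0 ((l : ℂ) * D.sig s) - D.Eext w0 (((l⁻¹ : ℝ) : ℂ) * D.sig s) := by
      rw [h0, sub_zero]
    have hi1 : IntervalIntegrable (fun t => g t * D.N t (((l⁻¹ : ℝ) : ℂ) * D.sig s))
        volume 0 (2*π) := (hgc.mul hcN1).intervalIntegrable _ _
    have hi2 : IntervalIntegrable (fun t => g t * D.N t ((l : ℂ) * D.sig s))
        volume 0 (2*π) := (hgc.mul hcN2).intervalIntegrable _ _
    rw [h3, h1, h2, neg_sub_neg, ← intervalIntegral.integral_sub hi1 hi2]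
    congr 1; ext1 t
    unfold Pk; ring
  have hrep2 : D.w s * D.Eext w0 ((l : ℂ) * D.sig s) - (w0 s : ℂ)
      = D.w s * ∫ t in (0:ℝ)..(2*π), (g t - g s) * D.Pk l s t := by
    have h1 : (w0 s : ℂ) = D.w s * (g s * ∫ t in (0:ℝ)..(2*π), D.Pk l s t) := by
      rw [hPint, mul_one]
      simp only [hg]
      rw [mul_div_cancel₀ _ (D.w_ne_zero s)]
    conv_lhs => rw [h1]
    have hi1 : IntervalIntegrable (fun t => g t * D.Pk l s t)
        volume 0 (2*π) := (hgc.mul hcP).intervalIntegrable _ _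
    have hi2 : IntervalIntegrable (fun t => g s * D.Pk l s t)
        volume 0 (2*π) := (continuous_const.mul hcP).intervalIntegrable _ _
    rw [hrep, ← mul_sub, ← intervalIntegral.integral_const_mul,
      ← intervalIntegral.integral_sub hi1 hi2]
    congr 2; ext1 t
    ring
  rw [hrep2, norm_mul]
  have hck : Continuous fun t => D.k t (((l⁻¹ : ℝ) : ℂ) * D.sig s) := continuous_k hne1
  have hbound : ‖∫ t in (0:ℝ)..(2*π), (g t - g s) * D.Pk l s t‖
      ≤ ∫ t in (0:ℝ)..(2*π), (ε' * (C * D.k t (((l⁻¹ : ℝ) : ℂ) * D.sig s))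
        + 2 * G * (8 * W * M / δ ^ 2 * (l - 1))) := by
    apply intervalIntegral.norm_integral_le_of_norm_le Real.two_pi_pos.le
    · refine Filter.Eventually.of_forall fun t _ => ?_
      rw [norm_mul]
      have hknn : 0 ≤ D.k t (((l⁻¹ : ℝ) : ℂ) * D.sig s) := D.k_nonneg (D.Om_subset_K hinvOm) t
      have hlnn : 0 ≤ l - 1 := by linarith only [hl]
      by_cases hcase : ‖D.sig s - D.sig t‖ < δ
      · have h1 : ‖g t - g s‖ ≤ ε' := by
          rw [norm_sub_rev]; exact (hgδ s t hcase).le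
        have h2 := norm_Pk_le hm0 hm hM0 hM s t hl hl2
        calc ‖g t - g s‖ * ‖D.Pk l s t‖
            ≤ ε' * (C * D.k t (((l⁻¹ : ℝ) : ℂ) * D.sig s)) :=
              mul_le_mul h1 h2 (norm_nonneg _) hε'0.le
          _ ≤ _ := by
              have : 0 ≤ 2 * G * (8 * W * M / δ ^ 2 * (l - 1)) := by positivity
              linarith only [this]
      · have h1 : ‖g t - g s‖ ≤ 2 * G := by
          refine (norm_sub_le _ _).trans ?_
          linarith only [hG t, hG s]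
        have h2 := norm_Pk_le_far hW hM0 hM hδ s t hl hlδ (not_lt.1 hcase)
        calc ‖g t - g s‖ * ‖D.Pk l s t‖ ≤ 2 * G * (8 * W * M / δ ^ 2 * (l - 1)) :=
              mul_le_mul h1 h2 (norm_nonneg _) (by (clear * - hG0; positivity))
          _ ≤ _ := by
              have : 0 ≤ ε' * (C * D.k t (((l⁻¹ : ℝ) : ℂ) * D.sig s)) := by (clear * - hε hW0 hM0 hm0 hknn; positivity)
              linarith only [this]
    · exact ((continuous_const.mul (continuous_const.mul hck)).add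
        continuous_const).intervalIntegrable _ _
  have hval : ∫ t in (0:ℝ)..(2*π), (ε' * (C * D.k t (((l⁻¹ : ℝ) : ℂ) * D.sig s))
        + 2 * G * (8 * W * M / δ ^ 2 * (l - 1)))
      = ε' * (C * 2) + 2 * π * (2 * G * (8 * W * M / δ ^ 2 * (l - 1))) := by
    have hi1 : IntervalIntegrable (fun t => ε' * (C * D.k t (((l⁻¹ : ℝ) : ℂ) * D.sig s)))
        volume 0 (2*π) := (continuous_const.mul (continuous_const.mul hck)).intervalIntegrable _ _
    rw [intervalIntegral.integral_add hi1 intervalIntegrable_const,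
      intervalIntegral.integral_const_mul,
      intervalIntegral.integral_const_mul, D.integral_k_of_mem_Om hinvOm,
      intervalIntegral.integral_const]
    simp only [smul_eq_mul, sub_zero]
  rw [hval] at hbound
  calc ‖D.w s‖ * ‖∫ t in (0:ℝ)..(2*π), (g t - g s) * D.Pk l s t‖
      ≤ W * (ε' * (C * 2) + 2 * π * (2 * G * (8 * W * M / δ ^ 2 * (l - 1)))) :=
        mul_le_mul (hW s) hbound (norm_nonneg _) hW0.le
    _ = ε / 2 + (l - 1) * c2 := by
        rw [hc2, hε']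
        field_simp
        ring
    _ ≤ ε := by linarith only [hlε]

end Dom
end Vale.Agent.P123
end
end

section

section

namespace Vale.Agent.P123
open Complex MeasureTheory Set Filter Topology Polynomial
open scoped Real ComplexConjugate

namespace Dom
variable {D : Dom}

theorem Eext_boundary {w0 : ℝ → ℝ} (hw : D.Equil w0) {ε : ℝ} (hε : 0 < ε) :
    ∃ l0 : ℝ, 1 < l0 ∧ ∀ l : ℝ, 1 < l → l < l0 → ∀ t : ℝ,
      ‖D.w t * D.Eext w0 ((l : ℂ) * D.sig t) - (w0 t : ℂ)‖ ≤ ε :=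
  Eext_boundary_of hw (fun _ hz => equil_inside hw hz) hε

end Dom
end Vale.Agent.P123
end
end

section

section

/-!
Pairings of the Cauchy density of an operator against the equilibrium density.
-/

namespace Vale.Agent.P123
open Complex MeasureTheory Set Filter Topology Polynomial
open scoped Real ComplexConjugate

namespace Dom
variable {D : Dom}

/-! W5 -/

theorem gap_le_of_not_mem_Om {z : ℂ} (hz : z ∉ D.Om) : ∃ t, D.gap z t ≤ 0 := by
  rw [mem_Om_iff] at hz
  push Not at hz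
  exact hz

theorem smul_sig_not_mem_Om (s : ℝ) {l : ℝ} (hl : 1 ≤ l) : (l : ℂ) * D.sig s ∉ D.Om := by
  intro h
  have h1 := (D.mem_Om_iff _).1 h s
  unfold gap at h1
  have h2 : (ee (-s) * ((l : ℂ) * D.sig s)).re = l * D.h s := by
    rw [show ee (-s) * ((l : ℂ) * D.sig s) = (l : ℂ) * (ee (-s) * D.sig s) by ring,
      Complex.re_ofReal_mul, D.re_ee_neg_mul_sig]
  rw [h2] at h1
  have := D.h_pos s
  nlinarith only [h1, hl, this]

theorem equil_limit {w0 : ℝ → ℝ} (hw : D.Equil w0) {F : ℂ → ℂ} {c : ℂ}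
    (hF : ∀ z, z ∉ D.Om → DifferentiableAt ℂ F z)
    (hlim : Tendsto (fun z => z ^ 2 * F z) (Bornology.cobounded ℂ) (𝓝 c)) :
    ∫ s in (0:ℝ)..(2*π), D.w s ^ 2 * F (D.sig s) / (w0 s : ℂ) = c := by
  -- the contour integral
  have hG : ∀ z, z ∉ D.K → DifferentiableAt ℂ (fun z => F z / D.Eext w0 z) z := fun z hz =>
    (hF z fun h => hz (D.Om_subset_K h)).div (Eext_differentiableAt hw hz) (Eext_ne_zero hw hz)
  have hc : Tendsto (fun z => z * (F z / D.Eext w0 z)) (Bornology.cobounded ℂ) (𝓝 c) := by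
    have h1 := hlim.div (Eext_tendsto hw) one_ne_zero
    rw [div_one] at h1
    refine h1.congr' ?_
    have hev : ∀ᶠ z in Bornology.cobounded ℂ, z ≠ (0:ℂ) := by
      have := (hasBasis_cobounded_norm (E := ℂ)).mem_of_mem (i := 1) trivial
      filter_upwards [this] with z hz h0
      rw [h0] at hz
      simp only [norm_zero] at hz
      linarith only [hz]
    filter_upwards [hev] with z hz
    by_cases hE : D.Eext w0 z = 0
    · simp [hE]
    · simp only [Pi.div_apply]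
      field_simp
  -- lower bound of the equilibrium density
  obtain ⟨c0, hc0, hc0'⟩ := periodic_lower_bound hw.cont hw.per hw.pos
  obtain ⟨l0, hl0, hl0'⟩ := Eext_boundary hw (half_pos hc0)
  -- bound of `F` on the annulus
  have hFcont : ContinuousOn (fun q : ℝ × ℝ => F ((q.1 : ℂ) * D.sig q.2))
      (Icc (1:ℝ) 2 ×ˢ Icc (0:ℝ) (2 * π)) := by
    intro q hq
    have h1 : ContinuousAt F ((q.1 : ℂ) * D.sig q.2) :=
      (hF _ (smul_sig_not_mem_Om q.2 hq.1.1)).continuousAt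
    have h2 : Continuous (fun q : ℝ × ℝ => (q.1 : ℂ) * D.sig q.2) :=
      (Complex.continuous_ofReal.comp continuous_fst).mul (D.continuous_sig.comp continuous_snd)
    exact (ContinuousAt.comp (f := fun q : ℝ × ℝ => (q.1 : ℂ) * D.sig q.2) h1
      h2.continuousAt).continuousWithinAt
  obtain ⟨M, hM⟩ := (isCompact_Icc.prod isCompact_Icc).exists_bound_of_continuousOn hFcont
  obtain ⟨W, hW⟩ := (isCompact_Icc (a := (0:ℝ)) (b := 2*π)).exists_bound_of_continuousOn
    D.continuous_w.continuousOn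
  have hW0 : 0 ≤ W := (norm_nonneg _).trans (hW 0 ⟨le_rfl, Real.two_pi_pos.le⟩)
  have hM0 : 0 ≤ M := (norm_nonneg _).trans (hM (1, 0) ⟨⟨le_rfl, one_le_two⟩,
    ⟨le_rfl, Real.two_pi_pos.le⟩⟩)
  -- the limit
  have hT : Tendsto (fun l : ℝ => ∫ s in (0:ℝ)..(2*π),
      (l : ℂ) * D.w s * (F ((l : ℂ) * D.sig s) / D.Eext w0 ((l : ℂ) * D.sig s))) (𝓝[>] (1:ℝ))
      (𝓝 (∫ s in (0:ℝ)..(2*π), D.w s ^ 2 * F (D.sig s) / (w0 s : ℂ))) := by
    apply intervalIntegral.tendsto_integral_filter_of_dominated_convergence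
      (fun _ => 2 * W ^ 2 * M / (c0 / 2))
    · filter_upwards [self_mem_nhdsWithin] with l hl
      have h1 : Continuous (fun s => F ((l : ℂ) * D.sig s) / D.Eext w0 ((l : ℂ) * D.sig s)) := by
        rw [continuous_iff_continuousAt]
        intro s
        have h2 : ContinuousAt (fun z => F z / D.Eext w0 z) ((l : ℂ) * D.sig s) :=
          (hG _ (smul_sig_not_mem_K s hl)).continuousAt
        exact ContinuousAt.comp (f := fun s => (l : ℂ) * D.sig s) h2
          (continuous_const.mul D.continuous_sig).continuousAt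
      exact ((continuous_const.mul D.continuous_w).mul h1).aestronglyMeasurable
    · filter_upwards [Ioo_mem_nhdsGT (lt_min hl0 one_lt_two)] with l hl
      refine Filter.Eventually.of_forall fun s hs => ?_
      rw [uIoc_of_le Real.two_pi_pos.le] at hs
      have hl1 : 1 < l := hl.1
      have h1 := hl0' l hl.1 (hl.2.trans_le (min_le_left _ _)) s
      have h2 : c0 / 2 ≤ ‖D.w s * D.Eext w0 ((l : ℂ) * D.sig s)‖ := by
        have h3 : c0 ≤ ‖((w0 s : ℝ) : ℂ)‖ := by
          rw [Complex.norm_real, Real.norm_of_nonneg (hw.pos s).le]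
          exact (hc0' s).le
        have h4 := norm_sub_norm_le ((w0 s : ℝ) : ℂ) (D.w s * D.Eext w0 ((l : ℂ) * D.sig s))
        rw [norm_sub_rev] at h1
        linarith only [h1, h3, h4]
      have h5 := hM (l, s) ⟨⟨hl1.le, (hl.2.trans_le (min_le_right _ _)).le⟩, ⟨hs.1.le, hs.2⟩⟩
      have h6 := hW s ⟨hs.1.le, hs.2⟩
      simp only at h5
      have hE : D.Eext w0 ((l : ℂ) * D.sig s) ≠ 0 := Eext_ne_zero hw (smul_sig_not_mem_K s hl1)
      have hws : D.w s ≠ 0 := by
        intro h0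
        rw [h0, zero_mul, norm_zero] at h2
        linarith only [hc0, h2]
      have h7 : (l : ℂ) * D.w s * (F ((l : ℂ) * D.sig s) / D.Eext w0 ((l : ℂ) * D.sig s)) =
          (l : ℂ) * D.w s ^ 2 * F ((l : ℂ) * D.sig s) / (D.w s * D.Eext w0 ((l : ℂ) * D.sig s)) := by
        field_simp
      rw [h7, norm_div, norm_mul, norm_mul, norm_pow, Complex.norm_real,
        Real.norm_of_nonneg (by linarith only [hl1])]
      have h8 : l ≤ 2 := (hl.2.trans_le (min_le_right _ _)).le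
      (clear * - hM0 h8 hws h6 h5 hc0 h2; gcongr)
    · exact intervalIntegrable_const
    · refine Filter.Eventually.of_forall fun s _ => ?_
      have hws : D.w s ≠ 0 := by
        unfold w
        have := D.R_pos s
        have h1 : ((D.R s : ℝ) : ℂ) ≠ 0 := by exact_mod_cast this.ne'
        exact div_ne_zero (mul_ne_zero h1 (ee_ne_zero s)) (mul_ne_zero two_ne_zero pi_ne_zero_C)
      have h0 : ((w0 s : ℝ) : ℂ) ≠ 0 := by exact_mod_cast (hw.pos s).ne'
      have t1 : Tendsto (fun l : ℝ => (l : ℂ)) (𝓝[>] (1:ℝ)) (𝓝 1) := by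
        have := (Complex.continuous_ofReal.tendsto (1:ℝ)).mono_left
          (nhdsWithin_le_nhds (s := Ioi (1:ℝ)))
        simpa only [ofReal_one] using this
      have t2 : Tendsto (fun l : ℝ => F ((l : ℂ) * D.sig s)) (𝓝[>] (1:ℝ)) (𝓝 (F (D.sig s))) := by
        have h1 : ContinuousAt F (D.sig s) := (hF _ (D.sig_not_mem_Om s)).continuousAt
        have h2 : Tendsto (fun l : ℝ => (l : ℂ) * D.sig s) (𝓝[>] (1:ℝ)) (𝓝 (D.sig s)) := by
          simpa only [one_mul] using t1.mul_const (D.sig s)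
        exact h1.tendsto.comp h2
      have t3 : Tendsto (fun l : ℝ => D.w s * D.Eext w0 ((l : ℂ) * D.sig s)) (𝓝[>] (1:ℝ))
          (𝓝 (w0 s : ℂ)) := by
        rw [Metric.tendsto_nhdsWithin_nhds]
        intro ε hε
        obtain ⟨l1, hl1, hl1'⟩ := Eext_boundary hw (half_pos hε)
        refine ⟨l1 - 1, sub_pos.2 hl1, fun {l} hl hd => ?_⟩
        rw [Real.dist_eq] at hd
        rw [dist_eq_norm]
        have hl' : 1 < l := hl
        have := hl1' l hl' (by rw [abs_lt] at hd; linarith only [hd]) s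
        linarith only [hε, this]
      have t4 := ((t1.mul_const (D.w s ^ 2)).mul t2).div t3 h0
      rw [one_mul] at t4
      refine t4.congr' ?_
      filter_upwards [self_mem_nhdsWithin] with l hl
      have hE : D.Eext w0 ((l : ℂ) * D.sig s) ≠ 0 := Eext_ne_zero hw (smul_sig_not_mem_K s hl)
      simp only [Pi.div_apply]
      (clear * - hE hws; field_simp)
  have hT' : Tendsto (fun l : ℝ => ∫ s in (0:ℝ)..(2*π),
      (l : ℂ) * D.w s * (F ((l : ℂ) * D.sig s) / D.Eext w0 ((l : ℂ) * D.sig s))) (𝓝[>] (1:ℝ))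
      (𝓝 c) := by
    refine tendsto_const_nhds.congr' ?_
    filter_upwards [self_mem_nhdsWithin] with l hl
    exact (contour hG hc hl).symm
  exact tendsto_nhds_unique hT hT'

section Hilbert
variable {H : Type*} [NormedAddCommGroup H] [InnerProductSpace ℂ H] [CompleteSpace H]

theorem Inside.isUnit_of_not_mem_Om {A : H →L[ℂ] H} {η : ℝ} (hA : D.Inside A η) {z : ℂ}
    (hz : z ∉ D.Om) : IsUnit (algebraMap ℂ (H →L[ℂ] H) z - A) := by
  obtain ⟨t, ht⟩ := gap_le_of_not_mem_Om hz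
  have hη : 0 < η := hA.1
  have hc : 0 < (⟨η, hη.le⟩ : NNReal) := hη
  refine ContinuousLinearMap.isUnit_of_forall_le_norm_inner_map _ hc fun x => ?_
  rw [norm_inner_symm]
  have h1 : (algebraMap ℂ (H →L[ℂ] H) z - A) x = z • x - A x := by
    simp only [Algebra.algebraMap_eq_smul_one, sub_apply, smul_apply, one_apply_eq_self]
  have h2 : (ee (-t) * inner ℂ x ((algebraMap ℂ (H →L[ℂ] H) z - A) x)).re ≤
      ‖inner ℂ x ((algebraMap ℂ (H →L[ℂ] H) z - A) x)‖ := by
    refine (Complex.re_le_norm _).trans ?_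
    rw [norm_mul, norm_ee, one_mul]
  have h3 : (ee (-t) * inner ℂ x ((algebraMap ℂ (H →L[ℂ] H) z - A) x)).re =
      (ee (-t) * z).re * ‖x‖ ^ 2 - (ee (-t) * inner ℂ x (A x)).re := by
    rw [h1, inner_sub_right, inner_smul_right, mul_sub, Complex.sub_re,
      inner_self_eq_norm_sq_to_K]
    simp only [coe_algebraMap]
    rw [← mul_assoc, ← Complex.ofReal_pow, Complex.re_mul_ofReal]
  have h4 := hA.2 t x
  unfold gap at ht
  have h5 : ‖x‖ ^ 2 * ((⟨η, hη.le⟩ : NNReal) : ℝ) = η * ‖x‖ ^ 2 := mul_comm _ _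
  rw [h3] at h2
  refine le_trans h5.le (le_trans ?_ h2)
  nlinarith only [h4, ht]

/-- matrix coefficient of the resolvent -/
noncomputable def Rf (A : H →L[ℂ] H) (y x : H) (z : ℂ) : ℂ := inner ℂ y (resolvent A z x)

theorem Rf_differentiableAt {A : H →L[ℂ] H} {η : ℝ} (hA : D.Inside A η) (y x : H) {z : ℂ}
    (hz : z ∉ D.Om) : DifferentiableAt ℂ (Rf A y x) z := by
  have h1 := (spectrum.hasDerivAt_resolvent_const_left
    (spectrum.mem_resolventSet_iff.2 (hA.isUnit_of_not_mem_Om hz))).differentiableAt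
  have h2 : DifferentiableAt ℂ (fun z => ((innerSL ℂ y).comp
      (ContinuousLinearMap.apply ℂ H x)) (resolvent A z)) z :=
    ((innerSL ℂ y).comp (ContinuousLinearMap.apply ℂ H x)).differentiableAt.comp z h1
  exact h2

theorem tendsto_mul_Rf (A : H →L[ℂ] H) (y x : H) :
    Tendsto (fun z => z * Rf A y x z) (Bornology.cobounded ℂ) (𝓝 (inner ℂ y x)) := by
  have h0 : Tendsto (resolvent A) (Bornology.cobounded ℂ) (𝓝 0) :=
    spectrum.resolvent_tendsto_cobounded A
  have h1 : Tendsto (fun z => inner ℂ y x + inner ℂ y (A (resolvent A z x)))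
      (Bornology.cobounded ℂ) (𝓝 (inner ℂ y x)) := by
    have h2 : Tendsto (fun z => ((innerSL ℂ y).comp (A.comp
      (ContinuousLinearMap.apply ℂ H x))) (resolvent A z)) (Bornology.cobounded ℂ) (𝓝 0) := by
      have := (((innerSL ℂ y).comp (A.comp
        (ContinuousLinearMap.apply ℂ H x))).continuous.tendsto 0).comp h0
      rw [map_zero] at this
      exact this
    have h3 := h2.const_add (inner ℂ y x)
    rw [add_zero] at h3
    exact h3
  refine h1.congr' ?_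
  have hev : ∀ᶠ z in Bornology.cobounded ℂ, ‖A‖ * ‖(1 : H →L[ℂ] H)‖ + 1 ≤ ‖z‖ :=
    (hasBasis_cobounded_norm (E := ℂ)).mem_of_mem (i := ‖A‖ * ‖(1 : H →L[ℂ] H)‖ + 1) trivial
  filter_upwards [hev] with z hz
  have hu : IsUnit (algebraMap ℂ (H →L[ℂ] H) z - A) :=
    spectrum.mem_resolventSet_iff.1 (spectrum.mem_resolventSet_of_norm_lt_mul (by linarith only [hz]))
  have h4 := Ring.mul_inverse_cancel _ hu
  have h5 : z • resolvent A z = 1 + A * resolvent A z := by
    unfold resolvent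
    rw [sub_mul, Algebra.algebraMap_eq_smul_one, smul_mul_assoc, one_mul] at h4
    rw [← Algebra.algebraMap_eq_smul_one] at h4
    rw [← h4]; abel
  have h6 : z * Rf A y x z = inner ℂ y ((z • resolvent A z) x) := by
    rw [smul_apply, inner_smul_right]; rfl
  rw [h6, h5, add_apply, inner_add_right]
  rfl

/-- matrix coefficient of the Cauchy density -/
noncomputable def X (D : Dom) (A : H →L[ℂ] H) (y x : H) (s : ℝ) : ℂ :=
  inner ℂ y (D.w s • (resolvent A (D.sig s) x))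

omit [CompleteSpace H] in
theorem X_eq (D : Dom) (A : H →L[ℂ] H) (y x : H) (s : ℝ) :
    D.X A y x s = D.w s * Rf A y x (D.sig s) := by
  unfold X Rf
  rw [inner_smul_right]

theorem pair_equil {A : H →L[ℂ] H} {η : ℝ} (hA : D.Inside A η) {w0 : ℝ → ℝ} (hw : D.Equil w0)
    (y x y' x' : H) :
    ∫ s in (0:ℝ)..(2*π), D.X A y x s * D.X A y' x' s / (w0 s : ℂ)
      = inner ℂ y x * inner ℂ y' x' := by
  have h1 := equil_limit hw (F := fun z => Rf A y x z * Rf A y' x' z)
    (c := inner ℂ y x * inner ℂ y' x')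
    (fun z hz => (Rf_differentiableAt hA y x hz).mul (Rf_differentiableAt hA y' x' hz)) ?_
  · rw [← h1]
    congr 1
    funext s
    rw [X_eq, X_eq]
    ring
  · refine ((tendsto_mul_Rf A y x).mul (tendsto_mul_Rf A y' x')).congr fun z => ?_
    ring

theorem Cin_X {A : H →L[ℂ] H} {η : ℝ} (hA : D.Inside A η) {w0 : ℝ → ℝ} (hw : D.Equil w0)
    (y x : H) {z : ℂ} (hz : z ∈ D.Om) :
    D.Cin (fun s => D.X A y x s / (w0 s : ℂ)) z = inner ℂ y x := by
  have h1 := equil_limit hw (F := fun u => Rf A y x u * (u - z)⁻¹)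
    (c := inner ℂ y x) (fun u hu => ?_) ?_
  · rw [← h1]
    unfold Cin
    congr 1
    funext s
    simp only
    rw [X_eq, N_eq, div_eq_mul_inv (D.w s)]
    ring
  · refine (Rf_differentiableAt hA y x hu).mul ?_
    have hne : u - z ≠ 0 := by
      intro h0
      rw [sub_eq_zero] at h0
      exact hu (h0 ▸ hz)
    exact (differentiableAt_id.sub_const z).inv hne
  · have h2 : Tendsto (fun u : ℂ => 1 + z * (u - z)⁻¹) (Bornology.cobounded ℂ) (𝓝 1) := by
      have h3 : Tendsto (fun u : ℂ => (u - z)⁻¹) (Bornology.cobounded ℂ) (𝓝 0) := by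
        refine tendsto_inv₀_cobounded.comp ?_
        exact tendsto_sub_const_cobounded z
      have h4 := (h3.const_mul z).const_add 1
      rw [mul_zero, add_zero] at h4
      exact h4
    have h5 := (tendsto_mul_Rf A y x).mul h2
    rw [mul_one] at h5
    refine h5.congr' ?_
    have hev : ∀ᶠ u in Bornology.cobounded ℂ, ‖z‖ + 1 ≤ ‖u‖ :=
      (hasBasis_cobounded_norm (E := ℂ)).mem_of_mem (i := ‖z‖ + 1) trivial
    filter_upwards [hev] with u hu
    have hne : u - z ≠ 0 := by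
      intro h0
      rw [sub_eq_zero] at h0
      rw [h0] at hu
      linarith only [hu]
    field_simp
    ring

end Hilbert

end Dom
end Vale.Agent.P123
end
end

section

section

namespace Vale.Agent.P123
open Complex MeasureTheory Set Filter Topology Polynomial
open scoped Real ComplexConjugate

namespace Dom
variable {D : Dom}

section jensen

variable {w0 : ℝ → ℝ}

theorem Dc_ofReal {g : ℝ → ℝ} (t : ℝ) :
    D.Dc (fun s => (g s : ℂ)) t = (D.Dr g t : ℂ) := by
  unfold Dc Dr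
  rw [← intervalIntegral.integral_ofReal]
  congr 1; ext1 s; push_cast; ring

theorem Equil.inv_real (hw : D.Equil w0) {g : ℝ → ℝ} (hg : Continuous g)
    (hper : ∀ s, g (s + 2 * π) = g s) :
    ∫ t in (0:ℝ)..(2*π), D.Dr g t * w0 t = ∫ t in (0:ℝ)..(2*π), g t * w0 t := by
  have h := hw.inv (fun s => (g s : ℂ)) (Complex.continuous_ofReal.comp hg)
    (fun s => by rw [hper])
  simp_rw [Dc_ofReal] at h
  have e1 : ∫ t in (0:ℝ)..(2*π), (D.Dr g t : ℂ) * (w0 t : ℂ)
      = ((∫ t in (0:ℝ)..(2*π), D.Dr g t * w0 t : ℝ) : ℂ) := by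
    rw [← intervalIntegral.integral_ofReal]; congr 1; ext1 t; push_cast; ring
  have e2 : ∫ t in (0:ℝ)..(2*π), (g t : ℂ) * (w0 t : ℂ)
      = ((∫ t in (0:ℝ)..(2*π), g t * w0 t : ℝ) : ℂ) := by
    rw [← intervalIntegral.integral_ofReal]; congr 1; ext1 t; push_cast; ring
  rw [e1, e2] at h
  exact_mod_cast h

theorem norm_sq_Dc_le {φ : ℝ → ℂ} (hφ : Continuous φ) (t : ℝ) :
    ‖D.Dc φ t‖ ^ 2 ≤ D.Dr (fun s => ‖φ s‖ ^ 2) t := by
  set c := D.Dc φ t with hc
  have hk := D.intervalIntegrable_k_sig t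
  have h0 : 0 ≤ ∫ s in (0:ℝ)..(2*π), ‖φ s - c‖ ^ 2 * D.k s (D.sig t) := by
    apply intervalIntegral.integral_nonneg (by positivity)
    intro s _
    have := D.k_nonneg (D.sig_mem_K t) s
    (clear * - this; positivity)
  have e1 : ∀ s, ‖φ s - c‖ ^ 2 * D.k s (D.sig t) = ‖φ s‖ ^ 2 * D.k s (D.sig t)
      + ‖c‖ ^ 2 * D.k s (D.sig t) - 2 * (conj c * (φ s * (D.k s (D.sig t) : ℂ))).re := by
    intro s
    have : ‖φ s - c‖ ^ 2 = ‖φ s‖ ^ 2 + ‖c‖ ^ 2 - 2 * (conj c * φ s).re := by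
      rw [← Complex.normSq_eq_norm_sq, ← Complex.normSq_eq_norm_sq, ← Complex.normSq_eq_norm_sq,
        Complex.normSq_sub]
      congr 2
      simp only [Complex.mul_re, Complex.conj_re, Complex.conj_im]; ring
    rw [this, ← mul_assoc, Complex.re_mul_ofReal]; ring
  have hi1 : IntervalIntegrable (fun s => ‖φ s‖ ^ 2 * D.k s (D.sig t)) volume 0 (2*π) :=
    D.intervalIntegrable_mul_k (hφ.norm.pow 2) t 0 (2*π)
  have hi2 : IntervalIntegrable (fun s => ‖c‖ ^ 2 * D.k s (D.sig t)) volume 0 (2*π) :=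
    hk.const_mul _
  have hi3 : IntervalIntegrable (fun s => φ s * (D.k s (D.sig t) : ℂ)) volume 0 (2*π) :=
    (D.intervalIntegrable_k_sig_ofReal t).continuousOn_mul hφ.continuousOn
  have hi4 : IntervalIntegrable (fun s => conj c * (φ s * (D.k s (D.sig t) : ℂ))) volume
      0 (2*π) := hi3.const_mul _
  have h4 := Complex.reCLM.intervalIntegral_comp_comm hi4
  simp only [Complex.reCLM_apply] at h4
  have hi5 : IntervalIntegrable (fun s => (conj c * (φ s * (D.k s (D.sig t) : ℂ))).re) volume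
      0 (2*π) := by
    refine ⟨hi4.1.re, hi4.2.re⟩
  simp_rw [e1] at h0
  rw [intervalIntegral.integral_sub (hi1.add hi2) (hi5.const_mul 2),
    intervalIntegral.integral_add hi1 hi2, intervalIntegral.integral_const_mul,
    intervalIntegral.integral_const_mul, h4, intervalIntegral.integral_const_mul,
    D.integral_k_sig] at h0
  have e2 : (∫ s in (0:ℝ)..(2*π), φ s * (D.k s (D.sig t) : ℂ)) = c := rfl
  rw [e2] at h0
  have e3 : (conj c * c).re = ‖c‖ ^ 2 := by
    rw [mul_comm, Complex.mul_conj, Complex.ofReal_re, Complex.normSq_eq_norm_sq]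
  rw [e3] at h0
  have e4 : D.Dr (fun s => ‖φ s‖ ^ 2) t = ∫ s in (0:ℝ)..(2*π), ‖φ s‖ ^ 2 * D.k s (D.sig t) := rfl
  rw [e4]
  linarith only [h0]

/-- the double layer operator is a contraction of `L²(w0)` -/
theorem Equil.contraction (hw : D.Equil w0) {φ : ℝ → ℂ} (hφ : Continuous φ)
    (hper : ∀ s, φ (s + 2 * π) = φ s) :
    ∫ t in (0:ℝ)..(2*π), ‖D.Dc φ t‖ ^ 2 * w0 t ≤ ∫ t in (0:ℝ)..(2*π), ‖φ t‖ ^ 2 * w0 t := by
  have hg : Continuous fun s => ‖φ s‖ ^ 2 := hφ.norm.pow 2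
  have hgp : ∀ s, (fun s => ‖φ s‖ ^ 2) (s + 2 * π) = (fun s => ‖φ s‖ ^ 2) s := by
    intro s; simp only; rw [hper]
  rw [← hw.inv_real hg hgp]
  apply intervalIntegral.integral_mono_on (by positivity)
  · exact (((D.continuous_Dc hφ hper).norm.pow 2).mul hw.cont).intervalIntegrable _ _
  · exact ((D.continuous_Dr hg hgp).mul hw.cont).intervalIntegrable _ _
  · intro t _
    exact mul_le_mul_of_nonneg_right (norm_sq_Dc_le hφ t) (hw.pos t).le

end jensen

variable {H : Type*} [NormedAddCommGroup H] [InnerProductSpace ℂ H] [CompleteSpace H]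

theorem continuous_X {A : H →L[ℂ] H} {η : ℝ} (hA : D.Inside A η) (y x : H) :
    Continuous (D.X A y x) := by
  unfold X
  have h1 := D.continuous_w
  have h2 := hA.res.continuous_resolvent
  exact continuous_const.inner (h1.smul (h2.clm_apply continuous_const))

omit [CompleteSpace H] in
theorem X_periodic (A : H →L[ℂ] H) (y x : H) (s : ℝ) : D.X A y x (s + 2 * π) = D.X A y x s := by
  unfold X
  rw [w_periodic, D.sig_periodic]

theorem S_integral_X {A : H →L[ℂ] H} {η : ℝ} (hA : D.Inside A η)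
    {f : C(D.K, ℂ) × (H →L[ℂ] H)} (hf : f ∈ D.S A) (y x : H) :
    ∫ s in (0:ℝ)..(2*π), f.1 (D.bd s) * D.X A y x s = inner ℂ y (f.2 x) := by
  have h1 := D.continuous_w
  have h2 := hA.res.continuous_resolvent
  have hf1 : Continuous fun s => f.1 (D.bd s) := f.1.continuous.comp D.continuous_bd
  have hc : Continuous fun s => f.1 (D.bd s) • (D.w s • resolvent A (D.sig s)) :=
    hf1.smul (h1.smul h2)
  rw [← S_integral_resolvent hA hf, inner_integral hc]
  congr 1; ext1 s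
  rw [smul_apply, inner_smul_right, X, smul_apply]

theorem integral_mul_X {A : H →L[ℂ] H} {η : ℝ} (hA : D.Inside A η)
    {φ : ℝ → ℂ} (hφ : Continuous φ) (y x : H) :
    inner ℂ y ((∫ s in (0:ℝ)..(2*π), φ s • (D.w s • resolvent A (D.sig s))) x)
      = ∫ s in (0:ℝ)..(2*π), φ s * D.X A y x s := by
  have h1 := D.continuous_w
  have h2 := hA.res.continuous_resolvent
  have hc : Continuous fun s => φ s • (D.w s • resolvent A (D.sig s)) :=
    hφ.smul (h1.smul h2)
  rw [inner_integral hc]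
  congr 1; ext1 s
  rw [smul_apply, inner_smul_right, X, smul_apply]

omit [CompleteSpace H] in
theorem S_commute {A : H →L[ℂ] H} {f : C(D.K, ℂ) × (H →L[ℂ] H)} (hf : f ∈ D.S A) :
    f.2 * A = A * f.2 := by
  refine S_induction A (p := fun f => f.2 * A = A * f.2) ?_ ?_ hf
  · exact isClosed_eq (continuous_snd.mul continuous_const) (continuous_const.mul continuous_snd)
  · intro P
    rw [aeval_pr_snd]
    have h : aeval A (P * Polynomial.X) = aeval A (Polynomial.X * P) := by rw [mul_comm]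
    simpa only [map_mul, aeval_X] using h

theorem S_commute_resolvent {A : H →L[ℂ] H} {η : ℝ} (hA : D.Inside A η)
    {f : C(D.K, ℂ) × (H →L[ℂ] H)} (hf : f ∈ D.S A) (s : ℝ) :
    f.2 * resolvent A (D.sig s) = resolvent A (D.sig s) * f.2 := by
  have hu := hA.res.isUnit s
  obtain ⟨u, hu'⟩ := hu
  have h1 : f.2 * (u : H →L[ℂ] H) = (u : H →L[ℂ] H) * f.2 := by
    rw [hu', mul_sub, sub_mul, S_commute hf, (Algebra.commutes (D.sig s) f.2)]
  have h2 : resolvent A (D.sig s) = ((u⁻¹ : (H →L[ℂ] H)ˣ) : H →L[ℂ] H) := by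
    unfold resolvent
    rw [← hu', Ring.inverse_unit]
  rw [h2]
  have h3 : Commute f.2 (u : H →L[ℂ] H) := h1
  exact (h3.units_inv_right).eq

theorem X_swap {A : H →L[ℂ] H} {η : ℝ} (hA : D.Inside A η)
    {f : C(D.K, ℂ) × (H →L[ℂ] H)} (hf : f ∈ D.S A) (y x : H) (s : ℝ) :
    D.X A y (f.2 x) s = D.X A (ContinuousLinearMap.adjoint f.2 y) x s := by
  unfold X
  have h1 := S_commute_resolvent hA hf s
  have h2 : resolvent A (D.sig s) (f.2 x) = f.2 (resolvent A (D.sig s) x) := by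
    have := congrArg (fun (B : H →L[ℂ] H) => B x) h1
    exact this.symm
  rw [h2, inner_smul_right, inner_smul_right, ContinuousLinearMap.adjoint_inner_left]

theorem inner_M_X (A : H →L[ℂ] H) (y x : H) (s : ℝ) :
    inner ℂ y (D.M A s x) = D.X A y x s + conj (D.X A x y s) := by
  rw [M, add_apply, inner_add_right, X, X, ContinuousLinearMap.star_eq_adjoint,
    ContinuousLinearMap.adjoint_inner_right, inner_conj_symm, smul_apply, smul_apply]

section main

variable {A : H →L[ℂ] H} {η : ℝ} {w0 : ℝ → ℝ}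

/-- normalized density -/
noncomputable def xi (D : Dom) (A : H →L[ℂ] H) (w0 : ℝ → ℝ) (x : H) (s : ℝ) : ℂ :=
  D.X A x x s / (w0 s : ℂ)

theorem Equil.ne_zero (hw : D.Equil w0) (s : ℝ) : (w0 s : ℂ) ≠ 0 := by
  exact_mod_cast (hw.pos s).ne'

theorem Equil.cont_ofReal (hw : D.Equil w0) : Continuous fun s => (w0 s : ℂ) :=
  Complex.continuous_ofReal.comp hw.cont

theorem continuous_xi (hA : D.Inside A η) (hw : D.Equil w0) (x : H) :
    Continuous (D.xi A w0 x) := by
  unfold xi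
  exact (continuous_X hA x x).div hw.cont_ofReal hw.ne_zero

omit [CompleteSpace H] in
theorem xi_periodic (hw : D.Equil w0) (x : H) (s : ℝ) :
    D.xi A w0 x (s + 2 * π) = D.xi A w0 x s := by
  unfold xi
  rw [X_periodic, hw.per]

omit [CompleteSpace H] in
theorem xi_mul (hw : D.Equil w0) (x : H) (s : ℝ) :
    D.xi A w0 x s * (w0 s : ℂ) = D.X A x x s := by
  unfold xi
  exact div_mul_cancel₀ _ (hw.ne_zero s)

/-- squared norm of the normalized density -/
noncomputable def nsq (D : Dom) (A : H →L[ℂ] H) (w0 : ℝ → ℝ) (x : H) : ℝ :=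
  ∫ s in (0:ℝ)..(2*π), ‖D.xi A w0 x s‖ ^ 2 * w0 s

omit [CompleteSpace H] in
theorem nsq_nonneg (hw : D.Equil w0) (x : H) : 0 ≤ D.nsq A w0 x := by
  unfold nsq
  apply intervalIntegral.integral_nonneg (by positivity)
  intro s _
  have := (hw.pos s).le
  positivity

/-- linearity of the integral for continuous functions -/
theorem integral_add_sub {a b c : ℝ → ℝ} (ha : Continuous a) (hb : Continuous b)
    (hc : Continuous c) (u v : ℝ) :
    ∫ t in u..v, (a t + b t - c t) = (∫ t in u..v, a t) + (∫ t in u..v, b t)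
      - ∫ t in u..v, c t := by
  have hab : Continuous fun t => a t + b t := ha.add hb
  rw [intervalIntegral.integral_sub (hab.intervalIntegrable _ _) (hc.intervalIntegrable _ _),
    intervalIntegral.integral_add (ha.intervalIntegrable _ _) (hb.intervalIntegrable _ _)]

theorem integral_re {f : ℝ → ℂ} (hf : Continuous f) (u v : ℝ) :
    ∫ t in u..v, (f t).re = (∫ t in u..v, f t).re := by
  have hre := Complex.reCLM.intervalIntegral_comp_comm
    (hf.intervalIntegrable (μ := volume) u v)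
  simpa only [Complex.reCLM_apply] using hre

/-- the test element -/
theorem exists_q (hA : D.Inside A η) (hw : D.Equil w0) {x : H} (hx : ‖x‖ = 1) :
    ∃ q ∈ D.S A,
      inner ℂ x (q.2 x) = (((1 + D.nsq A w0 x) / 2 : ℝ) : ℂ) ∧
      ∫ t in (0:ℝ)..(2*π), ‖q.1 (D.bd t)‖ ^ 2 * w0 t ≤ (1 + D.nsq A w0 x) / 2 := by
  have hxi := continuous_xi hA hw x
  have hxip := xi_periodic (A := A) hw x
  set φ : ℝ → ℂ := fun s => conj (D.xi A w0 x s) with hφ
  have hφc : Continuous φ := Complex.continuous_conj.comp hxi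
  have hφp : ∀ s, φ (s + 2 * π) = φ s := by intro s; simp only [hφ]; rw [hxip]
  have hxx : inner ℂ x x = (1 : ℂ) := by
    rw [inner_self_eq_norm_sq_to_K, hx]; simp
  have hV : ∀ z ∈ D.Om, D.Cin (fun s => conj (φ s)) z = 1 := by
    intro z hz
    have := Cin_X hA hw x x hz
    rw [hxx] at this
    rw [← this]
    congr 1
    funext s
    simp only [hφ, Complex.conj_conj]
    rfl
  obtain ⟨y, hyS, hyb, hy2⟩ := S_cauchy' hA hφc hφp hV
  set q : C(D.K, ℂ) × (H →L[ℂ] H) := (2⁻¹ : ℂ) • ((1 : C(D.K, ℂ) × (H →L[ℂ] H)) + y) with hqdef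
  have hq : q ∈ D.S A := Subalgebra.smul_mem _ (add_mem (one_mem _) hyS) _
  have hone : (1 : H →L[ℂ] H) x = x := rfl
  have hL : inner ℂ x (q.2 x) = (((1 + D.nsq A w0 x) / 2 : ℝ) : ℂ) := by
    have e1 : ∫ s in (0:ℝ)..(2*π), φ s * D.X A x x s = (D.nsq A w0 x : ℂ) := by
      unfold nsq
      rw [← intervalIntegral.integral_ofReal]
      congr 1; ext1 s
      rw [← xi_mul hw x s, ← mul_assoc]
      simp only [hφ]
      rw [mul_comm (conj _), Complex.mul_conj, Complex.normSq_eq_norm_sq]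
      push_cast; ring
    rw [hqdef, Prod.smul_snd, Prod.snd_add, Prod.snd_one, smul_apply, add_apply,
      inner_smul_right, inner_add_right, hone, hxx, hy2, integral_mul_X hA hφc, e1]
    push_cast; ring
  refine ⟨q, hq, hL, ?_⟩
  have hqb : ∀ t, q.1 (D.bd t) = 2⁻¹ * (φ t + D.Dc φ t) := by
    intro t
    rw [hqdef, Prod.smul_fst, Prod.fst_add, Prod.fst_one, ContinuousMap.smul_apply,
      ContinuousMap.add_apply, ContinuousMap.one_apply, hyb t, smul_eq_mul, map_one]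
    ring
  have hqc : Continuous fun t => q.1 (D.bd t) := q.1.continuous.comp D.continuous_bd
  have hcon := hw.contraction hφc hφp
  have hnφ : ∫ t in (0:ℝ)..(2*π), ‖φ t‖ ^ 2 * w0 t = D.nsq A w0 x := by
    unfold nsq
    congr 1; ext1 t
    simp only [hφ, RCLike.norm_conj]
  have e1 : ∀ t, ‖D.Dc φ t‖ ^ 2 * w0 t = 4 * (‖q.1 (D.bd t)‖ ^ 2 * w0 t) + ‖φ t‖ ^ 2 * w0 t
      - 4 * (q.1 (D.bd t) * D.X A x x t).re := by
    intro t
    have h1 : D.Dc φ t = 2 * q.1 (D.bd t) - φ t := by rw [hqb t]; ring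
    have h2 : ‖D.Dc φ t‖ ^ 2 = 4 * ‖q.1 (D.bd t)‖ ^ 2 + ‖φ t‖ ^ 2
        - 4 * (q.1 (D.bd t) * conj (φ t)).re := by
      rw [h1, ← Complex.normSq_eq_norm_sq, ← Complex.normSq_eq_norm_sq,
        ← Complex.normSq_eq_norm_sq, Complex.normSq_sub, Complex.normSq_mul]
      have : Complex.normSq 2 = 4 := by norm_num [Complex.normSq_apply]
      rw [this, mul_assoc 2 (q.1 (D.bd t))]
      have h3 : (2 * (q.1 (D.bd t) * conj (φ t))).re = 2 * (q.1 (D.bd t) * conj (φ t)).re := by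
        simp only [mul_re, re_ofNat, conj_re, conj_im, mul_neg, sub_neg_eq_add, im_ofNat, mul_im, zero_mul, sub_zero]
      rw [h3]; ring
    have h4 : (q.1 (D.bd t) * D.X A x x t).re = (q.1 (D.bd t) * conj (φ t)).re * w0 t := by
      rw [← xi_mul hw x t, ← mul_assoc, Complex.re_mul_ofReal]
      simp only [hφ, Complex.conj_conj]
    rw [h2, h4]; ring
  have hX := continuous_X hA x x
  have hi1 : Continuous fun t => 4 * (‖q.1 (D.bd t)‖ ^ 2 * w0 t) :=
    continuous_const.mul ((hqc.norm.pow 2).mul hw.cont)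
  have hi2 : Continuous fun t => ‖φ t‖ ^ 2 * w0 t := (hφc.norm.pow 2).mul hw.cont
  have hi3 : Continuous fun t => q.1 (D.bd t) * D.X A x x t := hqc.mul hX
  have hi4 : Continuous fun t => 4 * (q.1 (D.bd t) * D.X A x x t).re :=
    continuous_const.mul (Complex.continuous_re.comp hi3)
  simp_rw [e1] at hcon
  rw [integral_add_sub hi1 hi2 hi4, intervalIntegral.integral_const_mul,
    intervalIntegral.integral_const_mul, integral_re hi3, S_integral_X hA hq x x, hL, hnφ,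
    Complex.ofReal_re] at hcon
  linarith only [hcon]

/-- pointwise Cauchy-Schwarz and orthogonality -/
theorem X_norm_bound (hA : D.Inside A η) (hw : D.Equil w0) {x y : H} (hx : ‖x‖ = 1)
    (hxy : ∀ s, D.X A y y s = D.X A x x s) :
    ∫ s in (0:ℝ)..(2*π), ‖D.X A y x s‖ ^ 2 / w0 s ≤ 2 + 2 * D.nsq A w0 x := by
  have hXyx := continuous_X hA y x
  have hXxy := continuous_X hA x y
  have hXxx := continuous_X hA x x
  have hw0 : ∀ s, w0 s ≠ 0 := fun s => (hw.pos s).ne'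
  have hxx : inner ℂ x x = (1 : ℂ) := by
    rw [inner_self_eq_norm_sq_to_K, hx]; simp only [coe_algebraMap, ofReal_one, one_pow]
  -- pointwise bound
  have hpt : ∀ s, ‖D.X A y x s + conj (D.X A x y s)‖ ≤ 2 * (D.X A x x s).re := by
    intro s
    have h1 := norm_inner_M_le hA s y x
    rw [inner_M_X, inner_M_X, inner_M_X, hxy s] at h1
    simp only [Complex.add_re, Complex.conj_re] at h1
    linarith only [h1]
  have hsq : ∀ s, (‖D.X A y x s‖ ^ 2 / w0 s + ‖D.X A x y s‖ ^ 2 / w0 s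
      - (-2) * (D.X A y x s * D.X A x y s / (w0 s : ℂ)).re)
      ≤ (‖D.X A x x s‖ ^ 2 / w0 s + ‖D.X A x x s‖ ^ 2 / w0 s
      - (-2) * (D.X A x x s * D.X A x x s / (w0 s : ℂ)).re) := by
    intro s
    have hp := hw.pos s
    have h1 := hpt s
    have h2 : ‖D.X A y x s + conj (D.X A x y s)‖ ^ 2 ≤ (2 * (D.X A x x s).re) ^ 2 := by
      (clear * - h1; gcongr)
    have h3 : ‖D.X A y x s + conj (D.X A x y s)‖ ^ 2 = ‖D.X A y x s‖ ^ 2 + ‖D.X A x y s‖ ^ 2
        + 2 * (D.X A y x s * D.X A x y s).re := by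
      rw [← Complex.normSq_eq_norm_sq, ← Complex.normSq_eq_norm_sq,
        ← Complex.normSq_eq_norm_sq, Complex.normSq_add, Complex.conj_conj, Complex.normSq_conj]
    have h4 : (2 * (D.X A x x s).re) ^ 2 = ‖D.X A x x s‖ ^ 2 + ‖D.X A x x s‖ ^ 2
        + 2 * (D.X A x x s * D.X A x x s).re := by
      rw [← Complex.normSq_eq_norm_sq, Complex.normSq_apply, Complex.mul_re]; ring
    have h5 : ∀ z : ℂ, (z / (w0 s : ℂ)).re = z.re / w0 s := fun z => by
      rw [Complex.div_ofReal_re]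
    rw [h5, h5]
    have e : ∀ a b c : ℝ, a / w0 s + b / w0 s - (-2) * (c / w0 s) = (a + b + 2 * c) / w0 s := by
      intro a b c; ring
    rw [e, e]
    apply div_le_div_of_nonneg_right _ hp.le
    rw [← h3, ← h4]; exact h2
  have hc : ∀ {u v : H}, Continuous fun s => D.X A u v s * D.X A v u s / (w0 s : ℂ) :=
    fun {u v} => ((continuous_X hA u v).mul (continuous_X hA v u)).div hw.cont_ofReal hw.ne_zero
  have hn : ∀ u v : H, Continuous fun s => ‖D.X A u v s‖ ^ 2 / w0 s :=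
    fun u v => ((continuous_X hA u v).norm.pow 2).div hw.cont hw0
  have hr : ∀ u v : H, Continuous fun s =>
      (-2) * (D.X A u v s * D.X A v u s / (w0 s : ℂ)).re :=
    fun u v => continuous_const.mul (Complex.continuous_re.comp hc)
  have hint : ∀ u v : H, ∫ s in (0:ℝ)..(2*π),
      (‖D.X A u v s‖ ^ 2 / w0 s + ‖D.X A v u s‖ ^ 2 / w0 s
      - (-2) * (D.X A u v s * D.X A v u s / (w0 s : ℂ)).re)
      = (∫ s in (0:ℝ)..(2*π), ‖D.X A u v s‖ ^ 2 / w0 s)
        + (∫ s in (0:ℝ)..(2*π), ‖D.X A v u s‖ ^ 2 / w0 s)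
        + 2 * (inner ℂ u v * inner ℂ v u).re := by
    intro u v
    rw [integral_add_sub (hn u v) (hn v u) (hr u v), intervalIntegral.integral_const_mul,
      integral_re hc, pair_equil hA hw]
    ring
  have hmono : ∫ s in (0:ℝ)..(2*π), (‖D.X A y x s‖ ^ 2 / w0 s + ‖D.X A x y s‖ ^ 2 / w0 s
      - (-2) * (D.X A y x s * D.X A x y s / (w0 s : ℂ)).re)
      ≤ ∫ s in (0:ℝ)..(2*π), (‖D.X A x x s‖ ^ 2 / w0 s + ‖D.X A x x s‖ ^ 2 / w0 s
      - (-2) * (D.X A x x s * D.X A x x s / (w0 s : ℂ)).re) := by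
    apply intervalIntegral.integral_mono_on (by positivity)
    · exact (((hn y x).add (hn x y)).sub (hr y x)).intervalIntegrable _ _
    · exact (((hn x x).add (hn x x)).sub (hr x x)).intervalIntegrable _ _
    · intro s _
      exact hsq s
  rw [hint y x, hint x x, hxx] at hmono
  have hnn : ∫ s in (0:ℝ)..(2*π), ‖D.X A x x s‖ ^ 2 / w0 s = D.nsq A w0 x := by
    unfold nsq
    congr 1; ext1 s
    unfold xi
    rw [norm_div, Complex.norm_real, Real.norm_of_nonneg (hw.pos s).le, div_pow]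
    have := hw0 s
    (clear * - this; field_simp)
  have h6 : 0 ≤ (inner ℂ y x * inner ℂ x y : ℂ).re := by
    rw [← inner_conj_symm x y, Complex.mul_conj, Complex.ofReal_re]
    exact Complex.normSq_nonneg _
  have h7 : 0 ≤ ∫ s in (0:ℝ)..(2*π), ‖D.X A x y s‖ ^ 2 / w0 s := by
    apply intervalIntegral.integral_nonneg (by positivity)
    intro s _
    have := (hw.pos s).le
    (clear * - this; positivity)
  rw [hnn] at hmono
  have h8 : ((1 : ℂ) * 1).re = 1 := by simp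
  rw [h8] at hmono
  linarith only [hmono, h6, h7]

/-- The bound `2` for exact singular pairs. -/
theorem crouzeix_dom' (hA : D.Inside A η) (hw : D.Equil w0)
    {f : C(D.K, ℂ) × (H →L[ℂ] H)} (hf : f ∈ D.S A) {m : ℝ} (hm : ∀ z, ‖f.1 z‖ ≤ m)
    {κ : ℝ} (hκ : 0 < κ) {x y : H} (hx : ‖x‖ = 1)
    (hfx : f.2 x = (κ : ℂ) • y) (hfy : ContinuousLinearMap.adjoint f.2 y = (κ : ℂ) • x) :
    κ ≤ 2 * m := by
  have hκ0 : (κ : ℂ) ≠ 0 := by exact_mod_cast hκ.ne'
  have hxy : ∀ s, D.X A y y s = D.X A x x s := by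
    intro s
    have h1 := X_swap hA hf y x s
    rw [hfx, hfy] at h1
    have h2 : D.X A y ((κ : ℂ) • y) s = (κ : ℂ) * D.X A y y s := by
      unfold X
      rw [map_smul, smul_comm, inner_smul_right]
    have h3 : D.X A ((κ : ℂ) • x) x s = (κ : ℂ) * D.X A x x s := by
      unfold X
      rw [inner_smul_left, Complex.conj_ofReal]
    rw [h2, h3] at h1
    exact mul_left_cancel₀ hκ0 h1
  obtain ⟨q, hq, hL, hq2⟩ := exists_q hA hw hx
  have hXb := X_norm_bound hA hw hx hxy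
  set n2 := D.nsq A w0 x with hn2
  have hn0 : 0 ≤ n2 := nsq_nonneg hw x
  have hfq : (f.1 * q.1, f.2 * q.2) ∈ D.S A := mul_mem_S hf hq
  have h1 := S_integral_X hA hfq y x
  have h2 : inner ℂ y ((f.2 * q.2) x) = (κ : ℂ) * (((1 + n2) / 2 : ℝ) : ℂ) := by
    have : (f.2 * q.2) x = f.2 (q.2 x) := rfl
    rw [this, ← ContinuousLinearMap.adjoint_inner_left, hfy, inner_smul_left,
      Complex.conj_ofReal, hL]
  have h3 : ‖∫ s in (0:ℝ)..(2*π), (f.1 * q.1) (D.bd s) * D.X A y x s‖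
      ≤ ∫ s in (0:ℝ)..(2*π), m * (‖q.1 (D.bd s)‖ ^ 2 * w0 s + 4⁻¹ * (‖D.X A y x s‖ ^ 2 / w0 s)
        - 0) := by
    have hm0 : 0 ≤ m := (norm_nonneg _).trans (hm (D.bd 0))
    apply intervalIntegral.norm_integral_le_of_norm_le (by positivity)
    · refine Filter.Eventually.of_forall fun s _ => ?_
      rw [ContinuousMap.mul_apply, norm_mul, norm_mul, sub_zero, mul_assoc]
      apply mul_le_mul (hm _) _ (by (clear * -; positivity)) hm0
      have hp := hw.pos s
      have h4 : 0 ≤ (‖q.1 (D.bd s)‖ * w0 s - ‖D.X A y x s‖ / 2) ^ 2 / w0 s := by (clear * - hp; positivity)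
      have h5 : (‖q.1 (D.bd s)‖ * w0 s - ‖D.X A y x s‖ / 2) ^ 2 / w0 s
          = ‖q.1 (D.bd s)‖ ^ 2 * w0 s + 4⁻¹ * (‖D.X A y x s‖ ^ 2 / w0 s)
            - ‖q.1 (D.bd s)‖ * ‖D.X A y x s‖ := by
        field_simp; ring
      rw [h5] at h4
      linarith only [h4]
    · apply Continuous.intervalIntegrable
      have hqc : Continuous fun t => q.1 (D.bd t) := q.1.continuous.comp D.continuous_bd
      exact continuous_const.mul ((((hqc.norm.pow 2).mul hw.cont).add
        (continuous_const.mul (((continuous_X hA y x).norm.pow 2).div hw.cont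
          (fun s => (hw.pos s).ne')))).sub continuous_const)
  have hqc : Continuous fun t => q.1 (D.bd t) := q.1.continuous.comp D.continuous_bd
  have hc1 : Continuous fun s => ‖q.1 (D.bd s)‖ ^ 2 * w0 s := (hqc.norm.pow 2).mul hw.cont
  have hc2 : Continuous fun s => 4⁻¹ * (‖D.X A y x s‖ ^ 2 / w0 s) :=
    continuous_const.mul (((continuous_X hA y x).norm.pow 2).div hw.cont
      (fun s => (hw.pos s).ne'))
  rw [intervalIntegral.integral_const_mul, integral_add_sub hc1 hc2 continuous_const,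
    intervalIntegral.integral_const_mul, intervalIntegral.integral_zero] at h3
  have h6 : ‖∫ s in (0:ℝ)..(2*π), (f.1 * q.1) (D.bd s) * D.X A y x s‖ = κ * ((1 + n2) / 2) := by
    have h7 : ∫ s in (0:ℝ)..(2*π), (f.1 * q.1) (D.bd s) * D.X A y x s
        = (κ : ℂ) * (((1 + n2) / 2 : ℝ) : ℂ) := by
      rw [← h2, ← h1]
    rw [h7, ← Complex.ofReal_mul, Complex.norm_real, Real.norm_of_nonneg (by (clear * - hκ hn0; positivity))]
  rw [h6] at h3
  have hm0 : 0 ≤ m := (norm_nonneg _).trans (hm (D.bd 0))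
  have h8 : κ * ((1 + n2) / 2) ≤ (2 * m) * ((1 + n2) / 2) := by
    refine h3.trans ?_
    have : (∫ s in (0:ℝ)..(2*π), ‖q.1 (D.bd s)‖ ^ 2 * w0 s)
        + 4⁻¹ * (∫ s in (0:ℝ)..(2*π), ‖D.X A y x s‖ ^ 2 / w0 s) - 0 ≤ 1 + n2 := by
      linarith only [hq2, hXb]
    calc m * _ ≤ m * (1 + n2) := mul_le_mul_of_nonneg_left this hm0
      _ = _ := by ring
  exact le_of_mul_le_mul_right h8 (by (clear * - hn0; positivity))

end main

end Dom
end Vale.Agent.P123
end
end

section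

section

/-!
The double layer kernel on the boundary is jointly continuous and positive.
-/

namespace Vale.Agent.P123

open Complex MeasureTheory Set Filter Topology
open scoped Real

namespace Dom

variable (D : Dom)

/-- divided difference of the boundary curve -/
noncomputable def Pq (s t : ℝ) : ℂ :=
  ∫ x in (0:ℝ)..1, Complex.I * (D.R (t + x * (s - t)) * ee (t + x * (s - t)))

/-- second divided difference of the gap -/
noncomputable def qgap (s t : ℝ) : ℝ :=
  ∫ x in (0:ℝ)..1, (1 - x) * Real.sinc ((1 - x) * (s - t)) * D.R (t + x * (s - t))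

theorem continuous_Pq : Continuous fun p : ℝ × ℝ => D.Pq p.1 p.2 := by
  unfold Pq
  apply intervalIntegral.continuous_parametric_intervalIntegral_of_continuous'
  have hR := D.continuous_R
  have he := continuous_ee
  have hu : Continuous fun q : (ℝ × ℝ) × ℝ => q.1.2 + q.2 * (q.1.1 - q.1.2) := by fun_prop
  exact continuous_const.mul ((Complex.continuous_ofReal.comp (hR.comp hu)).mul (he.comp hu))

theorem continuous_qgap : Continuous fun p : ℝ × ℝ => D.qgap p.1 p.2 := by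
  unfold qgap
  apply intervalIntegral.continuous_parametric_intervalIntegral_of_continuous'
  have hR := D.continuous_R
  have hs := Real.continuous_sinc
  have hu : Continuous fun q : (ℝ × ℝ) × ℝ => q.1.2 + q.2 * (q.1.1 - q.1.2) := by fun_prop
  have hv : Continuous fun q : (ℝ × ℝ) × ℝ => (1 - q.2) * (q.1.1 - q.1.2) := by fun_prop
  have hw : Continuous fun q : (ℝ × ℝ) × ℝ => 1 - q.2 := by fun_prop
  exact (hw.mul (hs.comp hv)).mul (hR.comp hu)

theorem sig_sub_eq (s t : ℝ) : D.sig s - D.sig t = ((s - t : ℝ) : ℂ) * D.Pq s t := by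
  have hR := D.continuous_R
  have he := continuous_ee
  have hd : ∀ x ∈ uIcc (0:ℝ) 1, HasDerivAt (fun x : ℝ => D.sig (t + x * (s - t)))
      (((s - t : ℝ) : ℂ) * (Complex.I * (D.R (t + x * (s - t)) * ee (t + x * (s - t))))) x := by
    intro x _
    have h1 : HasDerivAt (fun x : ℝ => t + x * (s - t)) (s - t) x := by
      simpa using ((hasDerivAt_id x).mul_const (s - t)).const_add t
    have h2 := (D.hasDerivAt_sig (t + x * (s - t))).scomp x h1
    rw [Complex.real_smul] at h2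
    exact h2
  have hint : IntervalIntegrable (fun x : ℝ => ((s - t : ℝ) : ℂ) *
      (Complex.I * (D.R (t + x * (s - t)) * ee (t + x * (s - t))))) volume 0 1 := by
    apply Continuous.intervalIntegrable
    fun_prop
  have h := intervalIntegral.integral_eq_sub_of_hasDerivAt hd hint
  rw [intervalIntegral.integral_const_mul] at h
  unfold Pq
  rw [h]
  simp

theorem gap_sig_eq (s t : ℝ) : D.gap (D.sig t) s = (s - t) ^ 2 * D.qgap s t := by
  have hR := D.continuous_R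
  have he := continuous_ee
  rw [← D.re_ee_neg_mul_sig_sub, D.sig_sub_eq]
  have h1 : ee (-s) * (((s - t : ℝ) : ℂ) * D.Pq s t) =
      ((s - t : ℝ) : ℂ) * (ee (-s) * D.Pq s t) := by ring
  rw [h1, Complex.re_ofReal_mul]
  have hcont : Continuous fun x : ℝ => ee (-s) *
      (Complex.I * (D.R (t + x * (s - t)) * ee (t + x * (s - t)))) := by fun_prop
  have h2 : (ee (-s) * D.Pq s t).re = ∫ x in (0:ℝ)..1,
      (ee (-s) * (Complex.I * (D.R (t + x * (s - t)) * ee (t + x * (s - t))))).re := by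
    unfold Pq
    rw [← intervalIntegral.integral_const_mul]
    have := Complex.reCLM.intervalIntegral_comp_comm (hcont.intervalIntegrable 0 1 (μ := volume))
    simpa only [intervalIntegral.integral_const_mul, mul_re, I_re, zero_mul, I_im, one_mul, zero_sub, mul_neg,     mul_im, zero_add, ofReal_re, ofReal_im, sub_zero, add_zero, reCLM_apply] using this.symm
  rw [h2]
  unfold qgap
  rw [pow_two, mul_assoc, ← intervalIntegral.integral_const_mul (s - t) (fun x : ℝ =>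
    (1 - x) * Real.sinc ((1 - x) * (s - t)) * D.R (t + x * (s - t)))]
  congr 1
  refine intervalIntegral.integral_congr (fun x _ => ?_)
  have h3 : ee (-s) * (Complex.I * (D.R (t + x * (s - t)) * ee (t + x * (s - t)))) =
      ((D.R (t + x * (s - t)) : ℝ) : ℂ) * (Complex.I * ee (-((1 - x) * (s - t)))) := by
    have hee : ee (-((1 - x) * (s - t))) = ee (-s) * ee (t + x * (s - t)) := by
      rw [← ee_add]
      congr 1
      ring
    rw [hee]
    ring
  simp only [h3]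
  rw [Complex.re_ofReal_mul]
  have h4 : (Complex.I * ee (-((1 - x) * (s - t)))).re = Real.sin ((1 - x) * (s - t)) := by
    rw [Complex.mul_re, Complex.I_re, Complex.I_im, ee_im, Real.sin_neg]
    ring
  rw [h4]
  by_cases h5 : (1 - x) * (s - t) = 0
  · rw [h5, Real.sin_zero, Real.sinc_zero]
    have : (s - t) * ((1 - x) * 1 * D.R (t + x * (s - t))) =
        ((1 - x) * (s - t)) * D.R (t + x * (s - t)) := by ring
    rw [this, h5]
    ring
  · rw [Real.sinc_of_ne_zero h5]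
    have h6 : 1 - x ≠ 0 := fun h => h5 (by rw [h, zero_mul])
    have h7 : s - t ≠ 0 := fun h => h5 (by rw [h, mul_zero])
    field_simp

theorem Pq_self (t : ℝ) : D.Pq t t = Complex.I * (D.R t * ee t) := by
  unfold Pq
  simp only [sub_self, mul_zero, add_zero, intervalIntegral.integral_const_mul, intervalIntegral.integral_const, sub_zero, one_smul]

theorem qgap_self (t : ℝ) : D.qgap t t = D.R t / 2 := by
  unfold qgap
  simp only [sub_self, mul_zero, Real.sinc_zero, add_zero, mul_one]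
  rw [intervalIntegral.integral_mul_const]
  have : ∫ x in (0:ℝ)..1, (1 - x) = 1 / 2 := by
    rw [intervalIntegral.integral_sub (by simp) (by simp)]
    simp only [intervalIntegral.integral_const, sub_zero, smul_eq_mul, mul_one, integral_id, one_pow, ne_eq, OfNat.ofNat_ne_zero, not_false_eq_true, zero_pow, one_div]
    norm_num
  rw [this]
  ring

theorem sig_ne_sig {s t : ℝ} (h0 : s ≠ t) (h1 : |s - t| < 2 * π) : D.sig s ≠ D.sig t := by
  rw [abs_lt] at h1
  rcases lt_or_gt_of_ne h0 with h | h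
  · intro he
    exact D.sig_sub_ne (s := s) (t := t) h (by linarith) (by rw [he, sub_self])
  · intro he
    exact D.sig_sub_ne (s := t) (t := s) h (by linarith only [h1]) (by rw [he, sub_self])

theorem Pq_ne_zero {s t : ℝ} (h1 : |s - t| < 2 * π) : D.Pq s t ≠ 0 := by
  by_cases h0 : s = t
  · subst h0
    rw [D.Pq_self]
    have := (D.R_pos s).ne'
    have h2 : ((D.R s : ℝ) : ℂ) ≠ 0 := by exact_mod_cast this
    exact mul_ne_zero Complex.I_ne_zero (mul_ne_zero h2 (ee_ne_zero s))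
  · intro h
    have := D.sig_sub_eq s t
    rw [h, mul_zero, sub_eq_zero] at this
    exact D.sig_ne_sig h0 h1 this

/-- the continuous version of the kernel -/
noncomputable def kc (s t : ℝ) : ℝ :=
  open Classical in if D.sig s = D.sig t then 1 / (2 * π) else D.k s (D.sig t)

theorem kc_eq {s t : ℝ} (h1 : |s - t| < 2 * π) :
    D.kc s t = D.R s / π * (D.qgap s t / ‖D.Pq s t‖ ^ 2) := by
  unfold kc
  by_cases h0 : s = t
  · subst h0
    rw [if_pos rfl, D.qgap_self, D.Pq_self]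
    have hR := D.R_pos s
    have h2 : ‖Complex.I * ((D.R s : ℂ) * ee s)‖ = D.R s := by
      rw [norm_mul, norm_mul, Complex.norm_I, norm_ee, Complex.norm_real,
        Real.norm_of_nonneg hR.le]
      ring
    rw [h2]
    have := Real.pi_pos
    (clear * - hR; field_simp)
  · rw [if_neg (D.sig_ne_sig h0 h1), D.k_eq, D.gap_sig_eq, D.sig_sub_eq, norm_mul,
      Complex.norm_real, Real.norm_eq_abs, mul_pow, sq_abs]
    have h3 : (s - t) ^ 2 ≠ 0 := pow_ne_zero 2 (sub_ne_zero.mpr h0)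
    rw [mul_div_mul_left _ _ h3]

theorem kc_periodic_left (s t : ℝ) : D.kc (s + 2 * π) t = D.kc s t := by
  unfold kc
  rw [D.sig_periodic, D.k_periodic]

theorem kc_periodic_right (s t : ℝ) : D.kc s (t + 2 * π) = D.kc s t := by
  unfold kc
  rw [D.sig_periodic]

theorem kc_pos (s t : ℝ) : 0 < D.kc s t := by
  unfold kc
  split_ifs with h
  · have := Real.pi_pos
    positivity
  · rw [D.k_eq]
    have h1 : 0 < D.gap (D.sig t) s := by
      rcases (D.gap_sig_nonneg t s).lt_or_eq with h2 | h2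
      · exact h2
      · exact absurd (D.eq_sig_of_gap_eq_zero (D.sig_mem_K t) h2.symm).symm h
    have h3 : D.sig s - D.sig t ≠ 0 := sub_ne_zero.mpr h
    have h4 := D.R_pos s
    have h5 := Real.pi_pos
    have h6 : 0 < ‖D.sig s - D.sig t‖ := norm_pos_iff.mpr h3
    positivity

theorem continuous_kc : Continuous (Function.uncurry D.kc) := by
  rw [continuous_iff_continuousAt]
  rintro ⟨s₀, t₀⟩
  obtain ⟨n, hn⟩ : ∃ n : ℤ, |s₀ - (t₀ + n * (2 * π))| < 2 * π := by
    obtain ⟨n, hn, _⟩ := existsUnique_add_zsmul_mem_Ico Real.two_pi_pos t₀ s₀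
    refine ⟨n, ?_⟩
    rw [zsmul_eq_mul] at hn
    rw [abs_lt]
    constructor <;> linarith only [hn.1, Real.two_pi_pos, hn.2]
  have hper : ∀ s t, D.kc s (t + n * (2 * π)) = D.kc s t := fun s t =>
    Doeblin.per_int (T := 2 * π) (f := fun t => D.kc s t) (fun t => D.kc_periodic_right s t) n t
  have hcont : ContinuousAt (fun p : ℝ × ℝ => D.R p.1 / π *
      (D.qgap p.1 (p.2 + n * (2 * π)) / ‖D.Pq p.1 (p.2 + n * (2 * π))‖ ^ 2)) (s₀, t₀) := by
    have h1 : Continuous fun p : ℝ × ℝ => (p.1, p.2 + n * (2 * π)) := by fun_prop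
    have hQ : Continuous fun p : ℝ × ℝ => D.qgap p.1 (p.2 + n * (2 * π)) :=
      D.continuous_qgap.comp h1
    have hP : Continuous fun p : ℝ × ℝ => ‖D.Pq p.1 (p.2 + n * (2 * π))‖ ^ 2 :=
      ((D.continuous_Pq.comp h1).norm).pow 2
    have hRc : Continuous fun p : ℝ × ℝ => D.R p.1 / π :=
      (D.continuous_R.comp continuous_fst).div_const π
    refine hRc.continuousAt.mul (hQ.continuousAt.div hP.continuousAt ?_)
    exact pow_ne_zero 2 (norm_ne_zero_iff.mpr (D.Pq_ne_zero hn))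
  refine hcont.congr ?_
  have hopen : {p : ℝ × ℝ | |p.1 - (p.2 + n * (2 * π))| < 2 * π} ∈ 𝓝 (s₀, t₀) := by
    apply IsOpen.mem_nhds
    · exact isOpen_lt (by fun_prop) continuous_const
    · exact hn
  filter_upwards [hopen] with p hp
  rw [Function.uncurry, ← hper, D.kc_eq hp]

theorem Dc_eq_fwd (φ : ℝ → ℂ) (t : ℝ) : D.Dc φ t = Doeblin.fwd (2 * π) D.kc φ t := by
  unfold Dc Doeblin.fwd
  refine intervalIntegral.integral_congr_ae ?_
  have hnull : ∀ᵐ s : ℝ, s ∉ (Set.range fun n : ℤ => t + n * (2 * π)) :=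
    (Set.countable_range _).ae_notMem volume
  filter_upwards [hnull] with s hs _
  have hne : D.sig s ≠ D.sig t := by
    obtain ⟨n, hn, _⟩ := existsUnique_add_zsmul_mem_Ico Real.two_pi_pos s t
    rw [zsmul_eq_mul] at hn
    have h1 : D.sig (s + n * (2 * π)) = D.sig s :=
      (show Function.Periodic D.sig (2 * π) from D.sig_periodic).int_mul n s
    rw [← h1]
    apply D.sig_ne_sig
    · intro h
      apply hs
      refine ⟨-n, ?_⟩
      push_cast
      linarith
    · rw [abs_lt]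
      constructor <;> linarith only [hn.1, Real.two_pi_pos, hn.2]
  unfold kc
  rw [if_neg hne]

theorem integral_kc (t : ℝ) : ∫ s in (0:ℝ)..(2 * π), D.kc s t = 1 := by
  have h1 := D.Dc_eq_fwd (fun _ => 1) t
  unfold Dc Doeblin.fwd at h1
  simp only [one_mul] at h1
  rw [intervalIntegral.integral_ofReal, intervalIntegral.integral_ofReal, D.integral_k_sig] at h1
  exact_mod_cast h1.symm

theorem ker_kc : Doeblin.Ker (2 * π) D.kc where
  T_pos := Real.two_pi_pos
  cont := D.continuous_kc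
  per₁ := D.kc_periodic_left
  per₂ := D.kc_periodic_right
  pos := D.kc_pos
  mass := D.integral_kc

end Dom

end Vale.Agent.P123
end
end

section

section

/-!
(W1) existence of the equilibrium density.
-/

namespace Vale.Agent.P123

open Complex MeasureTheory Set Filter Topology
open scoped Real ComplexConjugate

namespace Dom

theorem exists_equil (D : Dom) : ∃ w0 : ℝ → ℝ, D.Equil w0 := by
  obtain ⟨w, hc, hper, hpos, hmass, hstat⟩ := D.ker_kc.exists_stationary
  have hDc : D.Dc = Doeblin.fwd (2 * π) D.kc := by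
    funext φ t
    exact D.Dc_eq_fwd φ t
  refine ⟨w, hc, hper, hpos, hmass, ?_, ?_⟩
  · intro φ hφ _
    rw [hDc]
    exact D.ker_kc.inv hc hstat hφ
  · intro φ hφ _ ε hε
    rw [hDc]
    exact D.ker_kc.lim hc hpos hmass hstat hφ hε

end Dom

end Vale.Agent.P123
end
end

section

section

/-!
Reduction to finite dimension and the final inequality.
-/

namespace Vale.Agent.P123
open Complex MeasureTheory Set Filter Topology Polynomial
open scoped Real ComplexConjugate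

namespace Dom
variable {D : Dom}
variable {H : Type*} [NormedAddCommGroup H] [InnerProductSpace ℂ H]

/-- in finite dimension the norm is attained -/
theorem exists_norm_attained [FiniteDimensional ℂ H] (T : H →L[ℂ] H) (hT : T ≠ 0) :
    ∃ x : H, ‖x‖ = 1 ∧ ‖T x‖ = ‖T‖ := by
  have hne : ∃ v : H, T v ≠ 0 := by
    by_contra h
    push Not at h
    exact hT (by ext v; simp [h v])
  obtain ⟨v, hv⟩ := hne
  have hv0 : v ≠ 0 := by rintro rfl; simp only [map_zero, ne_eq, not_true_eq_false] at hv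
  have : Nontrivial H := ⟨⟨v, 0, hv0⟩⟩
  have : ProperSpace H := FiniteDimensional.proper ℂ H
  have hS : (Metric.sphere (0:H) 1).Nonempty :=
    NormedSpace.sphere_nonempty.2 zero_le_one
  obtain ⟨x, hx, hmax⟩ := (isCompact_sphere (0:H) 1).exists_isMaxOn hS
    (T.continuous.norm.continuousOn)
  have hx1 : ‖x‖ = 1 := by simpa only [mem_sphere_iff_norm, sub_zero] using hx
  refine ⟨x, hx1, le_antisymm ?_ ?_⟩
  · have := T.le_opNorm x
    rwa [hx1, mul_one] at this
  · refine T.opNorm_le_bound (norm_nonneg _) fun u => ?_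
    by_cases hu : u = 0
    · simp only [hu, map_zero, norm_zero, mul_zero, Std.le_refl]
    have hu' : ‖u‖ ≠ 0 := norm_ne_zero_iff.2 hu
    have h1 : ((‖u‖ : ℂ)⁻¹ • u) ∈ Metric.sphere (0:H) 1 := by
      simp [norm_smul, hu']
    have h2 : ‖T ((‖u‖ : ℂ)⁻¹ • u)‖ ≤ ‖T x‖ := hmax h1
    rw [map_smul, norm_smul, norm_inv, Complex.norm_real, norm_norm] at h2
    have h3 : ‖T u‖ = ‖u‖ * (‖u‖⁻¹ * ‖T u‖) := by
      rw [← mul_assoc, mul_inv_cancel₀ hu', one_mul]
    rw [h3, mul_comm]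
    exact mul_le_mul_of_nonneg_right h2 (norm_nonneg _)

theorem crouzeix_fin [FiniteDimensional ℂ H] {A : H →L[ℂ] H} {η : ℝ} (hA : D.Inside A η)
    (P : ℂ[X]) {m : ℝ} (hP : ∀ z ∈ D.K, ‖P.eval z‖ ≤ m) : ‖aeval A P‖ ≤ 2 * m := by
  have : CompleteSpace H := FiniteDimensional.complete ℂ H
  have hm0 : 0 ≤ m := (norm_nonneg _).trans (hP _ (D.sig_mem_K 0))
  by_cases hT : aeval A P = 0
  · rw [hT, norm_zero]; positivity
  obtain ⟨w0, hw⟩ := exists_equil D
  obtain ⟨f, hf, hf1, hf2⟩ := poly_mem_S (D := D) A P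
  set T : H →L[ℂ] H := aeval A P with hTdef
  obtain ⟨x, hx, hTx⟩ := exists_norm_attained T hT
  have hκ : 0 < ‖T‖ := norm_pos_iff.2 hT
  have hκ' : (‖T‖ : ℂ) ≠ 0 := by exact_mod_cast hκ.ne'
  set y : H := (‖T‖ : ℂ)⁻¹ • T x with hy
  have hTy : T x = (‖T‖ : ℂ) • y := by
    rw [hy, smul_smul, mul_inv_cancel₀ hκ', one_smul]
  have hy1 : ‖y‖ = 1 := by
    rw [hy, norm_smul, norm_inv, Complex.norm_real, norm_norm, hTx, inv_mul_cancel₀ hκ.ne']
  have hadj : ContinuousLinearMap.adjoint T y = (‖T‖ : ℂ) • x := by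
    have h1 : ‖ContinuousLinearMap.adjoint T y‖ ≤ ‖T‖ := by
      have := (ContinuousLinearMap.adjoint T).le_opNorm y
      rwa [hy1, mul_one, LinearIsometryEquiv.norm_map] at this
    have h2 : inner ℂ x (ContinuousLinearMap.adjoint T y) = (‖T‖ : ℂ) := by
      rw [ContinuousLinearMap.adjoint_inner_right, hTy, inner_smul_left, Complex.conj_ofReal,
        inner_self_eq_norm_sq_to_K, hy1]
      simp only [coe_algebraMap, ofReal_one, one_pow, mul_one]
    have h3 : ‖ContinuousLinearMap.adjoint T y - (‖T‖ : ℂ) • x‖ ^ 2 ≤ 0 := by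
      rw [@norm_sub_sq ℂ]
      have h4 : inner ℂ (ContinuousLinearMap.adjoint T y) ((‖T‖ : ℂ) • x)
          = (‖T‖ : ℂ) * (‖T‖ : ℂ) := by
        rw [inner_smul_right, ← inner_conj_symm, h2, Complex.conj_ofReal]
      rw [h4, norm_smul, hx, Complex.norm_real, norm_norm]
      have h5 : RCLike.re ((‖T‖ : ℂ) * (‖T‖ : ℂ)) = ‖T‖ ^ 2 := by
        rw [← Complex.ofReal_mul, RCLike.re_eq_complex_re, Complex.ofReal_re]; ring
      rw [h5]
      have h6 := pow_le_pow_left₀ (norm_nonneg _) h1 2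
      linarith only [h6]
    have h7 : ‖ContinuousLinearMap.adjoint T y - (‖T‖ : ℂ) • x‖ = 0 := by
      have := sq_nonneg ‖ContinuousLinearMap.adjoint T y - (‖T‖ : ℂ) • x‖
      have h8 : ‖ContinuousLinearMap.adjoint T y - (‖T‖ : ℂ) • x‖ ^ 2 = 0 := le_antisymm h3 this
      exact pow_eq_zero_iff (two_ne_zero) |>.1 h8
    exact sub_eq_zero.1 (norm_eq_zero.1 h7)
  refine crouzeix_dom' hA hw hf (m := m) (y := y) (fun z => ?_) hκ hx ?_ ?_
  · rw [hf1]; exact hP _ z.2
  · rw [hf2]; exact hTy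
  · rw [hf2]; exact hadj

/-- compression to the span of the orbit -/
theorem crouzeix_gen {A : H →L[ℂ] H} {η : ℝ} (hA : D.Inside A η)
    (P : ℂ[X]) {m : ℝ} (hP : ∀ z ∈ D.K, ‖P.eval z‖ ≤ m) : ‖aeval A P‖ ≤ 2 * m := by
  have hm0 : 0 ≤ m := (norm_nonneg _).trans (hP _ (D.sig_mem_K 0))
  refine (aeval A P).opNorm_le_bound (by positivity) fun x => ?_
  set V : Submodule ℂ H :=
    Submodule.span ℂ ((fun k : ℕ => (A ^ k) x) '' (Set.Iic P.natDegree)) with hV
  have : FiniteDimensional ℂ V :=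
    FiniteDimensional.span_of_finite ℂ ((Set.finite_Iic _).image _)
  have : CompleteSpace V := FiniteDimensional.complete ℂ V
  have hmem : ∀ k, k ≤ P.natDegree → (A ^ k) x ∈ V := fun k hk =>
    Submodule.subset_span ⟨k, hk, rfl⟩
  set B : V →L[ℂ] V := V.orthogonalProjectionOnto ∘L A ∘L V.subtypeL with hB
  have hBin : ∀ v : V, inner ℂ v (B v) = inner ℂ (v : H) (A v) := by
    intro v
    have h1 : B v = V.orthogonalProjectionOnto (A v) := rfl
    rw [h1]
    exact Submodule.inner_orthogonalProjectionOnto_eq_of_mem_left v (A v)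
  have hBI : D.Inside B η := by
    refine ⟨hA.1, fun s v => ?_⟩
    rw [hBin]
    have := hA.2 s (v : H)
    rwa [Submodule.coe_norm] 
  have hx0 : x ∈ V := by simpa only [pow_zero, one_apply_eq_self] using hmem 0 (Nat.zero_le _)
  have hpow : ∀ k, k ≤ P.natDegree → (((B ^ k) ⟨x, hx0⟩ : V) : H) = (A ^ k) x := by
    intro k
    induction k with
    | zero => intro _; simp only [pow_zero, one_apply_eq_self]
    | succ k ih =>
      intro hk
      have h1 := ih (by omega)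
      rw [pow_succ', pow_succ']
      have h2 : (B * B ^ k) ⟨x, hx0⟩ = B ((B ^ k) ⟨x, hx0⟩) := rfl
      have h3 : (A * A ^ k) x = A ((A ^ k) x) := rfl
      rw [h2, h3]
      have h4 : B ((B ^ k) ⟨x, hx0⟩) = V.orthogonalProjectionOnto (A ((A ^ k) x)) := by
        rw [← h1]
        rfl
      rw [h4]
      have h5 : A ((A ^ k) x) ∈ V := by
        have := hmem (k+1) hk
        rwa [pow_succ'] at this
      have h6 := Submodule.orthogonalProjectionOnto_mem_subspace_eq_self (K := V)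
        ⟨A ((A ^ k) x), h5⟩
      simpa only [pow_apply_eq_iterate, Submodule.coe_orthogonalProjectionOnto_apply] using     congrArg (Subtype.val) h6
  have hPB : ((aeval B P ⟨x, hx0⟩ : V) : H) = aeval A P x := by
    rw [aeval_eq_sum_range, aeval_eq_sum_range]
    simp only [sum_apply, smul_apply]
    rw [Submodule.coe_sum]
    refine Finset.sum_congr rfl fun k hk => ?_
    rw [Finset.mem_range] at hk
    rw [Submodule.coe_smul, hpow k (by omega)]
  have h := crouzeix_fin hBI P hP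
  rw [← hPB, Submodule.norm_coe]
  have h2 := (aeval B P).le_opNorm ⟨x, hx0⟩
  refine h2.trans (mul_le_mul_of_nonneg_right h (norm_nonneg _))

end Dom

/-- Crouzeix's conjecture -/
theorem crouzeix_bound {H : Type*} [NormedAddCommGroup H] [InnerProductSpace ℂ H]
    [CompleteSpace H] [Nontrivial H] (A : H →L[ℂ] H) (P : ℂ[X]) :
    ‖aeval A P‖ ≤ 2 * sSup ((fun z => ‖P.eval z‖) '' numRange A) :=
  reduction (by norm_num) (fun D A eta heta hA P m hP =>
    Dom.crouzeix_gen (D := D) (η := eta) ⟨heta, hA⟩ P hP) A P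


end Vale.Agent.P123
end
end

section

section

namespace Vale.Agent.P123

open Complex MeasureTheory Set Filter Topology
open scoped Real

namespace Dom

variable (D : Dom)

theorem gap_affine3 (o a p : ℂ) (α β t : ℝ) :
    D.gap (o + (α : ℂ) * (a - o) + (β : ℂ) * (p - o)) t =
      (1 - α - β) * D.gap o t + α * D.gap a t + β * D.gap p t := by
  unfold gap
  simp only [mul_sub, mul_add, add_re, mul_re, sub_re, ofReal_re, ofReal_im, mul_im]
  ring

/-- a ball around a barycentric combination lies in the domain -/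
theorem gap_bary (t0 : ℝ) (o a p : ℂ) (ho : o ∈ D.K) (ha : a ∈ D.K) (hp : p ∈ D.K)
    (x v ξ η s : ℝ) (hs : s ^ 2 = 1)
    (hTa : -ee (-t0) * (a - o) = (x : ℂ) - (s * v : ℝ) * Complex.I)
    (hTp : -ee (-t0) * (p - o) = (ξ : ℂ) + (s * η : ℝ) * Complex.I)
    (L : ℝ) (hL0 : 0 < L) (hL1 : x ^ 2 + v ^ 2 = L ^ 2) (hL2 : ξ ^ 2 + η ^ 2 = L ^ 2)
    (c : ℝ) (hc : 0 < c) (hΔ : c * L ^ 2 ≤ x * η + v * ξ)
    (d : ℝ) (hd : 0 ≤ d) (hτ : (ξ - x) ^ 2 + (η + v) ^ 2 ≤ d ^ 2 * L ^ 2)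
    (r : ℝ) (hr : 0 ≤ r) (Wa Wp : ℝ) (h1 : r ≤ c * Wa) (h2 : r ≤ c * Wp)
    (h3 : r * d ≤ c * (1 - Wa - Wp)) (t : ℝ) :
    r * L ≤ D.gap (o + (Wa : ℂ) * (a - o) + (Wp : ℂ) * (p - o)) t := by
  set Δ := x * η + v * ξ with hΔdef
  have hΔ0 : 0 < Δ := lt_of_lt_of_le (by (clear * - hc hL0; positivity)) hΔ
  set V : ℂ := -ee (-t0) * ((r * L : ℝ) * ee t) with hV
  have hVn : V.re ^ 2 + V.im ^ 2 = (r * L) ^ 2 := by
    have e1 : ‖V‖ = r * L := by
      rw [hV, norm_mul, norm_neg, norm_ee, norm_mul, norm_ee, Complex.norm_real, one_mul, mul_one,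
        Real.norm_of_nonneg (by (clear * - hr hL0; positivity))]
    have e2 := Complex.sq_norm V
    rw [Complex.normSq_apply, e1] at e2
    linarith only [e2]
  set α := s * (V.re * (s * η) - V.im * ξ) / Δ with hα
  set β := s * (x * V.im + s * v * V.re) / Δ with hβ
  have hsolve : V = (α : ℂ) * ((x : ℂ) - (s * v : ℝ) * Complex.I) +
      (β : ℂ) * ((ξ : ℂ) + (s * η : ℝ) * Complex.I) := by
    apply Complex.ext
    · simp only [Complex.add_re, Complex.sub_re, Complex.mul_re, Complex.mul_im,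
        Complex.ofReal_re, Complex.ofReal_im, Complex.I_re, Complex.I_im, Complex.sub_im,
        Complex.add_im]
      rw [hα, hβ]
      field_simp
      ring_nf
      rw [hs]
      ring
    · simp only [Complex.add_re, Complex.sub_re, Complex.mul_re, Complex.mul_im,
        Complex.ofReal_re, Complex.ofReal_im, Complex.I_re, Complex.I_im, Complex.sub_im,
        Complex.add_im]
      rw [hα, hβ]
      field_simp
      ring_nf
      rw [hs]
      ring
  have hs1 : |s| = 1 := by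
    rw [← sq_eq_sq₀ (abs_nonneg s) zero_le_one, sq_abs, hs, one_pow]
  have hrL : 0 ≤ r * L := by (clear * - hr hL0; positivity)
  -- bounds
  have bα : |α| ≤ Wa := by
    have e1 : (V.re * (s * η) - V.im * ξ) ^ 2 ≤ (r * L * L) ^ 2 := by
      have : (V.re * (s * η) - V.im * ξ) ^ 2 + (V.re * ξ + V.im * (s * η)) ^ 2 =
          (V.re ^ 2 + V.im ^ 2) * (ξ ^ 2 + s ^ 2 * η ^ 2) := by ring
      rw [hs, one_mul, hVn, hL2] at this
      nlinarith only [this]
    have e2 : |V.re * (s * η) - V.im * ξ| ≤ r * L * L := abs_le_of_sq_le_sq e1 (by (clear * - hr hL0; positivity))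
    rw [hα, abs_div, abs_mul, hs1, one_mul, abs_of_pos hΔ0, div_le_iff₀ hΔ0]
    have hWa : 0 ≤ Wa := by
      by_contra hcon
      push Not at hcon
      have : c * Wa < 0 := mul_neg_of_pos_of_neg hc hcon
      linarith only [hr, h1, this]
    calc |V.re * (s * η) - V.im * ξ| ≤ r * L * L := e2
      _ = r * L ^ 2 := by ring
      _ ≤ (c * Wa) * L ^ 2 := by (clear * - h1 hL0; gcongr)
      _ = Wa * (c * L ^ 2) := by ring
      _ ≤ Wa * Δ := by (clear * - hΔ hWa; gcongr)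
  have bβ : |β| ≤ Wp := by
    have e1 : (x * V.im + s * v * V.re) ^ 2 ≤ (r * L * L) ^ 2 := by
      have : (x * V.im + s * v * V.re) ^ 2 + (x * V.re - s * v * V.im) ^ 2 =
          (V.re ^ 2 + V.im ^ 2) * (x ^ 2 + s ^ 2 * v ^ 2) := by ring
      rw [hs, one_mul, hVn, hL1] at this
      (clear * - this; nlinarith [sq_nonneg (x * V.re - s * v * V.im)])
    have e2 : |x * V.im + s * v * V.re| ≤ r * L * L := abs_le_of_sq_le_sq e1 (by (clear * - hr hL0; positivity))
    rw [hβ, abs_div, abs_mul, hs1, one_mul, abs_of_pos hΔ0, div_le_iff₀ hΔ0]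
    have hWp : 0 ≤ Wp := by
      by_contra hcon
      push Not at hcon
      have : c * Wp < 0 := mul_neg_of_pos_of_neg hc hcon
      linarith only [hr, h2, this]
    calc |x * V.im + s * v * V.re| ≤ r * L * L := e2
      _ = r * L ^ 2 := by ring
      _ ≤ (c * Wp) * L ^ 2 := by (clear * - h2 hL0; gcongr)
      _ = Wp * (c * L ^ 2) := by ring
      _ ≤ Wp * Δ := by (clear * - hΔ hWp; gcongr)
  have bαβ : |α + β| ≤ 1 - Wa - Wp := by
    have e0 : α + β = s * (V.re * (s * (η + v)) - V.im * (ξ - x)) / Δ := by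
      rw [hα, hβ]; ring
    have e1 : (V.re * (s * (η + v)) - V.im * (ξ - x)) ^ 2 ≤ (r * L * (d * L)) ^ 2 := by
      have : (V.re * (s * (η + v)) - V.im * (ξ - x)) ^ 2 +
          (V.re * (ξ - x) + V.im * (s * (η + v))) ^ 2 =
          (V.re ^ 2 + V.im ^ 2) * ((ξ - x) ^ 2 + s ^ 2 * (η + v) ^ 2) := by ring
      rw [hs, one_mul, hVn] at this
      have e3 : (r * L) ^ 2 * ((ξ - x) ^ 2 + (η + v) ^ 2) ≤ (r * L) ^ 2 * (d ^ 2 * L ^ 2) := by
        (clear * - hτ; gcongr)
      nlinarith only [this, e3]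
    have e2 : |V.re * (s * (η + v)) - V.im * (ξ - x)| ≤ r * L * (d * L) :=
      abs_le_of_sq_le_sq e1 (by (clear * - hr hL0 hd; positivity))
    rw [e0, abs_div, abs_mul, hs1, one_mul, abs_of_pos hΔ0, div_le_iff₀ hΔ0]
    have hW0 : 0 ≤ 1 - Wa - Wp := by
      by_contra hcon
      push Not at hcon
      have : c * (1 - Wa - Wp) < 0 := mul_neg_of_pos_of_neg hc hcon
      have : 0 ≤ r * d := by (clear * - hr hd; positivity)
      linarith
    calc |V.re * (s * (η + v)) - V.im * (ξ - x)| ≤ r * L * (d * L) := e2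
      _ = (r * d) * L ^ 2 := by ring
      _ ≤ (c * (1 - Wa - Wp)) * L ^ 2 := by gcongr
      _ = (1 - Wa - Wp) * (c * L ^ 2) := by ring
      _ ≤ (1 - Wa - Wp) * Δ := by (clear * - hΔ hW0; gcongr)
  -- the shifted point
  have hsolve' : ((r * L : ℝ) : ℂ) * ee t = (α : ℂ) * (a - o) + (β : ℂ) * (p - o) := by
    have hne : -ee (-t0) ≠ 0 := neg_ne_zero.2 (ee_ne_zero _)
    apply mul_left_cancel₀ hne
    rw [← hTa, ← hTp] at hsolve
    rw [hV] at hsolve
    rw [hsolve]; ring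
  have hw : o + (Wa : ℂ) * (a - o) + (Wp : ℂ) * (p - o) + ((r * L : ℝ) : ℂ) * ee t =
      o + ((Wa + α : ℝ) : ℂ) * (a - o) + ((Wp + β : ℝ) : ℂ) * (p - o) := by
    rw [hsolve']; push_cast; ring
  have hg := D.gap_affine3 o a p (Wa + α) (Wp + β) t
  rw [← hw] at hg
  have hg2 := D.gap_sub (o + (Wa : ℂ) * (a - o) + (Wp : ℂ) * (p - o))
    (o + (Wa : ℂ) * (a - o) + (Wp : ℂ) * (p - o) + ((r * L : ℝ) : ℂ) * ee t) t
  have e4 : ee (-t) * (o + (Wa : ℂ) * (a - o) + (Wp : ℂ) * (p - o) + ((r * L : ℝ) : ℂ) * ee t -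
      (o + (Wa : ℂ) * (a - o) + (Wp : ℂ) * (p - o))) = ((r * L : ℝ) : ℂ) := by
    have := ee_neg_mul t
    linear_combination ((r * L : ℝ) : ℂ) * this
  rw [e4, Complex.ofReal_re] at hg2
  have g1 := (D.mem_K_iff o).1 ho t
  have g2 := (D.mem_K_iff a).1 ha t
  have g3 := (D.mem_K_iff p).1 hp t
  have i1 := abs_le.1 bα
  have i2 := abs_le.1 bβ
  have i3 := abs_le.1 bαβ
  have j1 : 0 ≤ (1 - (Wa + α) - (Wp + β)) * D.gap o t := mul_nonneg (by linarith only [i3]) g1
  have j2 : 0 ≤ (Wa + α) * D.gap a t := mul_nonneg (by linarith only [i1]) g2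
  have j3 : 0 ≤ (Wp + β) * D.gap p t := mul_nonneg (by linarith only [i2]) g3
  linarith only [hg, hg2, j1, j2, j3]

/-- numeric facts about the frame coordinates -/
structure Frm (x v ξ η L : ℝ) : Prop where
  hx : 0 < x
  hξ : 0 < ξ
  hL : 0 < L
  hv1 : 14 / 25 * x ≤ v
  hv2 : v ≤ 16 / 25 * x
  hη1 : 14 / 25 * ξ ≤ η
  hη2 : η ≤ 16 / 25 * ξ
  hL1 : x ^ 2 + v ^ 2 = L ^ 2
  hL2 : ξ ^ 2 + η ^ 2 = L ^ 2

theorem Frm.xi_le {x v ξ η L : ℝ} (h : Frm x v ξ η L) : ξ ≤ 259 / 250 * x := by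
  obtain ⟨hx, hξ, hL, hv1, hv2, hη1, hη2, hL1, hL2⟩ := h
  have h0 : 0 < v := by linarith only [hx, hv1]
  have h0' : 0 < η := by linarith only [hξ, hη1]
  have h1 : (14 / 25 * ξ) ^ 2 ≤ η ^ 2 := by gcongr
  have h2 : v ^ 2 ≤ (16 / 25 * x) ^ 2 := by (clear * - h0 hv2; gcongr)
  apply le_of_sq_le_sq _ (by positivity)
  linarith only [hL1, hL2, h1, h2, sq_nonneg x]

theorem Frm.xxi {x v ξ η L : ℝ} (h : Frm x v ξ η L) :
    L ^ 2 ≤ (1 + (16 / 25) ^ 2) * (x * ξ) := by
  obtain ⟨hx, hξ, hL, hv1, hv2, hη1, hη2, hL1, hL2⟩ := h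
  have h0 : 0 < v := by linarith only [hx, hv1]
  have h0' : 0 < η := by linarith only [hξ, hη1]
  have h1 : L ^ 2 ≤ (1 + (16 / 25) ^ 2) * x ^ 2 := by
    have h2 : v ^ 2 ≤ (16 / 25 * x) ^ 2 := by (clear * - h0 hv2; gcongr)
    rw [← hL1]; linarith only [h2]
  have h2 : L ^ 2 ≤ (1 + (16 / 25) ^ 2) * ξ ^ 2 := by
    have h2 : η ^ 2 ≤ (16 / 25 * ξ) ^ 2 := by (clear * - h0' hη2; gcongr)
    rw [← hL2]; linarith only [h2]
  have h3 : (L ^ 2) ^ 2 ≤ ((1 + (16 / 25) ^ 2) * (x * ξ)) ^ 2 := by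
    calc (L ^ 2) ^ 2 = L ^ 2 * L ^ 2 := by ring
      _ ≤ ((1 + (16 / 25) ^ 2) * x ^ 2) * ((1 + (16 / 25) ^ 2) * ξ ^ 2) := by gcongr
      _ = _ := by ring
  exact le_of_sq_le_sq h3 (by positivity)

theorem Frm.dot {x v ξ η L : ℝ} (h : Frm x v ξ η L) :
    41884 / 100000 * L ^ 2 ≤ x * ξ - v * η := by
  have h3 := h.xxi
  obtain ⟨hx, hξ, hL, hv1, hv2, hη1, hη2, hL1, hL2⟩ := h
  have h0 : 0 < v := by linarith only [hx, hv1]
  have h0' : 0 < η := by linarith only [hξ, hη1]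
  have h1 : v * η ≤ (16 / 25 * x) * (16 / 25 * ξ) := by (clear * - hv2 hη2 h0' hx; gcongr)
  have h2 := mul_pos hx hξ
  linarith only [h3, h1, h2]

theorem Frm.crsb {x v ξ η L : ℝ} (h : Frm x v ξ η L) :
    79455 / 100000 * L ^ 2 ≤ x * η + v * ξ := by
  have h3 := h.xxi
  obtain ⟨hx, hξ, hL, hv1, hv2, hη1, hη2, hL1, hL2⟩ := h
  have h1 : x * (14 / 25 * ξ) ≤ x * η := by gcongr
  have h2 : (14 / 25 * x) * ξ ≤ v * ξ := by gcongr
  have h4 := mul_pos hx hξ
  linarith only [h3, h1, h2, h4]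

theorem Frm.mu_le {x v ξ η L y μ : ℝ} (h : Frm x v ξ η L) (hy2 : y ≤ 23 / 50)
    (hμ : 0 < μ) (hre : 0 ≤ x + μ * (y * ξ - x)) : μ ≤ 19105 / 10000 := by
  have h1 := h.xi_le
  have hx := h.hx
  have hξ := h.hξ
  have h2 : y * ξ ≤ 23 / 50 * (259 / 250 * x) := by (clear * - hy2 h1 hξ; gcongr)
  have hden : 52344 / 100000 * x ≤ x - y * ξ := by linarith only [h2]
  have h3 : μ * (52344 / 100000 * x) ≤ μ * (x - y * ξ) := by gcongr
  have h4 : (μ * (52344 / 100000)) * x ≤ 1 * x := by linarith only [hre, h3]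
  have h5 : μ * (52344 / 100000) ≤ 1 := le_of_mul_le_mul_right h4 hx
  linarith only [h5]

theorem Frm.q_le {x v ξ η L y : ℝ} (h : Frm x v ξ η L) (hy1 : 19 / 50 ≤ y) (hy2 : y ≤ 23 / 50) :
    (y * ξ - x) ^ 2 + (y * η + v) ^ 2 ≤ 8263 / 10000 * L ^ 2 := by
  have hd := h.dot
  have e4 : (y * ξ - x) ^ 2 + (y * η + v) ^ 2 =
      (1 + y ^ 2) * L ^ 2 - 2 * y * (x * ξ - v * η) := by
    linear_combination (y ^ 2) * h.hL2 + h.hL1
  rw [e4]
  have hy0 : 0 ≤ y := by linarith only [hy1]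
  have e5 : 2 * y * (41884 / 100000 * L ^ 2) ≤ 2 * y * (x * ξ - v * η) := by gcongr
  have e6 : (1 + y ^ 2) - 2 * y * (41884 / 100000) ≤ 8263 / 10000 := by nlinarith only [hy2, hy1]
  have e7 : ((1 + y ^ 2) - 2 * y * (41884 / 100000)) * L ^ 2 ≤ 8263 / 10000 * L ^ 2 := by (clear * - e6; gcongr)
  linarith only [e5, e7]

theorem Frm.tau_le {x v ξ η L : ℝ} (h : Frm x v ξ η L) :
    (ξ - x) ^ 2 + (η + v) ^ 2 ≤ (10782 / 10000) ^ 2 * L ^ 2 := by
  have hd := h.dot
  have e4 : (ξ - x) ^ 2 + (η + v) ^ 2 = 2 * L ^ 2 - 2 * (x * ξ - v * η) := by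
    linear_combination h.hL2 + h.hL1
  rw [e4]
  have := sq_nonneg L
  linarith

theorem nice_chord (t0 : ℝ) (a p b : ℂ) (ha : a ∈ D.K) (hp : p ∈ D.K)
    (hb : b ∈ D.K) (hbn : b ∉ D.Om) (x v ξ η s L : ℝ) (hs : s ^ 2 = 1)
    (hTa : -ee (-t0) * (a - D.sig t0) = (x : ℂ) - (s * v : ℝ) * Complex.I)
    (hTp : -ee (-t0) * (p - D.sig t0) = (ξ : ℂ) + (s * η : ℝ) * Complex.I)
    (hF : Frm x v ξ η L)
    (y μ : ℝ) (hy1 : 19 / 50 ≤ y) (hy2 : y ≤ 23 / 50) (hμ : 0 < μ)
    (hbq : b = a + (μ : ℂ) * (D.sig t0 + (y : ℂ) * (p - D.sig t0) - a)) :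
    ∃ τ : ℝ, 0 ≤ τ ∧ τ ≤ 1 ∧
      ∀ t, 1 / 8 * ‖b - a‖ ≤ D.gap ((1 - τ) • a + τ • b) t := by
  set o := D.sig t0 with ho
  have hL0 := hF.hL
  -- frame coordinates of b
  have hTb : -ee (-t0) * (b - o) = ((x + μ * (y * ξ - x) : ℝ) : ℂ) +
      ((s * (-v + μ * (y * η + v)) : ℝ) : ℂ) * Complex.I := by
    rw [hbq]
    calc -ee (-t0) * (a + (μ : ℂ) * (o + (y : ℂ) * (p - o) - a) - o)
        = (-ee (-t0) * (a - o)) + (μ : ℂ) * ((y : ℂ) * (-ee (-t0) * (p - o)) -
          (-ee (-t0) * (a - o))) := by ring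
      _ = _ := by
          rw [hTa, hTp]; push_cast; ring
  have hre : 0 ≤ x + μ * (y * ξ - x) := by
    have e1 : (-ee (-t0) * (b - o)).re = D.gap b t0 := by
      have h1 := D.gap_sub o b t0
      rw [ho, D.gap_sig_self] at h1
      rw [h1, ← ho]
      simp only [neg_mul, neg_re, mul_re, sub_re, sub_im, neg_sub, zero_sub]
    have e2 := (D.mem_K_iff b).1 hb t0
    rw [← e1, hTb] at e2
    simpa only [ge_iff_le, ofReal_add, ofReal_mul, ofReal_sub, ofReal_neg, add_re, ofReal_re, mul_re, sub_re,     ofReal_im, mul_zero, sub_zero, sub_im, mul_im, zero_mul, add_zero, sub_self, neg_re, add_im, neg_im, neg_zero, I_re,     I_im, mul_one] using e2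
  have hμ1 := hF.mu_le hy2 hμ hre
  -- norm of b - a
  have hba : ‖b - a‖ ≤ 17368 / 10000 * L := by
    have e1 : ‖b - a‖ ^ 2 = μ ^ 2 * ((y * ξ - x) ^ 2 + (y * η + v) ^ 2) := by
      have e2 : ‖b - a‖ = ‖-ee (-t0) * (b - o) - (-ee (-t0) * (a - o))‖ := by
        have : -ee (-t0) * (b - o) - (-ee (-t0) * (a - o)) = -ee (-t0) * (b - a) := by ring
        rw [this, norm_mul, norm_neg, norm_ee, one_mul]
      rw [e2, hTb, hTa, Complex.sq_norm, Complex.normSq_apply]
      simp only [Complex.add_re, Complex.sub_re, Complex.mul_re, Complex.mul_im,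
        Complex.ofReal_re, Complex.ofReal_im, Complex.I_re, Complex.I_im, Complex.sub_im,
        Complex.add_im]
      ring_nf
      rw [hs]
      ring
    have e3 := hF.q_le hy1 hy2
    have e7 : ‖b - a‖ ^ 2 ≤ (17368 / 10000 * L) ^ 2 := by
      rw [e1]
      calc μ ^ 2 * ((y * ξ - x) ^ 2 + (y * η + v) ^ 2)
          ≤ (19105 / 10000) ^ 2 * (8263 / 10000 * L ^ 2) := by (clear * - hμ hμ1 e3; gcongr)
        _ ≤ (17368 / 10000 * L) ^ 2 := by
            have := sq_nonneg L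
            linarith only [this]
    exact le_of_sq_le_sq e7 (by (clear * - hL0; positivity))
  -- centre
  have hz : ∀ t, 2171 / 10000 * L ≤
      D.gap (o + ((7 / 25 : ℝ) : ℂ) * (a - o) + ((18 / 25 * y : ℝ) : ℂ) * (p - o)) t := by
    intro t
    exact D.gap_bary t0 o a p (D.sig_mem_K t0) ha hp x v ξ η s hs hTa hTp L hL0 hF.hL1
      hF.hL2 (79455 / 100000) (by norm_num) hF.crsb (10782 / 10000) (by norm_num)
      hF.tau_le (2171 / 10000) (by norm_num) _ _ (by norm_num) (by linarith only [hy1]) (by linarith) t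
  have hzeq : o + ((7 / 25 : ℝ) : ℂ) * (a - o) + ((18 / 25 * y : ℝ) : ℂ) * (p - o) =
      a + ((18 / 25 : ℝ) : ℂ) * (o + (y : ℂ) * (p - o) - a) := by
    push_cast; ring
  set z := o + ((7 / 25 : ℝ) : ℂ) * (a - o) + ((18 / 25 * y : ℝ) : ℂ) * (p - o) with hzdef
  have hzOm : z ∈ D.Om := by
    rw [D.mem_Om_iff]
    intro t
    have := hz t
    have : 0 < 2171 / 10000 * L := by (clear * - hL0; positivity)
    (clear b ha hp hb hbn s hs μ hy1 hy2 hμ hTa hTp hbq ho hTb hre hμ1 hba hzeq hzdef this; linarith)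
  have hlm : 18 / 25 ≤ μ := by
    by_contra hcon
    push Not at hcon
    apply hbn
    have h1 : b = (μ / (18 / 25)) • z + (1 - μ / (18 / 25)) • a := by
      rw [hzeq, hbq]
      simp only [Complex.real_smul]
      push_cast
      ring
    rw [h1]
    apply D.combo_mem_Om hzOm ha (by (clear * - hμ; positivity)) _ (by ring)
    have : μ / (18 / 25) ≤ 1 := by
      rw [div_le_one (by norm_num)]; exact hcon.le
    linarith only [hcon]
  refine ⟨18 / 25 / μ, by (clear * - hμ; positivity), by rw [div_le_one hμ]; exact hlm, fun t => ?_⟩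
  have h1 : (1 - 18 / 25 / μ) • a + (18 / 25 / μ) • b = z := by
    rw [hzeq, hbq]
    simp only [Complex.real_smul]
    have : (μ : ℂ) ≠ 0 := by exact_mod_cast hμ.ne'
    push_cast
    field_simp
    ring
  rw [h1]
  have := hz t
  linarith only [hba, this]

end Dom

end Vale.Agent.P123
end
end

section

section

namespace Vale.Agent.P123

open Complex MeasureTheory Set Filter Topology
open scoped Real

namespace Dom

variable (D : Dom)

/-- deep chord between `sig ta` and `sig tb` -/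
def Deep (ta tb : ℝ) : Prop :=
  D.sig tb ≠ D.sig ta ∧ ∃ τ : ℝ, 0 ≤ τ ∧ τ ≤ 1 ∧
    ∀ t, 1 / 8 * ‖D.sig tb - D.sig ta‖ ≤ D.gap ((1 - τ) • D.sig ta + τ • D.sig tb) t

theorem norm_U_le (t0 ta : ℝ) (p : ℂ) (x v ξ η s L : ℝ) (hs : s ^ 2 = 1)
    (hTa : -ee (-t0) * (D.sig ta - D.sig t0) = (x : ℂ) - (s * v : ℝ) * Complex.I)
    (hTp : -ee (-t0) * (p - D.sig t0) = (ξ : ℂ) + (s * η : ℝ) * Complex.I)
    (hF : Frm x v ξ η L) (y : ℝ) (hy1 : 19 / 50 ≤ y) (hy2 : y ≤ 23 / 50) :
    ‖-ee (-ta) * (D.sig t0 + (y : ℂ) * (p - D.sig t0) - D.sig ta)‖ ^ 2 ≤ 8263 / 10000 * L ^ 2 := by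
  have e0 : ‖-ee (-ta) * (D.sig t0 + (y : ℂ) * (p - D.sig t0) - D.sig ta)‖ =
      ‖-ee (-t0) * (D.sig t0 + (y : ℂ) * (p - D.sig t0) - D.sig ta)‖ := by
    rw [norm_mul, norm_mul, norm_neg, norm_neg, norm_ee, norm_ee]
  have e1 : -ee (-t0) * (D.sig t0 + (y : ℂ) * (p - D.sig t0) - D.sig ta) =
      (y : ℂ) * (-ee (-t0) * (p - D.sig t0)) - (-ee (-t0) * (D.sig ta - D.sig t0)) := by ring
  rw [e0, e1, hTp, hTa, Complex.sq_norm, Complex.normSq_apply]
  refine le_trans (le_of_eq ?_) (hF.q_le hy1 hy2)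
  simp only [Complex.sub_re, Complex.mul_re, Complex.mul_im,
    Complex.ofReal_re, Complex.ofReal_im, Complex.I_re, Complex.I_im, Complex.sub_im,
    Complex.add_im, Complex.add_re]
  ring_nf
  rw [hs]
  ring

theorem second_step (t0 ta : ℝ) (p : ℂ) (hp : p ∈ D.K) (x v ξ η s L : ℝ) (hs : s = 1 ∨ s = -1)
    (hTa : -ee (-t0) * (D.sig ta - D.sig t0) = (x : ℂ) - (s * v : ℝ) * Complex.I)
    (hTp : -ee (-t0) * (p - D.sig t0) = (ξ : ℂ) + (s * η : ℝ) * Complex.I)
    (hF : Frm x v ξ η L) :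
    ∃ r1 r2 : ℝ, ta < r1 ∧ r1 ≤ r2 ∧ r2 < ta + 2 * π ∧
      24 / 1000 ≤ ∫ r in r1..r2, D.k r (D.sig ta) ∧ ∀ tb ∈ Icc r1 r2, D.Deep ta tb := by
  set o := D.sig t0 with ho
  set a := D.sig ta with ha
  have hs2 : s ^ 2 = 1 := by rcases hs with h | h <;> rw [h] <;> norm_num
  have hv : 0 < v := by have := hF.hv1; have := hF.hx; linarith
  have hη : 0 < η := by have := hF.hη1; have := hF.hξ; linarith
  let U : ℝ → ℂ := fun y => -ee (-ta) * (o + (y : ℂ) * (p - o) - a)
  -- membership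
  have hq : ∀ y : ℝ, 19 / 50 ≤ y → y ≤ 23 / 50 → 0 < (U y).re := by
    intro y hy1 hy2
    have hqK : o + (y : ℂ) * (p - o) ∈ D.K := by
      have := D.convex_K (D.sig_mem_K t0) hp (show (0:ℝ) ≤ 1 - y by linarith only [hy2])
        (show (0:ℝ) ≤ y by linarith only [hy1]) (by ring)
      convert this using 1
      simp only [Complex.real_smul]
      push_cast
      ring
    have e1 : (U y).re = D.gap (o + (y : ℂ) * (p - o)) ta := by
      have h1 := D.gap_sub a (o + (y : ℂ) * (p - o)) ta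
      rw [ha, D.gap_sig_self] at h1
      rw [h1, ← ha]
      simp only [neg_mul, neg_re, mul_re, sub_re, add_re, ofReal_re, ofReal_im, sub_im, zero_mul, sub_zero, add_im, mul_im, add_zero, neg_sub, zero_sub, U]
    rw [e1]
    apply lt_of_le_of_ne ((D.mem_K_iff _).1 hqK ta)
    intro hcon
    have h2 := D.eq_sig_of_gap_eq_zero hqK hcon.symm
    have h3 : -ee (-t0) * (a - o) = (y : ℂ) * (-ee (-t0) * (p - o)) := by
      rw [ha, ← h2]; ring
    rw [hTa, hTp] at h3
    have h4 := congrArg Complex.im h3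
    simp only [Complex.sub_im, Complex.mul_im, Complex.ofReal_re, Complex.ofReal_im,
      Complex.I_re, Complex.I_im, Complex.add_im] at h4
    have h5 : s * (v + y * η) = 0 := by linarith only [h4]
    have h6 : 0 < v + y * η := by positivity
    rcases hs with h | h
    · rw [h] at h5; linarith only [h5, h6]
    · rw [h] at h5; linarith only [h5, h6]
  have hcrsU : ∀ y y' : ℝ, crs (U y) (U y') = (y - y') * (s * (x * η + v * ξ)) := by
    intro y y'
    have e1 : crs (U y) (U y') = crs (o + (y : ℂ) * (p - o) - a) (o + (y' : ℂ) * (p - o) - a) :=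
      crs_rot _ _ _
    have e2 := crs_rot (-t0) (o + (y : ℂ) * (p - o) - a) (o + (y' : ℂ) * (p - o) - a)
    have e3 : ∀ y : ℝ, -ee (-t0) * (o + (y : ℂ) * (p - o) - a) =
        (y : ℂ) * ((ξ : ℂ) + (s * η : ℝ) * Complex.I) - ((x : ℂ) - (s * v : ℝ) * Complex.I) := by
      intro y
      rw [← hTa, ← hTp]; ring
    rw [e1, ← e2, e3, e3]
    unfold crs
    simp only [Complex.sub_re, Complex.mul_re, Complex.mul_im,
      Complex.ofReal_re, Complex.ofReal_im, Complex.I_re, Complex.I_im, Complex.sub_im,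
      Complex.add_im, Complex.add_re]
    ring
  have hL0 := hF.hL
  have hcr := hF.crsb
  have key : ∀ yα yβ : ℝ, 19 / 50 ≤ yα → yα ≤ 23 / 50 → 19 / 50 ≤ yβ → yβ ≤ 23 / 50 →
      crs (U yα) (U yβ) = 2 / 25 * (x * η + v * ξ) →
      ∃ r1 r2 : ℝ, ta < r1 ∧ r1 ≤ r2 ∧ r2 < ta + 2 * π ∧
      24 / 1000 ≤ ∫ r in r1..r2, D.k r (D.sig ta) ∧ ∀ tb ∈ Icc r1 r2, D.Deep ta tb := by
    intro yα yβ hα1 hα2 hβ1 hβ2 hcc
    have hΔ : 0 < x * η + v * ξ := lt_of_lt_of_le (by (clear * - hL0; positivity)) hcr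
    have hcpos : 0 < crs (U yα) (U yβ) := by rw [hcc]; (clear * - hΔ; positivity)
    obtain ⟨r1, r2, h1, h2, h3, h4, h5⟩ := D.exists_arc ta (U yα) (U yβ) (hq yα hα1 hα2)
      (hq yβ hβ1 hβ2) hcpos
    refine ⟨r1, r2, h1, h2, h3, ?_, ?_⟩
    · refine le_trans ?_ h4
      have n1 := D.norm_U_le t0 ta p x v ξ η s L hs2 hTa hTp hF yα hα1 hα2
      have n2 := D.norm_U_le t0 ta p x v ξ η s L hs2 hTa hTp hF yβ hβ1 hβ2
      have n3 : ‖U yα‖ * ‖U yβ‖ ≤ 8263 / 10000 * L ^ 2 := by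
        have : ‖U yα‖ * ‖U yβ‖ ≤ (‖U yα‖ ^ 2 + ‖U yβ‖ ^ 2) / 2 := by
          nlinarith only [sq_nonneg (‖U yα‖ - ‖U yβ‖)]
        have n1' : ‖U yα‖ ^ 2 ≤ 8263 / 10000 * L ^ 2 := n1
        have n2' : ‖U yβ‖ ^ 2 ≤ 8263 / 10000 * L ^ 2 := n2
        linarith only [n1, n2, this]
      have n4 : 0 < ‖U yα‖ * ‖U yβ‖ := by
        apply mul_pos
        · exact norm_pos_iff.2 (fun h => by have := hq yα hα1 hα2; rw [h] at this; simp at this)
        · exact norm_pos_iff.2 (fun h => by have := hq yβ hβ1 hβ2; rw [h] at this; simp at this)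
      have hpi : 0 < π := Real.pi_pos
      have hpi2 : π < 3.15 := Real.pi_lt_d2
      rw [le_div_iff₀ hpi, le_div_iff₀ n4, hcc]
      have n5 : 24 / 1000 * π ≤ 24 / 1000 * 3.15 := by linarith only [hpi2]
      calc 24 / 1000 * π * (‖U yα‖ * ‖U yβ‖) ≤ 24 / 1000 * 3.15 * (8263 / 10000 * L ^ 2) := by
            (clear * - n5 n3 n4; gcongr)
        _ ≤ 2 / 25 * (x * η + v * ξ) := by linarith only [hcr, hcc, hcpos]
    · intro tb htb
      have htb1 : ta < tb := lt_of_lt_of_le h1 htb.1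
      have htb2 : tb < ta + 2 * π := lt_of_le_of_lt htb.2 h3
      obtain ⟨α, β, hα, hβ, hαβ, hdec⟩ := h5 tb htb
      refine ⟨fun h => D.sig_sub_ne htb1 htb2 (sub_eq_zero.2 h), ?_⟩
      have hbq : D.sig tb = a + ((α + β : ℝ) : ℂ) *
          (o + (((α * yα + β * yβ) / (α + β) : ℝ) : ℂ) * (p - o) - a) := by
        have hne : -ee (-ta) ≠ 0 := neg_ne_zero.2 (ee_ne_zero _)
        have e1 : -ee (-ta) * (D.sig tb - a) = -ee (-ta) * (((α + β : ℝ) : ℂ) *
          (o + (((α * yα + β * yβ) / (α + β) : ℝ) : ℂ) * (p - o) - a)) := by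
          have e2 : -ee (-ta) * (D.sig tb - a) = D.dir ta tb := rfl
          rw [e2, hdec]
          have hne' : (α : ℂ) + (β : ℂ) ≠ 0 := by
            have : ((α + β : ℝ) : ℂ) ≠ 0 := by exact_mod_cast hαβ.ne'
            simpa only [ne_eq, ofReal_add] using this
          simp only [U]
          push_cast
          field_simp
          ring
        have e3 := mul_left_cancel₀ hne e1
        rw [← e3]; ring
      apply D.nice_chord t0 a p (D.sig tb) (D.sig_mem_K ta) hp (D.sig_mem_K tb)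
        (D.sig_not_mem_Om tb) x v ξ η s L hs2 hTa hTp hF _ _ _ _ hαβ hbq
      · rw [le_div_iff₀ hαβ]; nlinarith only [hα1, hα, hβ1, hβ]
      · rw [div_le_iff₀ hαβ]; nlinarith only [hα2, hα, hβ2, hβ]
  rcases hs with h | h
  · apply key (23 / 50) (19 / 50) (by norm_num) (by norm_num) (by norm_num) (by norm_num)
    rw [hcrsU, h]; ring
  · apply key (19 / 50) (23 / 50) (by norm_num) (by norm_num) (by norm_num) (by norm_num)
    rw [hcrsU, h]; ring

theorem first_arc (t0 s : ℝ) (hs : s = 1 ∨ s = -1) :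
    ∃ s1 s2 : ℝ, t0 < s1 ∧ s1 ≤ s2 ∧ s2 < t0 + 2 * π ∧
      18 / 1000 ≤ (∫ r in s1..s2, D.k r (D.sig t0)) ∧
      ∀ ta ∈ Icc s1 s2, ∃ x v : ℝ, 0 < x ∧ 14 / 25 * x ≤ v ∧ v ≤ 16 / 25 * x ∧
        -ee (-t0) * (D.sig ta - D.sig t0) = (x : ℂ) - (s * v : ℝ) * Complex.I := by
  have hpi : 0 < π := Real.pi_pos
  have hpi2 : π < 3.15 := Real.pi_lt_d2
  -- the two directions, ordered
  have key : ∀ mα mβ : ℝ, 14 / 25 ≤ mα → mα ≤ 16 / 25 → 14 / 25 ≤ mβ → mβ ≤ 16 / 25 →
      s * (mα - mβ) = 2 / 25 →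
      ∃ s1 s2 : ℝ, t0 < s1 ∧ s1 ≤ s2 ∧ s2 < t0 + 2 * π ∧
      18 / 1000 ≤ (∫ r in s1..s2, D.k r (D.sig t0)) ∧
      ∀ ta ∈ Icc s1 s2, ∃ x v : ℝ, 0 < x ∧ 14 / 25 * x ≤ v ∧ v ≤ 16 / 25 * x ∧
        -ee (-t0) * (D.sig ta - D.sig t0) = (x : ℂ) - (s * v : ℝ) * Complex.I := by
    intro mα mβ h1 h2 h3 h4 h5
    set u1 : ℂ := 1 - (s * mα : ℝ) * Complex.I with hu1
    set u2 : ℂ := 1 - (s * mβ : ℝ) * Complex.I with hu2
    have r1 : u1.re = 1 := by simp [hu1]
    have i1 : u1.im = -(s * mα) := by simp only [hu1, ofReal_mul, sub_im, one_im, mul_im, mul_re, ofReal_re, ofReal_im, mul_zero, sub_zero, I_im, mul_one, zero_mul, add_zero, I_re, zero_sub]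
    have r2 : u2.re = 1 := by simp [hu2]
    have i2 : u2.im = -(s * mβ) := by simp [hu2]
    have hc : crs u1 u2 = 2 / 25 := by
      unfold crs; rw [r1, i1, r2, i2]; linarith only [h5]
    have hs2 : s ^ 2 = 1 := by rcases hs with h | h <;> rw [h] <;> norm_num
    have nb : ∀ (u : ℂ) (m : ℝ), u.re = 1 → u.im = -(s * m) → 14 / 25 ≤ m → m ≤ 16 / 25 →
        ‖u‖ ^ 2 ≤ 14096 / 10000 := by
      intro u m hr hi hm1 hm2
      rw [Complex.sq_norm, Complex.normSq_apply, hr, hi]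
      have : 1 * 1 + -(s * m) * -(s * m) = 1 + s ^ 2 * m ^ 2 := by ring
      rw [this, hs2]; nlinarith only [hm2, hm1]
    obtain ⟨s1, s2, g1, g2, g3, g4, g5⟩ := D.exists_arc t0 u1 u2 (by rw [r1]; norm_num)
      (by rw [r2]; norm_num) (by rw [hc]; norm_num)
    refine ⟨s1, s2, g1, g2, g3, ?_, ?_⟩
    · refine le_trans ?_ g4
      have n1 := nb u1 mα r1 i1 h1 h2
      have n2 := nb u2 mβ r2 i2 h3 h4
      have n3 : ‖u1‖ * ‖u2‖ ≤ 14096 / 10000 := by
        nlinarith only [n1, n2]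
      have n4 : 0 < ‖u1‖ * ‖u2‖ := by
        apply mul_pos
        · exact norm_pos_iff.2 (fun h => by rw [h] at r1; simp at r1)
        · exact norm_pos_iff.2 (fun h => by rw [h] at r2; simp at r2)
      rw [le_div_iff₀ hpi, le_div_iff₀ n4, hc]
      calc 18 / 1000 * π * (‖u1‖ * ‖u2‖) ≤ 18 / 1000 * 3.15 * (14096 / 10000) := by (clear * - hpi2 n3 n4; gcongr)
        _ ≤ 2 / 25 := by (clear * -; norm_num)
    · intro ta hta
      obtain ⟨α, β, hα, hβ, hαβ, hdec⟩ := g5 ta hta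
      refine ⟨α + β, α * mα + β * mβ, hαβ, by nlinarith only [h1, hα, h3, hβ], by nlinarith only [h2, hα, h4, hβ], ?_⟩
      have e2 : -ee (-t0) * (D.sig ta - D.sig t0) = D.dir t0 ta := rfl
      rw [e2, hdec, hu1, hu2]
      push_cast
      ring
  rcases hs with h | h
  · exact key (16 / 25) (14 / 25) (by norm_num) (by norm_num) (by norm_num) (by norm_num)
      (by rw [h]; norm_num)
  · exact key (14 / 25) (16 / 25) (by norm_num) (by norm_num) (by norm_num) (by norm_num)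
      (by rw [h]; norm_num)

theorem norm_frame (t0 x v s : ℝ) (w : ℂ) (hs : s ^ 2 = 1)
    (h : -ee (-t0) * w = (x : ℂ) - (s * v : ℝ) * Complex.I) : ‖w‖ ^ 2 = x ^ 2 + v ^ 2 := by
  have e0 : ‖w‖ = ‖-ee (-t0) * w‖ := by rw [norm_mul, norm_neg, norm_ee, one_mul]
  rw [e0, h, Complex.sq_norm, Complex.normSq_apply]
  simp only [Complex.sub_re, Complex.mul_re, Complex.mul_im,
    Complex.ofReal_re, Complex.ofReal_im, Complex.I_re, Complex.I_im, Complex.sub_im]
  ring_nf
  rw [hs]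
  ring

theorem step_of_farther (t0 ta tp s : ℝ) (hs : s = 1 ∨ s = -1) (x v x' v' : ℝ)
    (hx : 0 < x) (hv1 : 14 / 25 * x ≤ v) (hv2 : v ≤ 16 / 25 * x)
    (hx' : 0 < x') (hv1' : 14 / 25 * x' ≤ v') (hv2' : v' ≤ 16 / 25 * x')
    (hTa : -ee (-t0) * (D.sig ta - D.sig t0) = (x : ℂ) - (s * v : ℝ) * Complex.I)
    (hTp : -ee (-t0) * (D.sig tp - D.sig t0) = (x' : ℂ) - (-s * v' : ℝ) * Complex.I)
    (hfar : ‖D.sig ta - D.sig t0‖ ≤ ‖D.sig tp - D.sig t0‖) :
    ∃ r1 r2 : ℝ, ta < r1 ∧ r1 ≤ r2 ∧ r2 < ta + 2 * π ∧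
      24 / 1000 ≤ ∫ r in r1..r2, D.k r (D.sig ta) ∧ ∀ tb ∈ Icc r1 r2, D.Deep ta tb := by
  have hs2 : s ^ 2 = 1 := by rcases hs with h | h <;> rw [h] <;> norm_num
  have n1 := norm_frame t0 x v s _ hs2 hTa
  have n2 := norm_frame t0 x' v' (-s) _ (by rw [neg_sq]; exact hs2) hTp
  have hLa : 0 < ‖D.sig ta - D.sig t0‖ := by
    apply lt_of_le_of_ne (norm_nonneg _)
    intro h
    rw [← h] at n1
    nlinarith only [n1, hx]
  have hLp : 0 < ‖D.sig tp - D.sig t0‖ := lt_of_lt_of_le hLa hfar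
  set La := ‖D.sig ta - D.sig t0‖
  set Lp := ‖D.sig tp - D.sig t0‖
  set ρ := La / Lp with hρ
  have hρ0 : 0 < ρ := by (clear * - hLa hLp; positivity)
  have hρ1 : ρ ≤ 1 := by rw [hρ, div_le_one hLp]; exact hfar
  have hρL : ρ ^ 2 * Lp ^ 2 = La ^ 2 := by
    rw [hρ]; (clear * - hLp hLa; field_simp)
  apply D.second_step t0 ta (D.sig t0 + (ρ : ℂ) * (D.sig tp - D.sig t0)) _ x v (ρ * x') (ρ * v') s
    La hs hTa
  · have e1 : -ee (-t0) * (D.sig t0 + (ρ : ℂ) * (D.sig tp - D.sig t0) - D.sig t0) =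
        (ρ : ℂ) * (-ee (-t0) * (D.sig tp - D.sig t0)) := by ring
    rw [e1, hTp]; push_cast; ring
  · refine ⟨hx, by (clear * - hLa hLp hx'; positivity), hLa, hv1, hv2, ?_, ?_, n1.symm, ?_⟩
    · have : ρ * (14 / 25 * x') ≤ ρ * v' := by (clear * - hv1' hLa hLp; gcongr)
      linarith only [this]
    · have : ρ * v' ≤ ρ * (16 / 25 * x') := by (clear * - hv2' hLa hLp; gcongr)
      linarith only [this]
    · rw [← hρL, n2]; ring
  · have := D.convex_K (D.sig_mem_K t0) (D.sig_mem_K tp) (show (0:ℝ) ≤ 1 - ρ by linarith only [hρ1])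
      hρ0.le (by ring)
    convert this using 1
    simp only [Complex.real_smul]
    push_cast
    ring

/-- the geometric core: a fixed proportion of two step chords is deep -/
theorem exists_good_arc (t0 : ℝ) :
    ∃ s1 s2 : ℝ, t0 < s1 ∧ s1 ≤ s2 ∧ s2 < t0 + 2 * π ∧
      18 / 1000 ≤ (∫ r in s1..s2, D.k r (D.sig t0)) ∧
      ∀ ta ∈ Icc s1 s2, ∃ r1 r2 : ℝ, ta < r1 ∧ r1 ≤ r2 ∧ r2 < ta + 2 * π ∧
        24 / 1000 ≤ (∫ r in r1..r2, D.k r (D.sig ta)) ∧ ∀ tb ∈ Icc r1 r2, D.Deep ta tb := by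
  obtain ⟨s1, s2, a1, a2, a3, a4, a5⟩ := D.first_arc t0 1 (Or.inl rfl)
  obtain ⟨q1, q2, b1, b2, b3, b4, b5⟩ := D.first_arc t0 (-1) (Or.inr rfl)
  by_cases H : ∀ ta ∈ Icc s1 s2, ∃ tp ∈ Icc q1 q2,
      ‖D.sig ta - D.sig t0‖ ≤ ‖D.sig tp - D.sig t0‖
  · refine ⟨s1, s2, a1, a2, a3, a4, fun ta hta => ?_⟩
    obtain ⟨tp, htp, hfar⟩ := H ta hta
    obtain ⟨x, v, hx, hv1, hv2, hT⟩ := a5 ta hta
    obtain ⟨x', v', hx', hv1', hv2', hT'⟩ := b5 tp htp
    exact D.step_of_farther t0 ta tp 1 (Or.inl rfl) x v x' v' hx hv1 hv2 hx' hv1' hv2' hT hT' hfar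
  · push Not at H
    obtain ⟨tp, htp, hfar⟩ := H
    refine ⟨q1, q2, b1, b2, b3, b4, fun ta hta => ?_⟩
    obtain ⟨x, v, hx, hv1, hv2, hT⟩ := b5 ta hta
    obtain ⟨x', v', hx', hv1', hv2', hT'⟩ := a5 tp htp
    refine D.step_of_farther t0 ta tp (-1) (Or.inr rfl) x v x' v' hx hv1 hv2 hx' hv1' hv2' hT ?_
      (hfar ta hta).le
    rw [hT']; push_cast; ring

end Dom

end Vale.Agent.P123
end
end

section

section

namespace Vale.Agent.P123

open Complex MeasureTheory Set Filter Topology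
open scoped Real

namespace Dom

variable (D : Dom)

/-- lower bound of a layer average by the contribution of an arc -/
theorem Dr_ge_arc {w : ℝ → ℝ} (hw : Continuous w) (hper : ∀ s, w (s + 2 * π) = w s)
    (h0 : ∀ s, 0 ≤ w s) (t s1 s2 m p : ℝ) (hm : 0 ≤ m) (h1 : t ≤ s1) (h12 : s1 ≤ s2)
    (h2 : s2 ≤ t + 2 * π) (hp : p ≤ ∫ r in s1..s2, D.k r (D.sig t))
    (hwm : ∀ s ∈ Icc s1 s2, m ≤ w s) : m * p ≤ D.Dr w t := by
  have hk := D.k_nonneg (D.sig_mem_K t)
  have e1 : D.Dr w t = ∫ s in t..(t + 2*π), w s * D.k s (D.sig t) := by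
    rw [D.Dr_eq, D.Dv_shift hper t t]
    congr 1
    funext s
    rw [smul_eq_mul, mul_comm]
  have i0 : ∀ a b, IntervalIntegrable (fun s => w s * D.k s (D.sig t)) volume a b :=
    fun a b => D.intervalIntegrable_mul_k hw t a b
  have e2 : ∫ s in s1..s2, w s * D.k s (D.sig t) ≤ D.Dr w t := by
    rw [e1]
    apply intervalIntegral.integral_mono_interval h1 h12 h2
    · apply Filter.Eventually.of_forall
      intro s
      exact mul_nonneg (h0 s) (hk s)
    · exact i0 _ _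
  have e3 : m * (∫ r in s1..s2, D.k r (D.sig t)) ≤ ∫ s in s1..s2, w s * D.k s (D.sig t) := by
    rw [← intervalIntegral.integral_const_mul]
    apply intervalIntegral.integral_mono_on h12
    · exact (D.intervalIntegrable_k_sig' t _ _).const_mul m
    · exact i0 _ _
    · intro s hs
      exact mul_le_mul_of_nonneg_right (hwm s hs) (hk s)
  calc m * p ≤ m * (∫ r in s1..s2, D.k r (D.sig t)) := by (clear * - hp hm; gcongr)
    _ ≤ _ := e3
    _ ≤ _ := e2

theorem Dr_add {v w : ℝ → ℝ} (hv : Continuous v) (hw : Continuous w) (t : ℝ) :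
    D.Dr (fun s => v s + w s) t = D.Dr v t + D.Dr w t := by
  unfold Dr
  rw [← intervalIntegral.integral_add (D.intervalIntegrable_mul_k hv t _ _)
    (D.intervalIntegrable_mul_k hw t _ _)]
  congr 1
  funext s
  ring

theorem Dr_const_mul (c : ℝ) (w : ℝ → ℝ) (t : ℝ) :
    D.Dr (fun s => c * w s) t = c * D.Dr w t := by
  unfold Dr
  rw [← intervalIntegral.integral_const_mul]
  congr 1
  funext s
  ring

end Dom

theorem three_sq (a b c : ℝ) : (a + b + c) ^ 2 ≤ 3 * (a ^ 2 + b ^ 2 + c ^ 2) := by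
  nlinarith [sq_nonneg (a - b), sq_nonneg (b - c), sq_nonneg (a - c)]

/-- Lemma A, given the chord lemma with constant `c`. -/
theorem lemmaA_of_chord {D : Dom} {φ : ℝ → ℂ} (hφ : BV D φ) {c : ℝ} (hc : 0 < c)
    (hchord : ∀ ta tb, D.Deep ta tb →
      c ≤ Real.sqrt (D.w1 φ ta) + Real.sqrt (D.w1 φ tb) + ‖φ ta + φ tb‖) (t0 : ℝ) :
    432 / 1000000 * c ^ 2 ≤ 9 * D.Dr (D.w1 φ) t0 + 3 * D.Dr (D.Dr (D.w1 φ)) t0 := by
  have hw := hφ.continuous_w1
  have hwp := hφ.w1_periodic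
  have hw0 := hφ.w1_nonneg
  have hDw := hφ.continuous_Dr_w1
  have hDwp := D.Dr_periodic (D.w1 φ)
  have hDw0 : ∀ t, 0 ≤ D.Dr (D.w1 φ) t := fun t => D.Dr_nonneg hw0 t
  obtain ⟨s1, s2, a1, a2, a3, a4, a5⟩ := D.exists_good_arc t0
  -- pointwise estimate on the first arc
  have key : ∀ ta ∈ Icc s1 s2, c ^ 2 * (24 / 1000) ≤ 9 * D.w1 φ ta + 3 * D.Dr (D.w1 φ) ta := by
    intro ta hta
    obtain ⟨r1, r2, b1, b2, b3, b4, b5⟩ := a5 ta hta
    let Q : ℝ → ℝ := fun tb => 3 * (D.w1 φ ta + (D.w1 φ tb + ‖φ tb + φ ta‖ ^ 2))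
    have hQc1 : Continuous (fun tb => ‖φ tb + φ ta‖ ^ 2) :=
      (hφ.cont.add continuous_const).norm.pow 2
    have hQc : Continuous Q := continuous_const.mul (continuous_const.add (hw.add hQc1))
    have hQp : ∀ s, Q (s + 2 * π) = Q s := by
      intro s; simp only [Q]; rw [hwp, hφ.per]
    have hQ0 : ∀ s, 0 ≤ Q s := by
      intro s
      have := hw0 ta
      have := hw0 s
      simp only [Q]; (clear c hc hchord t0 hw hwp hDw hDwp hDw0 s1 s2 a1 a2 a3 a4 a5 hta r1 r2 b1 b2 b3 b4 b5 Q hQc1 hQc hQp; positivity)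
    have h1 : c ^ 2 * (24 / 1000) ≤ D.Dr Q ta := by
      apply D.Dr_ge_arc hQc hQp hQ0 ta r1 r2 (c ^ 2) (24 / 1000) (by positivity) b1.le b2 b3.le b4
      intro tb htb
      have h2 := hchord ta tb (b5 tb htb)
      have h3 : c ^ 2 ≤ (Real.sqrt (D.w1 φ ta) + Real.sqrt (D.w1 φ tb) + ‖φ ta + φ tb‖) ^ 2 := by
        (clear * - hc h2; gcongr)
      have h4 := three_sq (Real.sqrt (D.w1 φ ta)) (Real.sqrt (D.w1 φ tb)) ‖φ ta + φ tb‖
      rw [Real.sq_sqrt (hw0 ta), Real.sq_sqrt (hw0 tb)] at h4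
      have h5 : ‖φ tb + φ ta‖ = ‖φ ta + φ tb‖ := by rw [add_comm]
      simp only [Q]
      rw [h5]
      linarith only [h3, h4]
    have h2 : D.Dr Q ta = 3 * (D.w1 φ ta + (D.Dr (D.w1 φ) ta +
        D.Dr (fun s => ‖φ s + φ ta‖ ^ 2) ta)) := by
      rw [← D.Dr_add hw hQc1]
      have e1 : D.Dr Q ta = 3 * D.Dr (fun tb => D.w1 φ ta + (D.w1 φ tb + ‖φ tb + φ ta‖ ^ 2)) ta :=
        D.Dr_const_mul 3 _ ta
      have hQc2 : Continuous (fun tb => D.w1 φ tb + ‖φ tb + φ ta‖ ^ 2) := hw.add hQc1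
      have e2 := D.Dr_add (v := fun _ => D.w1 φ ta) continuous_const hQc2 ta
      rw [D.Dr_const] at e2
      rw [e1, e2]
    have h3 := hφ.Dr_sq_le ta
    rw [h2] at h1
    linarith only [h1, h3]
  have hc1 : Continuous (fun t => 9 * D.w1 φ t) := continuous_const.mul hw
  have hc2 : Continuous (fun t => 3 * D.Dr (D.w1 φ) t) := continuous_const.mul hDw
  have h6 := D.Dr_ge_arc (w := fun t => 9 * D.w1 φ t + 3 * D.Dr (D.w1 φ) t) (hc1.add hc2)
    (fun s => by rw [hwp, hDwp]) (fun s => by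
      have := hw0 s
      have := hDw0 s
      (clear c hc hchord t0 hw hwp hDw hDwp s1 s2 a1 a2 a3 a4 a5 key hc1 hc2; positivity)) t0 s1 s2 (c ^ 2 * (24 / 1000)) (18 / 1000) (by positivity) a1.le a2 a3.le a4 key
  rw [D.Dr_add hc1 hc2, D.Dr_const_mul, D.Dr_const_mul] at h6
  linarith

end Vale.Agent.P123
end
end

section

section

namespace Vale.Agent.P123

open Complex MeasureTheory Set intervalIntegral
open scoped Real ComplexConjugate

namespace Chord

variable {D : Dom} (C : Chord D)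

theorem k_a_nonneg (s : ℝ) : 0 ≤ D.k s C.a := D.k_nonneg (D.sig_mem_K _) s
theorem k_b_nonneg (s : ℝ) : 0 ≤ D.k s C.b := D.k_nonneg (D.sig_mem_K _) s

theorem mA_le (s : ℝ) : C.mA s ≤ C.E * D.k s C.a := by
  have h := real_E_bound C.κ0 (C.x_pos s) (C.y_pos s) (C.le_x s) (C.le_y s) (C.x_le s) (C.y_le s)
    (norm_nonneg _) (C.dist_a_le s)
  unfold mA E
  rw [← C.k_a, mul_assoc]
  have := mul_le_mul_of_nonneg_left h (C.k_a_nonneg s)
  (clear * - this; linarith)

theorem mB_le (s : ℝ) : C.mB s ≤ C.E * D.k s C.b := by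
  have h := real_E_bound C.κ0 (C.y_pos s) (C.x_pos s) (C.le_y s) (C.le_x s) (C.y_le s) (C.x_le s)
    (norm_nonneg _) (by linarith [C.dist_b_le s] : 3 * ‖D.sig s - C.b‖ ≤ 2 * C.y s + C.x s)
  unfold mB E
  rw [← C.k_b, mul_assoc]
  have := mul_le_mul_of_nonneg_left h (C.k_b_nonneg s)
  have e : ‖D.sig s - C.b‖ ^ 2 * (2 / C.y s ^ 2 + 1 / C.x s ^ 2)
    = ‖D.sig s - C.b‖ ^ 2 * (1 / C.x s ^ 2 + 2 / C.y s ^ 2) := by ring
  rw [e] at this
  linarith only [this]

theorem kLR_le (s : ℝ) : C.κ * (C.L * D.R s / π) ≤ (1 - C.τ) * C.A s + C.τ * C.B s := by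
  have h1 := C.le_gap_z s
  rw [C.gap_z] at h1
  have h2 : 0 ≤ D.R s / π := div_nonneg (D.R_pos s).le Real.pi_pos.le
  have h3 := mul_le_mul_of_nonneg_left h1 h2
  unfold A B
  calc _ = D.R s / π * (C.κ * C.L) := by ring
    _ ≤ _ := h3
    _ = _ := by ring

theorem nn_eq (s : ℝ) : C.nn s = 3 / (2 * C.κ) * (C.κ * (C.L * D.R s / π)) / (C.x s * C.y s) := by
  have h1 := (C.x_pos s).ne'
  have h2 := (C.y_pos s).ne'
  have h3 := Real.pi_ne_zero
  have h4 := C.κ0.ne'
  unfold nn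
  field_simp

theorem nn_le_aux (s : ℝ) :
    C.nn s ≤ 3 / (2 * C.κ) * ((1 - C.τ) * C.A s + C.τ * C.B s) / (C.x s * C.y s) := by
  rw [C.nn_eq]
  have h1 := C.x_pos s
  have h2 := C.y_pos s
  have h4 := C.κ0
  have := C.kLR_le s
  gcongr

theorem nn_le (s : ℝ) : C.nn s ≤ C.G * ((1 - C.τ) * D.k s C.a + C.τ * D.k s C.b) := by
  refine (C.nn_le_aux s).trans ?_
  have hx := C.x_pos s
  have hy := C.y_pos s
  have hκ := C.κ0
  have hka := C.k_a_nonneg s
  have hkb := C.k_b_nonneg s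
  have h0 := C.τ0
  have h1 : 0 ≤ 1 - C.τ := by linarith only [C.τ1]
  have ga := real_G_bound C.κ0 hx hy (C.le_x s) (C.le_y s) (C.x_le s) (C.y_le s)
    (norm_nonneg _) (C.dist_a_le s)
  have gb := real_G_bound C.κ0 hy hx (C.le_y s) (C.le_x s) (C.y_le s) (C.x_le s)
    (norm_nonneg _) (by linarith only [C.dist_b_le s] : 3 * ‖D.sig s - C.b‖ ≤ 2 * C.y s + C.x s)
  have hA : C.A s ≤ (1 + 4 / (3 * C.κ)) * (C.x s * C.y s) * D.k s C.a := by
    rw [← C.k_a, mul_comm]
    gcongr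
  have hB : C.B s ≤ (1 + 4 / (3 * C.κ)) * (C.x s * C.y s) * D.k s C.b := by
    rw [← C.k_b, mul_comm, mul_comm (C.x s)]
    (clear * - gb hkb; gcongr)
  rw [div_le_iff₀ (mul_pos hx hy)]
  calc 3 / (2 * C.κ) * ((1 - C.τ) * C.A s + C.τ * C.B s)
      ≤ 3 / (2 * C.κ) * ((1 - C.τ) * ((1 + 4 / (3 * C.κ)) * (C.x s * C.y s) * D.k s C.a) +
        C.τ * ((1 + 4 / (3 * C.κ)) * (C.x s * C.y s) * D.k s C.b)) := by gcongr
    _ = _ := by
      unfold G
      field_simp
      ring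

theorem nn_le' (s : ℝ) : C.nn s ≤ 15 / (28 * C.κ) * (C.mA s + C.mB s) := by
  refine (C.nn_le_aux s).trans ?_
  have hx := C.x_pos s
  have hy := C.y_pos s
  have hκ := C.κ0
  have hA := C.A_nonneg s
  have hB := C.B_nonneg s
  have h0 := C.τ0
  have h1 := C.τ1
  have k1 : ∀ x y : ℝ, 0 < x → 0 < y → 14 / 5 / (x * y) ≤ 2 / x ^ 2 + 1 / y ^ 2 := by
    intro x y hx hy
    rw [div_add_div _ _ (by positivity) (by positivity), div_le_div_iff₀ (by positivity)
      (by positivity)]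
    have : 0 ≤ x * y * (2 * y ^ 2 + x ^ 2 - 14 / 5 * (x * y)) := by
      apply mul_nonneg (by positivity)
      nlinarith only [sq_nonneg (x - 7 / 5 * y)]
    linarith
  have k2 := k1 _ _ hx hy
  have k3 : 14 / 5 / (C.x s * C.y s) ≤ 1 / C.x s ^ 2 + 2 / C.y s ^ 2 := by
    have := k1 _ _ hy hx
    rw [mul_comm, add_comm]; exact this
  have k4 : (1 - C.τ) * C.A s ≤ C.A s := by nlinarith only [hA, h0]
  have k5 : C.τ * C.B s ≤ C.B s := by nlinarith only [hB, h1]
  unfold mA mB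
  calc 3 / (2 * C.κ) * ((1 - C.τ) * C.A s + C.τ * C.B s) / (C.x s * C.y s)
      ≤ 3 / (2 * C.κ) * (C.A s + C.B s) / (C.x s * C.y s) := by (clear * - k4 k5 hκ hx hy; gcongr)
    _ = 15 / (28 * C.κ) * (C.A s * (14 / 5 / (C.x s * C.y s)) +
        C.B s * (14 / 5 / (C.x s * C.y s))) := by field_simp; ring
    _ ≤ _ := by gcongr

/-- lower bound of the mass by the kernel at the deep point -/
theorem mAB_ge (hκ1 : C.κ ≤ 1 / 20) (s : ℝ) :
    37 / 20 * C.κ ^ 2 * D.k s C.z ≤ C.mA s + C.mB s := by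
  have hκ := C.κ0
  have hL := C.L_pos
  have hx := C.x_pos s
  have hy := C.y_pos s
  have hA := C.A_nonneg s
  have hB := C.B_nonneg s
  have h0 := C.τ0
  have h1 := C.τ1
  set w := ‖D.sig s - C.z‖ with hw
  have hwz : C.κ * C.L ≤ w := by
    have e1 := C.le_gap_z s
    have e2 := D.re_ee_neg_mul_sig_sub s C.z
    have e3 := Dom.abs_re_ee_mul_le (-s) (D.sig s - C.z)
    have e4 := (abs_le.1 e3).2
    rw [e2] at e4
    linarith only [e1, e4]
  have hw0 : 0 < w := lt_of_lt_of_le C.kL_pos hwz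
  have hLw : C.L ≤ w / C.κ := by rw [le_div_iff₀ hκ]; linarith only [hwz]
  have hzk : D.k s C.z = ((1 - C.τ) * C.A s + C.τ * C.B s) / w ^ 2 := by
    rw [D.k_eq, C.gap_z]
    unfold A B
    ring
  have hzp : ‖C.z - C.p‖ = (1 + C.τ) * C.L := by
    have : C.z - C.p = (1 + C.τ) • (C.b - C.a) := by
      unfold z p
      simp only [Complex.real_smul]
      push_cast; ring
    rw [this, norm_smul, Real.norm_of_nonneg (by linarith only [h0])]; rfl
  have hzq : ‖C.z - C.q‖ = (2 - C.τ) * C.L := by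
    have : C.z - C.q = (-(2 - C.τ)) • (C.b - C.a) := by
      unfold z q
      simp only [Complex.real_smul]
      push_cast; ring
    rw [this, norm_smul, norm_neg, Real.norm_of_nonneg (by linarith only [h1])]; rfl
  have hxw : C.x s ≤ (C.κ + 1 + C.τ) / C.κ * w := by
    have e1 : C.x s ≤ w + (1 + C.τ) * C.L := by
      have : D.sig s - C.p = (D.sig s - C.z) + (C.z - C.p) := by ring
      unfold x
      rw [this, ← hzp]
      exact norm_add_le _ _
    have e2 : (1 + C.τ) * C.L ≤ (1 + C.τ) * (w / C.κ) := by (clear * - hLw h0; gcongr)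
    have e3 : (C.κ + 1 + C.τ) / C.κ * w = w + (1 + C.τ) * (w / C.κ) := by field_simp; ring
    (clear * - e1 e2 e3; linarith)
  have hyw : C.y s ≤ (C.κ + 2 - C.τ) / C.κ * w := by
    have e1 : C.y s ≤ w + (2 - C.τ) * C.L := by
      have : D.sig s - C.q = (D.sig s - C.z) + (C.z - C.q) := by ring
      unfold y
      rw [this, ← hzq]
      exact norm_add_le _ _
    have e2 : (2 - C.τ) * C.L ≤ (2 - C.τ) * (w / C.κ) := by
      have : 0 ≤ 2 - C.τ := by linarith only [h1]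
      (clear * - hLw this; gcongr)
    have e3 : (C.κ + 2 - C.τ) / C.κ * w = w + (2 - C.τ) * (w / C.κ) := by field_simp; ring
    linarith only [e1, e2, e3]
  have h2τ : 0 < C.κ + 2 - C.τ := by linarith only [hκ, h1]
  have ix : ∀ c : ℝ, 0 ≤ c →
      C.κ ^ 2 / w ^ 2 * (c / (C.κ + 1 + C.τ) ^ 2) ≤ c / C.x s ^ 2 := by
    intro c hc
    have : C.κ ^ 2 / w ^ 2 * (c / (C.κ + 1 + C.τ) ^ 2) =
      c / ((C.κ + 1 + C.τ) / C.κ * w) ^ 2 := by (clear * - hκ h0 hw0; field_simp)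
    rw [this]
    (clear * - hc hx hxw; gcongr)
  have iy : ∀ c : ℝ, 0 ≤ c →
      C.κ ^ 2 / w ^ 2 * (c / (C.κ + 2 - C.τ) ^ 2) ≤ c / C.y s ^ 2 := by
    intro c hc
    have : C.κ ^ 2 / w ^ 2 * (c / (C.κ + 2 - C.τ) ^ 2) =
      c / ((C.κ + 2 - C.τ) / C.κ * w) ^ 2 := by (clear * - h2τ hw0 hκ; field_simp)
    rw [this]
    (clear * - hc hy hyw; gcongr)
  have y1 := real_Y_bound hκ hκ1 h0 h1
  have y2 := real_Y_bound hκ hκ1 (by linarith only [h1] : 0 ≤ 1 - C.τ) (by linarith only [h0])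
  have e1 : C.κ + 1 + (1 - C.τ) = C.κ + 2 - C.τ := by ring
  have e2 : C.κ + 2 - (1 - C.τ) = C.κ + 1 + C.τ := by ring
  rw [e1, e2] at y2
  have e3 : 1 - (1 - C.τ) = C.τ := by ring
  rw [e3] at y2
  have hcw : 0 ≤ C.κ ^ 2 / w ^ 2 := by (clear * - hκ hw0; positivity)
  have fa : C.κ ^ 2 / w ^ 2 * (37 / 20 * (1 - C.τ)) ≤ 2 / C.x s ^ 2 + 1 / C.y s ^ 2 := by
    calc _ ≤ C.κ ^ 2 / w ^ 2 * (2 / (C.κ + 1 + C.τ) ^ 2 + 1 / (C.κ + 2 - C.τ) ^ 2) := by (clear * - y1 hκ hw0; gcongr)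
      _ ≤ _ := by
        have := ix 2 (by norm_num)
        have := iy 1 (by norm_num)
        (clear hL hA hB hw hzk y1 y2 e1 e2 e3 hcw; linarith)
  have fb : C.κ ^ 2 / w ^ 2 * (37 / 20 * C.τ) ≤ 1 / C.x s ^ 2 + 2 / C.y s ^ 2 := by
    calc _ ≤ C.κ ^ 2 / w ^ 2 * (2 / (C.κ + 2 - C.τ) ^ 2 + 1 / (C.κ + 1 + C.τ) ^ 2) := by (clear * - y2 hκ hw0; gcongr)
      _ ≤ _ := by
        have := ix 1 (by norm_num)
        have := iy 2 (by norm_num)
        (clear hL hA hB hw hzk y1 y2 e1 e2 e3 hcw fa; linarith)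
  rw [hzk]
  unfold mA mB
  calc 37 / 20 * C.κ ^ 2 * (((1 - C.τ) * C.A s + C.τ * C.B s) / w ^ 2)
      = C.A s * (C.κ ^ 2 / w ^ 2 * (37 / 20 * (1 - C.τ))) +
        C.B s * (C.κ ^ 2 / w ^ 2 * (37 / 20 * C.τ)) := by ring
    _ ≤ _ := by (clear * - fa hA fb hB; gcongr)

/-- total mass -/
noncomputable def Y : ℝ := ∫ s in (0:ℝ)..(2*π), (C.mA s + C.mB s)

theorem z_mem_Om : C.z ∈ D.Om := by
  rw [D.mem_Om_iff]
  intro t
  exact lt_of_lt_of_le C.kL_pos (C.le_gap_z t)

theorem Y_ge (hκ1 : C.κ ≤ 1 / 20) : 37 / 10 * C.κ ^ 2 ≤ C.Y := by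
  have h1 := D.integral_k_of_mem_Om C.z_mem_Om
  have hc : Continuous (fun s => D.k s C.z) := by
    rw [continuous_iff_continuousAt]
    intro s
    exact D.continuousAt_k (D.sig_ne_of_mem_Om C.z_mem_Om s)
  have h2 : ∫ s in (0:ℝ)..(2*π), 37 / 20 * C.κ ^ 2 * D.k s C.z ≤ C.Y := by
    unfold Y
    apply intervalIntegral.integral_mono_on Real.two_pi_pos.le
    · exact (continuous_const.mul hc).intervalIntegrable _ _
    · exact (C.continuous_mA.add C.continuous_mB).intervalIntegrable _ _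
    · intro s _
      exact C.mAB_ge hκ1 s
  rw [intervalIntegral.integral_const_mul, h1] at h2
  linarith

end Chord

end Vale.Agent.P123
end
end

section

section

namespace Vale.Agent.P123

open Complex MeasureTheory Set intervalIntegral
open scoped Real ComplexConjugate

namespace Dom

variable (D : Dom)

theorem continuous_N_of_not_mem_K {p : ℂ} (hp : p ∉ D.K) : Continuous (fun s => D.N s p) := by
  rw [continuous_iff_continuousAt]
  intro s
  exact D.continuousAt_N (D.sig_ne_of_not_mem_K hp s)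

theorem continuous_k_of_not_mem_K {p : ℂ} (hp : p ∉ D.K) : Continuous (fun s => D.k s p) := by
  unfold k
  exact continuous_const.mul (Complex.continuous_re.comp (D.continuous_N_of_not_mem_K hp))

theorem integral_conj (f : ℝ → ℂ) (a b : ℝ) :
    ∫ s in a..b, conj (f s) = conj (∫ s in a..b, f s) := by
  simp only [intervalIntegral]
  rw [map_sub, ← _root_.integral_conj, ← _root_.integral_conj]

end Dom

namespace BV

variable {D : Dom} {φ : ℝ → ℂ} (hφ : BV D φ)

include hφ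

theorem integral_mul_k_eq {p : ℂ} (hp : p ∉ D.K) :
    ∫ s in (0:ℝ)..(2*π), φ s * (D.k s p : ℂ) =
      conj (∫ s in (0:ℝ)..(2*π), conj (φ s) * D.N s p) := by
  have hN := D.continuous_N_of_not_mem_K hp
  have h1 : ∀ s, φ s * (D.k s p : ℂ) = φ s * D.N s p + conj (conj (φ s) * D.N s p) := by
    intro s
    have : ((D.k s p : ℝ) : ℂ) = D.N s p + conj (D.N s p) := by
      rw [Complex.add_conj]; rfl
    rw [this, map_mul, Complex.conj_conj]
    ring
  simp_rw [h1]
  rw [intervalIntegral.integral_add, hφ.cauchy p hp, Dom.integral_conj, zero_add]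
  · exact (hφ.cont.mul hN).intervalIntegrable _ _
  · exact (Complex.continuous_conj.comp
      ((Complex.continuous_conj.comp hφ.cont).mul hN)).intervalIntegrable _ _

end BV

namespace Chord

variable {D : Dom} (C : Chord D) {φ : ℝ → ℂ} (hφ : BV D φ)

theorem norm_N_sub (s : ℝ) : ‖D.N s C.p - D.N s C.q‖ = C.nn s := by
  have h1 : D.sig s - C.p ≠ 0 := D.sig_ne_of_not_mem_K C.p_not_mem s
  have h2 : D.sig s - C.q ≠ 0 := D.sig_ne_of_not_mem_K C.q_not_mem s
  have hpi := Dom.pi_ne_zero_C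
  have h3 : D.N s C.p - D.N s C.q = ((D.R s / (2 * π) : ℝ) : ℂ) * ee s * (C.p - C.q) /
      ((D.sig s - C.p) * (D.sig s - C.q)) := by
    unfold Dom.N
    push_cast
    field_simp
    ring
  rw [h3, norm_div, norm_mul, norm_mul, norm_mul, Complex.norm_real, norm_ee, C.norm_p_sub_q,
    Real.norm_of_nonneg (div_nonneg (D.R_pos s).le Real.two_pi_pos.le)]
  have h4 := (C.x_pos s).ne'
  have h5 := (C.y_pos s).ne'
  unfold nn
  unfold x at *
  unfold y at *
  have := Real.pi_ne_zero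
  field_simp

/-- the function whose Cauchy integral is compared -/
noncomputable def hh (φ : ℝ → ℂ) (s : ℝ) : ℂ := conj (φ s) - conj (φ C.ta) ^ 2 * φ s

include hφ

theorem continuous_hh : Continuous (C.hh φ) := by
  unfold hh
  exact (Complex.continuous_conj.comp hφ.cont).sub (continuous_const.mul hφ.cont)

theorem integral_mAB : ∫ s in (0:ℝ)..(2*π), φ s * ((C.mA s - C.mB s : ℝ) : ℂ) =
    conj (∫ s in (0:ℝ)..(2*π), C.hh φ s * (D.N s C.p - D.N s C.q)) := by
  have hp := C.p_not_mem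
  have hq := C.q_not_mem
  have hNp := D.continuous_N_of_not_mem_K hp
  have hNq := D.continuous_N_of_not_mem_K hq
  have hkp := D.continuous_k_of_not_mem_K hp
  have hkq := D.continuous_k_of_not_mem_K hq
  have hcc : Continuous (fun s => conj (φ s)) := Complex.continuous_conj.comp hφ.cont
  have e1 : ∫ s in (0:ℝ)..(2*π), φ s * ((C.mA s - C.mB s : ℝ) : ℂ) =
      (∫ s in (0:ℝ)..(2*π), φ s * (D.k s C.p : ℂ)) -
      ∫ s in (0:ℝ)..(2*π), φ s * (D.k s C.q : ℂ) := by
    rw [← intervalIntegral.integral_sub]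
    · apply intervalIntegral.integral_congr
      intro s _
      simp only
      rw [← C.k_p_sub_k_q s]
      push_cast; ring
    · exact (hφ.cont.mul (Complex.continuous_ofReal.comp hkp)).intervalIntegrable _ _
    · exact (hφ.cont.mul (Complex.continuous_ofReal.comp hkq)).intervalIntegrable _ _
  rw [e1, hφ.integral_mul_k_eq hp, hφ.integral_mul_k_eq hq, ← map_sub]
  congr 1
  rw [← intervalIntegral.integral_sub]
  · have e2 : ∀ s, C.hh φ s * (D.N s C.p - D.N s C.q) =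
        (conj (φ s) * D.N s C.p - conj (φ s) * D.N s C.q) -
        (conj (φ C.ta) ^ 2 * (φ s * D.N s C.p) - conj (φ C.ta) ^ 2 * (φ s * D.N s C.q)) := by
      intro s
      unfold hh
      ring
    simp_rw [e2]
    rw [intervalIntegral.integral_sub (f := fun s => conj (φ s) * D.N s C.p -
      conj (φ s) * D.N s C.q)]
    · rw [intervalIntegral.integral_sub (f := fun s => conj (φ C.ta) ^ 2 * (φ s * D.N s C.p)),
        intervalIntegral.integral_const_mul, intervalIntegral.integral_const_mul,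
        hφ.cauchy _ hp, hφ.cauchy _ hq]
      · simp only [mul_zero, sub_self, sub_zero]
      · exact (continuous_const.mul (hφ.cont.mul hNp)).intervalIntegrable _ _
      · exact (continuous_const.mul (hφ.cont.mul hNq)).intervalIntegrable _ _
    · exact ((hcc.mul hNp).sub (hcc.mul hNq)).intervalIntegrable _ _
    · exact ((continuous_const.mul (hφ.cont.mul hNp)).sub
        (continuous_const.mul (hφ.cont.mul hNq))).intervalIntegrable _ _
  · exact (hcc.mul hNp).intervalIntegrable _ _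
  · exact (hcc.mul hNq).intervalIntegrable _ _

theorem norm_integral_mAB_le : ‖∫ s in (0:ℝ)..(2*π), φ s * ((C.mA s - C.mB s : ℝ) : ℂ)‖ ≤
    ∫ s in (0:ℝ)..(2*π), ‖C.hh φ s‖ * C.nn s := by
  rw [C.integral_mAB hφ, RCLike.norm_conj]
  refine (intervalIntegral.norm_integral_le_integral_norm Real.two_pi_pos.le).trans ?_
  apply le_of_eq
  apply intervalIntegral.integral_congr
  intro s _
  simp only [norm_mul, C.norm_N_sub]

/-- the main identity estimate -/
theorem norm_mul_Y_le : ‖φ C.ta‖ * C.Y ≤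
    (∫ s in (0:ℝ)..(2*π), (‖φ s + φ C.ta‖ * C.mA s + ‖φ s - φ C.ta‖ * C.mB s)) +
    ∫ s in (0:ℝ)..(2*π), ‖C.hh φ s‖ * C.nn s := by
  have hA := C.continuous_mA
  have hB := C.continuous_mB
  have hcA : Continuous (fun s => (C.mA s : ℂ)) := Complex.continuous_ofReal.comp hA
  have hcB : Continuous (fun s => (C.mB s : ℂ)) := Complex.continuous_ofReal.comp hB
  have hc := hφ.cont
  have e1 : φ C.ta * (C.Y : ℂ) =
      (∫ s in (0:ℝ)..(2*π), ((φ s + φ C.ta) * (C.mA s : ℂ) - (φ s - φ C.ta) * (C.mB s : ℂ))) -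
      ∫ s in (0:ℝ)..(2*π), φ s * ((C.mA s - C.mB s : ℝ) : ℂ) := by
    unfold Y
    rw [← intervalIntegral.integral_ofReal, ← intervalIntegral.integral_const_mul,
      ← intervalIntegral.integral_sub]
    · apply intervalIntegral.integral_congr
      intro s _
      push_cast
      ring
    · exact (((hc.add continuous_const).mul hcA).sub
        ((hc.sub continuous_const).mul hcB)).intervalIntegrable _ _
    · exact (hc.mul (Complex.continuous_ofReal.comp (hA.sub hB))).intervalIntegrable _ _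
  have hY : 0 ≤ C.Y := by
    unfold Y
    apply intervalIntegral.integral_nonneg Real.two_pi_pos.le
    intro s _
    exact add_nonneg (C.mA_nonneg s) (C.mB_nonneg s)
  have e2 : ‖φ C.ta‖ * C.Y = ‖φ C.ta * (C.Y : ℂ)‖ := by
    rw [norm_mul, Complex.norm_real, Real.norm_of_nonneg hY]
  rw [e2, e1]
  refine (norm_sub_le _ _).trans (add_le_add ?_ (C.norm_integral_mAB_le hφ))
  refine (intervalIntegral.norm_integral_le_integral_norm Real.two_pi_pos.le).trans ?_
  apply intervalIntegral.integral_mono_on Real.two_pi_pos.le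
  · exact (((hc.add continuous_const).mul hcA).sub
        ((hc.sub continuous_const).mul hcB)).norm.intervalIntegrable _ _
  · exact (((hc.add continuous_const).norm.mul hA).add
        ((hc.sub continuous_const).norm.mul hB)).intervalIntegrable _ _
  · intro s _
    refine (norm_sub_le _ _).trans ?_
    rw [norm_mul, norm_mul, Complex.norm_real, Complex.norm_real,
      Real.norm_of_nonneg (C.mA_nonneg s), Real.norm_of_nonneg (C.mB_nonneg s)]

theorem cs_part {l : ℝ} (hl : 0 < l) :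
    ∫ s in (0:ℝ)..(2*π), (‖φ s + φ C.ta‖ * C.mA s + ‖φ s - φ C.ta‖ * C.mB s) ≤
    l / 2 * C.Y + C.E / (2 * l) * (D.Dr (fun s => ‖φ s + φ C.ta‖ ^ 2) C.ta +
      D.Dr (fun s => ‖φ s - φ C.ta‖ ^ 2) C.tb) := by
  have hA := C.continuous_mA
  have hB := C.continuous_mB
  have hc := hφ.cont
  have hpt : ∀ r : ℝ, r ≤ l / 2 + r ^ 2 / (2 * l) := by
    intro r
    have : 0 ≤ (r - l) ^ 2 / (2 * l) := by (clear * - hl; positivity)
    have h2 : (r - l) ^ 2 / (2 * l) = l / 2 + r ^ 2 / (2 * l) - r := by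
      field_simp
      ring
    linarith only [this, h2]
  have hi1 := D.intervalIntegrable_mul_k (w := fun s => ‖φ s + φ C.ta‖ ^ 2)
    ((hc.add continuous_const).norm.pow 2) C.ta 0 (2*π)
  have hi2 := D.intervalIntegrable_mul_k (w := fun s => ‖φ s - φ C.ta‖ ^ 2)
    ((hc.sub continuous_const).norm.pow 2) C.tb 0 (2*π)
  have e1 : l / 2 * C.Y + C.E / (2 * l) * (D.Dr (fun s => ‖φ s + φ C.ta‖ ^ 2) C.ta +
      D.Dr (fun s => ‖φ s - φ C.ta‖ ^ 2) C.tb) =
      ∫ s in (0:ℝ)..(2*π), (l / 2 * (C.mA s + C.mB s) + C.E / (2 * l) *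
        (‖φ s + φ C.ta‖ ^ 2 * D.k s (D.sig C.ta) + ‖φ s - φ C.ta‖ ^ 2 * D.k s (D.sig C.tb))) := by
    unfold Y Dom.Dr
    rw [← intervalIntegral.integral_add hi1 hi2, ← intervalIntegral.integral_const_mul,
      ← intervalIntegral.integral_const_mul, ← intervalIntegral.integral_add]
    · exact (continuous_const.mul (hA.add hB)).intervalIntegrable _ _
    · exact (hi1.add hi2).const_mul _
  rw [e1]
  apply intervalIntegral.integral_mono_on Real.two_pi_pos.le
  · exact (((hc.add continuous_const).norm.mul hA).add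
        ((hc.sub continuous_const).norm.mul hB)).intervalIntegrable _ _
  · exact ((continuous_const.mul (hA.add hB)).intervalIntegrable _ _).add
      ((hi1.add hi2).const_mul _)
  · intro s _
    have a1 := C.mA_nonneg s
    have b1 := C.mB_nonneg s
    have a2 := C.mA_le s
    have b2 := C.mB_le s
    have r1 := mul_le_mul_of_nonneg_right (hpt ‖φ s + φ C.ta‖) a1
    have r2 := mul_le_mul_of_nonneg_right (hpt ‖φ s - φ C.ta‖) b1
    have r3 : ‖φ s + φ C.ta‖ ^ 2 / (2 * l) * C.mA s ≤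
        ‖φ s + φ C.ta‖ ^ 2 / (2 * l) * (C.E * D.k s C.a) := by (clear * - a2 hl; gcongr)
    have r4 : ‖φ s - φ C.ta‖ ^ 2 / (2 * l) * C.mB s ≤
        ‖φ s - φ C.ta‖ ^ 2 / (2 * l) * (C.E * D.k s C.b) := by (clear * - b2 hl; gcongr)
    have r5 : C.E / (2 * l) * (‖φ s + φ C.ta‖ ^ 2 * D.k s (D.sig C.ta) +
        ‖φ s - φ C.ta‖ ^ 2 * D.k s (D.sig C.tb)) =
        ‖φ s + φ C.ta‖ ^ 2 / (2 * l) * (C.E * D.k s C.a) +
        ‖φ s - φ C.ta‖ ^ 2 / (2 * l) * (C.E * D.k s C.b) := by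
      unfold a b
      ring
    rw [r5]
    linarith only [r1, r2, r3, r4]

theorem cs_part2 {l : ℝ} (hl : 0 < l) :
    ∫ s in (0:ℝ)..(2*π), ‖C.hh φ s‖ * C.nn s ≤
    l / 2 * (15 / (28 * C.κ)) * C.Y + C.G / (2 * l) *
      ((1 - C.τ) * D.Dr (fun s => ‖C.hh φ s‖ ^ 2) C.ta +
        C.τ * D.Dr (fun s => ‖C.hh φ s‖ ^ 2) C.tb) := by
  have hA := C.continuous_mA
  have hB := C.continuous_mB
  have hN := C.continuous_nn
  have hc := C.continuous_hh hφ
  have hpt : ∀ r : ℝ, r ≤ l / 2 + r ^ 2 / (2 * l) := by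
    intro r
    have : 0 ≤ (r - l) ^ 2 / (2 * l) := by (clear * - hl; positivity)
    have h2 : (r - l) ^ 2 / (2 * l) = l / 2 + r ^ 2 / (2 * l) - r := by
      field_simp
      ring
    linarith only [this, h2]
  have hi1 := D.intervalIntegrable_mul_k (w := fun s => ‖C.hh φ s‖ ^ 2)
    (hc.norm.pow 2) C.ta 0 (2*π)
  have hi2 := D.intervalIntegrable_mul_k (w := fun s => ‖C.hh φ s‖ ^ 2)
    (hc.norm.pow 2) C.tb 0 (2*π)
  have e1 : l / 2 * (15 / (28 * C.κ)) * C.Y + C.G / (2 * l) *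
      ((1 - C.τ) * D.Dr (fun s => ‖C.hh φ s‖ ^ 2) C.ta +
        C.τ * D.Dr (fun s => ‖C.hh φ s‖ ^ 2) C.tb) =
      ∫ s in (0:ℝ)..(2*π), (l / 2 * (15 / (28 * C.κ)) * (C.mA s + C.mB s) + C.G / (2 * l) *
        ((1 - C.τ) * (‖C.hh φ s‖ ^ 2 * D.k s (D.sig C.ta)) +
        C.τ * (‖C.hh φ s‖ ^ 2 * D.k s (D.sig C.tb)))) := by
    unfold Y Dom.Dr
    rw [← intervalIntegral.integral_const_mul, ← intervalIntegral.integral_const_mul,
      ← intervalIntegral.integral_const_mul,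
      ← intervalIntegral.integral_add (hi1.const_mul _) (hi2.const_mul _),
      ← intervalIntegral.integral_const_mul, ← intervalIntegral.integral_add]
    · exact (continuous_const.mul (hA.add hB)).intervalIntegrable _ _
    · exact ((hi1.const_mul _).add (hi2.const_mul _)).const_mul _
  rw [e1]
  apply intervalIntegral.integral_mono_on Real.two_pi_pos.le
  · exact (hc.norm.mul hN).intervalIntegrable _ _
  · exact ((continuous_const.mul (hA.add hB)).intervalIntegrable _ _).add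
      (((hi1.const_mul _).add (hi2.const_mul _)).const_mul _)
  · intro s _
    have a1 := C.nn_nonneg s
    have a2 := C.nn_le s
    have a3 := C.nn_le' s
    have r1 := mul_le_mul_of_nonneg_right (hpt ‖C.hh φ s‖) a1
    have r3 : ‖C.hh φ s‖ ^ 2 / (2 * l) * C.nn s ≤
        ‖C.hh φ s‖ ^ 2 / (2 * l) * (C.G * ((1 - C.τ) * D.k s C.a + C.τ * D.k s C.b)) := by
      (clear * - a2 hl; gcongr)
    have r4 : l / 2 * C.nn s ≤ l / 2 * (15 / (28 * C.κ) * (C.mA s + C.mB s)) := by gcongr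
    have r5 : C.G / (2 * l) * ((1 - C.τ) * (‖C.hh φ s‖ ^ 2 * D.k s (D.sig C.ta)) +
        C.τ * (‖C.hh φ s‖ ^ 2 * D.k s (D.sig C.tb))) =
        ‖C.hh φ s‖ ^ 2 / (2 * l) * (C.G * ((1 - C.τ) * D.k s C.a + C.τ * D.k s C.b)) := by
      unfold a b
      ring
    rw [r5]
    linarith

end Chord

end Vale.Agent.P123
end
end

section

section

namespace Vale.Agent.P123

open Complex MeasureTheory Set intervalIntegral
open scoped Real ComplexConjugate

/-- auxiliary inequality -/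
theorem sq_aux {X r d : ℝ} (h0 : 0 ≤ X) (h : X ≤ 2 * r + 2 * d) :
    X ^ 2 ≤ 21 / 5 * r ^ 2 + 84 * d ^ 2 := by
  have h1 : X ^ 2 ≤ (2 * r + 2 * d) ^ 2 := by gcongr
  nlinarith [sq_nonneg (r - 20 * d)]

namespace Dom

variable (D : Dom)

theorem Dr_affine {f : ℝ → ℝ} (hf : Continuous f) (c1 c2 t : ℝ) :
    D.Dr (fun s => c1 * f s + c2) t = c1 * D.Dr f t + c2 := by
  have e1 := D.Dr_const c2 t
  rw [← e1]
  unfold Dr
  rw [← intervalIntegral.integral_const_mul (μ := volume) c1,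
    ← intervalIntegral.integral_add]
  · apply intervalIntegral.integral_congr
    intro s _
    simp only [intervalIntegral.integral_const_mul, D.integral_k_sig]
    ring
  · exact (D.intervalIntegrable_mul_k hf t _ _).const_mul _
  · exact D.intervalIntegrable_mul_k continuous_const t _ _

end Dom

namespace BV

variable {D : Dom} {φ : ℝ → ℂ} (hφ : BV D φ)

include hφ

theorem one_sub_norm_le (t : ℝ) : 1 - ‖φ t‖ ≤ D.w1 φ t := by
  have h1 : |(φ t * conj (D.Dc φ t)).re| ≤ ‖φ t * conj (D.Dc φ t)‖ := Complex.abs_re_le_norm _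
  rw [norm_mul, RCLike.norm_conj] at h1
  have h2 := hφ.norm_Dc_le t
  have h3 : ‖φ t‖ * ‖D.Dc φ t‖ ≤ ‖φ t‖ := by
    calc _ ≤ ‖φ t‖ * 1 := by gcongr
      _ = _ := mul_one _
  unfold Dom.w1
  have := neg_le_of_abs_le h1
  linarith

/-- averages of a square around `sig t` compared with the value `-c` -/
theorem Dr_sq_shift_le (t : ℝ) (c : ℂ) :
    D.Dr (fun s => ‖φ s - c‖ ^ 2) t ≤ 3 * (D.w1 φ t + ‖c + φ t‖ ^ 2) := by
  have hc := hφ.cont
  have h1 : ∀ s, ‖φ s - c‖ ^ 2 ≤ 3 / 2 * ‖φ s + φ t‖ ^ 2 + 3 * ‖c + φ t‖ ^ 2 := by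
    intro s
    have e1 : φ s - c = (φ s + φ t) - (c + φ t) := by ring
    have e2 : ‖φ s - c‖ ≤ ‖φ s + φ t‖ + ‖c + φ t‖ := by
      rw [e1]; exact norm_sub_le _ _
    have e3 : ‖φ s - c‖ ^ 2 ≤ (‖φ s + φ t‖ + ‖c + φ t‖) ^ 2 := by (clear * - e2; gcongr)
    nlinarith only [e3, sq_nonneg (‖φ s + φ t‖ - 2 * ‖c + φ t‖)]
  have h2 := D.Dr_mono (v := fun s => ‖φ s - c‖ ^ 2)
    (w := fun s => 3 / 2 * ‖φ s + φ t‖ ^ 2 + 3 * ‖c + φ t‖ ^ 2)
    ((hc.sub continuous_const).norm.pow 2)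
    ((continuous_const.mul ((hc.add continuous_const).norm.pow 2)).add continuous_const) h1 t
  have h3 : D.Dr (fun s => 3 / 2 * ‖φ s + φ t‖ ^ 2 + 3 * ‖c + φ t‖ ^ 2) t =
      3 / 2 * D.Dr (fun s => ‖φ s + φ t‖ ^ 2) t + 3 * ‖c + φ t‖ ^ 2 := by
    exact D.Dr_affine ((hc.add continuous_const).norm.pow 2) _ _ t
  have h4 := hφ.Dr_sq_le t
  rw [h3] at h2
  linarith only [h2, h4]

end BV

namespace Chord

variable {D : Dom} (C : Chord D) {φ : ℝ → ℂ} (hφ : BV D φ)

include hφ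

theorem norm_hh_le_add (s : ℝ) :
    ‖C.hh φ s‖ ≤ 2 * ‖φ s + φ C.ta‖ + 2 * D.w1 φ C.ta := by
  have h1 : C.hh φ s = conj (φ s + φ C.ta) - conj (φ C.ta) ^ 2 * (φ s + φ C.ta) -
      conj (φ C.ta) * (1 - conj (φ C.ta) * φ C.ta) := by
    unfold hh
    rw [map_add]
    ring
  have hb := hφ.bound C.ta
  have h0 := norm_nonneg (φ C.ta)
  have h2 : conj (φ C.ta) * φ C.ta = ((‖φ C.ta‖ ^ 2 : ℝ) : ℂ) := by
    rw [mul_comm, Complex.mul_conj, Complex.normSq_eq_norm_sq]
  have h3 : ‖conj (φ C.ta) * (1 - conj (φ C.ta) * φ C.ta)‖ ≤ 2 * D.w1 φ C.ta := by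
    rw [h2, norm_mul, RCLike.norm_conj]
    have e1 : (1 : ℂ) - ((‖φ C.ta‖ ^ 2 : ℝ) : ℂ) = ((1 - ‖φ C.ta‖ ^ 2 : ℝ) : ℂ) := by push_cast; ring
    have e2 : 0 ≤ 1 - ‖φ C.ta‖ ^ 2 := by nlinarith
    rw [e1, Complex.norm_real, Real.norm_of_nonneg e2]
    have e3 := hφ.one_sub_norm_le C.ta
    have e4 : 1 - ‖φ C.ta‖ ^ 2 = (1 - ‖φ C.ta‖) * (1 + ‖φ C.ta‖) := by ring
    have e5 : (1 - ‖φ C.ta‖) * (1 + ‖φ C.ta‖) ≤ D.w1 φ C.ta * 2 := by
      apply mul_le_mul e3 (by linarith) (by linarith) (by linarith)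
    calc ‖φ C.ta‖ * (1 - ‖φ C.ta‖ ^ 2) ≤ 1 * (1 - ‖φ C.ta‖ ^ 2) := by gcongr
      _ ≤ _ := by rw [one_mul, e4]; linarith only [e5]
  have h4 : ‖conj (φ C.ta) ^ 2 * (φ s + φ C.ta)‖ ≤ ‖φ s + φ C.ta‖ := by
    rw [norm_mul, norm_pow, RCLike.norm_conj]
    have : ‖φ C.ta‖ ^ 2 ≤ 1 := pow_le_one₀ h0 hb
    calc _ ≤ 1 * ‖φ s + φ C.ta‖ := by gcongr
      _ = _ := one_mul _
  have h5 : ‖conj (φ s + φ C.ta)‖ = ‖φ s + φ C.ta‖ := RCLike.norm_conj _
  rw [h1]
  calc _ ≤ ‖conj (φ s + φ C.ta) - conj (φ C.ta) ^ 2 * (φ s + φ C.ta)‖ +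
        ‖conj (φ C.ta) * (1 - conj (φ C.ta) * φ C.ta)‖ := norm_sub_le _ _
    _ ≤ ‖conj (φ s + φ C.ta)‖ + ‖conj (φ C.ta) ^ 2 * (φ s + φ C.ta)‖ +
        ‖conj (φ C.ta) * (1 - conj (φ C.ta) * φ C.ta)‖ := by gcongr; exact norm_sub_le _ _
    _ ≤ _ := by rw [h5]; linarith only [h3, h4]

theorem norm_hh_le_sub (s : ℝ) :
    ‖C.hh φ s‖ ≤ 2 * ‖φ s - φ C.ta‖ + 2 * D.w1 φ C.ta := by
  have h1 : C.hh φ s = conj (φ s - φ C.ta) - conj (φ C.ta) ^ 2 * (φ s - φ C.ta) +
      conj (φ C.ta) * (1 - conj (φ C.ta) * φ C.ta) := by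
    unfold hh
    rw [map_sub]
    ring
  have hb := hφ.bound C.ta
  have h0 := norm_nonneg (φ C.ta)
  have h2 : conj (φ C.ta) * φ C.ta = ((‖φ C.ta‖ ^ 2 : ℝ) : ℂ) := by
    rw [mul_comm, Complex.mul_conj, Complex.normSq_eq_norm_sq]
  have h3 : ‖conj (φ C.ta) * (1 - conj (φ C.ta) * φ C.ta)‖ ≤ 2 * D.w1 φ C.ta := by
    rw [h2, norm_mul, RCLike.norm_conj]
    have e1 : (1 : ℂ) - ((‖φ C.ta‖ ^ 2 : ℝ) : ℂ) = ((1 - ‖φ C.ta‖ ^ 2 : ℝ) : ℂ) := by push_cast; ring
    have e2 : 0 ≤ 1 - ‖φ C.ta‖ ^ 2 := by nlinarith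
    rw [e1, Complex.norm_real, Real.norm_of_nonneg e2]
    have e3 := hφ.one_sub_norm_le C.ta
    have e4 : 1 - ‖φ C.ta‖ ^ 2 = (1 - ‖φ C.ta‖) * (1 + ‖φ C.ta‖) := by ring
    have e5 : (1 - ‖φ C.ta‖) * (1 + ‖φ C.ta‖) ≤ D.w1 φ C.ta * 2 := by
      apply mul_le_mul e3 (by linarith only [hb]) (by linarith only [h0]) (by linarith only [hb, e3])
    calc ‖φ C.ta‖ * (1 - ‖φ C.ta‖ ^ 2) ≤ 1 * (1 - ‖φ C.ta‖ ^ 2) := by gcongr
      _ ≤ _ := by rw [one_mul, e4]; linarith only [e5]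
  have h4 : ‖conj (φ C.ta) ^ 2 * (φ s - φ C.ta)‖ ≤ ‖φ s - φ C.ta‖ := by
    rw [norm_mul, norm_pow, RCLike.norm_conj]
    have : ‖φ C.ta‖ ^ 2 ≤ 1 := pow_le_one₀ h0 hb
    calc _ ≤ 1 * ‖φ s - φ C.ta‖ := by (clear * - this; gcongr)
      _ = _ := one_mul _
  have h5 : ‖conj (φ s - φ C.ta)‖ = ‖φ s - φ C.ta‖ := RCLike.norm_conj _
  rw [h1]
  calc _ ≤ ‖conj (φ s - φ C.ta) - conj (φ C.ta) ^ 2 * (φ s - φ C.ta)‖ +
        ‖conj (φ C.ta) * (1 - conj (φ C.ta) * φ C.ta)‖ := norm_add_le _ _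
    _ ≤ ‖conj (φ s - φ C.ta)‖ + ‖conj (φ C.ta) ^ 2 * (φ s - φ C.ta)‖ +
        ‖conj (φ C.ta) * (1 - conj (φ C.ta) * φ C.ta)‖ := by gcongr; exact norm_sub_le _ _
    _ ≤ _ := by rw [h5]; linarith only [h3, h4]

theorem Dr_hh_ta : D.Dr (fun s => ‖C.hh φ s‖ ^ 2) C.ta ≤
    42 / 5 * D.w1 φ C.ta + 84 * D.w1 φ C.ta ^ 2 := by
  have hc := hφ.cont
  have h1 : ∀ s, ‖C.hh φ s‖ ^ 2 ≤ 21 / 5 * ‖φ s + φ C.ta‖ ^ 2 + 84 * D.w1 φ C.ta ^ 2 :=
    fun s => sq_aux (norm_nonneg _) (C.norm_hh_le_add hφ s)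
  have hcc : Continuous (fun s => ‖φ s + φ C.ta‖ ^ 2) := (hc.add continuous_const).norm.pow 2
  have h2 := D.Dr_mono (v := fun s => ‖C.hh φ s‖ ^ 2)
    (w := fun s => 21 / 5 * ‖φ s + φ C.ta‖ ^ 2 + 84 * D.w1 φ C.ta ^ 2)
    ((C.continuous_hh hφ).norm.pow 2)
    ((continuous_const.mul hcc).add continuous_const) h1 C.ta
  rw [D.Dr_affine hcc] at h2
  have h4 := hφ.Dr_sq_le C.ta
  linarith only [h2, h4]

theorem Dr_hh_tb : D.Dr (fun s => ‖C.hh φ s‖ ^ 2) C.tb ≤
    63 / 5 * (D.w1 φ C.tb + ‖φ C.ta + φ C.tb‖ ^ 2) + 84 * D.w1 φ C.ta ^ 2 := by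
  have hc := hφ.cont
  have h1 : ∀ s, ‖C.hh φ s‖ ^ 2 ≤ 21 / 5 * ‖φ s - φ C.ta‖ ^ 2 + 84 * D.w1 φ C.ta ^ 2 :=
    fun s => sq_aux (norm_nonneg _) (C.norm_hh_le_sub hφ s)
  have hcc : Continuous (fun s => ‖φ s - φ C.ta‖ ^ 2) := (hc.sub continuous_const).norm.pow 2
  have h2 := D.Dr_mono (v := fun s => ‖C.hh φ s‖ ^ 2)
    (w := fun s => 21 / 5 * ‖φ s - φ C.ta‖ ^ 2 + 84 * D.w1 φ C.ta ^ 2)
    ((C.continuous_hh hφ).norm.pow 2)
    ((continuous_const.mul hcc).add continuous_const) h1 C.tb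
  rw [D.Dr_affine hcc] at h2
  have h4 := hφ.Dr_sq_shift_le C.tb (φ C.ta)
  linarith

/-- the nice chord inequality -/
theorem quad (hκ1 : C.κ ≤ 1 / 20) :
    C.κ ^ 5 / 6 ≤ D.w1 φ C.ta + D.w1 φ C.tb + ‖φ C.ta + φ C.tb‖ ^ 2 := by
  by_contra hcon
  rw [not_le] at hcon
  set wa := D.w1 φ C.ta with hwa
  set wb := D.w1 φ C.tb with hwb
  set g := ‖φ C.ta + φ C.tb‖ ^ 2 with hg
  have hκ := C.κ0
  have hwa0 : 0 ≤ wa := hφ.w1_nonneg _
  have hwb0 : 0 ≤ wb := hφ.w1_nonneg _
  have hg0 : 0 ≤ g := by (clear * -; positivity)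
  have hκ5 : C.κ ^ 5 ≤ (1 / 20) ^ 5 := by gcongr
  have hwa1 : wa ≤ 1 / 10000 := by
    have : C.κ ^ 5 / 6 ≤ 1 / 10000 := by
      calc _ ≤ (1 / 20 : ℝ) ^ 5 / 6 := by (clear * - hκ5; gcongr)
        _ ≤ _ := by norm_num
    linarith only [hcon, hwb0, hg0, hκ5]
  have h1 := C.norm_mul_Y_le hφ
  have h2 := C.cs_part hφ (l := 1 / 5) (by norm_num)
  have h3 := C.cs_part2 hφ (l := 42 / 25 * C.κ) (by (clear * - hκ; positivity))
  have h4 := hφ.one_sub_norm_le C.ta
  have h5 := hφ.Dr_sq_le C.ta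
  have h6 := hφ.Dr_sq_shift_le C.tb (φ C.ta)
  have h7 := C.Dr_hh_ta hφ
  have h8 := C.Dr_hh_tb hφ
  rw [← hwa] at h4 h5 h7 h8
  rw [← hwb, ← hg] at h6 h8
  have hY := C.Y_ge hκ1
  have hY0 : 0 ≤ C.Y := le_trans (by positivity) hY
  set W := wa + wb + g with hW
  have h9 : 84 * wa ^ 2 ≤ 1 / 100 * W := by nlinarith
  have h10 : (1 - C.τ) * D.Dr (fun s => ‖C.hh φ s‖ ^ 2) C.ta +
        C.τ * D.Dr (fun s => ‖C.hh φ s‖ ^ 2) C.tb ≤ 1261 / 100 * W := by
    have e1 : D.Dr (fun s => ‖C.hh φ s‖ ^ 2) C.ta ≤ 1261 / 100 * W := by linarith only [hwa0, hwb0, hg0, h7, h9]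
    have e2 : D.Dr (fun s => ‖C.hh φ s‖ ^ 2) C.tb ≤ 1261 / 100 * W := by linarith only [hwa0, h8, h9]
    have t0 := C.τ0
    have t1 : 0 ≤ 1 - C.τ := by linarith only [C.τ1]
    calc _ ≤ (1 - C.τ) * (1261 / 100 * W) + C.τ * (1261 / 100 * W) := by (clear * - e1 t1 e2 t0; gcongr)
      _ = _ := by ring
  have h11 : D.Dr (fun s => ‖φ s + φ C.ta‖ ^ 2) C.ta +
      D.Dr (fun s => ‖φ s - φ C.ta‖ ^ 2) C.tb ≤ 3 * W := by linarith only [hwa0, h5, h6]
  have hE0 : 0 ≤ C.E := by unfold E; positivity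
  have hG0 : 0 ≤ C.G := by unfold G; positivity
  have h12 : C.E / (2 * (1 / 5)) * (D.Dr (fun s => ‖φ s + φ C.ta‖ ^ 2) C.ta +
      D.Dr (fun s => ‖φ s - φ C.ta‖ ^ 2) C.tb) ≤ 15 / 2 * C.E * W := by
    calc _ ≤ C.E / (2 * (1 / 5)) * (3 * W) := by (clear * - h11 hE0; gcongr)
      _ = _ := by ring
  have h13 : C.G / (2 * (42 / 25 * C.κ)) * ((1 - C.τ) * D.Dr (fun s => ‖C.hh φ s‖ ^ 2) C.ta +
        C.τ * D.Dr (fun s => ‖C.hh φ s‖ ^ 2) C.tb) ≤ C.G / (2 * (42 / 25 * C.κ)) *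
        (1261 / 100 * W) := by (clear * - h10 hG0 hκ; gcongr)
  have h14 : 42 / 25 * C.κ / 2 * (15 / (28 * C.κ)) = 9 / 20 := by field_simp; norm_num
  rw [h14] at h3
  have h15 : ‖φ C.ta‖ * C.Y ≥ 9999 / 10000 * C.Y := by
    have : 9999 / 10000 ≤ ‖φ C.ta‖ := by linarith only [hwb0, hg0, hκ5, h4, hcon]
    exact mul_le_mul_of_nonneg_right this hY0
  have h16 : 4499 / 10000 * C.Y ≤ 15 / 2 * C.E * W + C.G / (2 * (42 / 25 * C.κ)) *
      (1261 / 100 * W) := by
    (clear * - h1 h2 h3 h12 h13 h15; linarith)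
  have hκE : C.κ ^ 2 * C.E ≤ 42075 / 10000 := by
    have : C.κ ^ 2 * C.E = 3 * C.κ ^ 2 + 4 * C.κ + 4 := by unfold E; (clear * - hκ; field_simp)
    rw [this]; nlinarith only [hκ1, hκ]
  have hκG : C.κ ^ 2 * C.G ≤ 2075 / 1000 := by
    have : C.κ ^ 2 * C.G = 3 / 2 * C.κ + 2 := by unfold G; (clear * - hκ; field_simp)
    rw [this]; linarith only [hκ1]
  have hW0 : 0 ≤ W := by (clear * - hwa0 hwb0; positivity)
  have h17 : C.κ ^ 3 * (15 / 2 * C.E * W + C.G / (2 * (42 / 25 * C.κ)) * (1261 / 100 * W)) ≤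
      937 / 100 * W := by
    have e1 : C.κ ^ 3 * (15 / 2 * C.E * W + C.G / (2 * (42 / 25 * C.κ)) * (1261 / 100 * W)) =
      (15 / 2 * C.κ * (C.κ ^ 2 * C.E) + 25 / 84 * (1261 / 100) * (C.κ ^ 2 * C.G)) * W := by
      field_simp
      ring
    rw [e1]
    apply mul_le_mul_of_nonneg_right _ hW0
    have e2 : 15 / 2 * C.κ * (C.κ ^ 2 * C.E) ≤ 15 / 2 * (1 / 20) * (42075 / 10000) := by
      (clear * - hκ1 hκE hκ hE0; gcongr)
    have e3 : 25 / 84 * (1261 / 100) * (C.κ ^ 2 * C.G) ≤ 25 / 84 * (1261 / 100) * (2075 / 1000) := by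
      (clear * - hκG; gcongr)
    norm_num at e2 e3 ⊢
    linarith only [hκG, e2]
  have h18 : C.κ ^ 3 * (4499 / 10000 * (37 / 10 * C.κ ^ 2)) ≤ 937 / 100 * W := by
    calc _ ≤ C.κ ^ 3 * (4499 / 10000 * C.Y) := by (clear * - hY hκ; gcongr)
      _ ≤ _ := (mul_le_mul_of_nonneg_left h16 (by positivity)).trans h17
  have h19 : 0 < C.κ ^ 5 := by positivity
  linarith

end Chord

end Vale.Agent.P123
end
end

section

section

namespace Vale.Agent.P123

open Complex MeasureTheory Set Filter Topology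
open scoped Real

/-- Lemma A, given the quadratic chord lemma with constant `q`. -/
theorem lemmaA_of_quad {D : Dom} {φ : ℝ → ℂ} (hφ : BV D φ) {q : ℝ} (hq : 0 < q)
    (hchord : ∀ ta tb, D.Deep ta tb →
      q ≤ D.w1 φ ta + D.w1 φ tb + ‖φ ta + φ tb‖ ^ 2) (t0 : ℝ) :
    432 / 1000000 * q ≤ 3 * D.Dr (D.w1 φ) t0 + 1 * D.Dr (D.Dr (D.w1 φ)) t0 := by
  have hw := hφ.continuous_w1
  have hwp := hφ.w1_periodic
  have hw0 := hφ.w1_nonneg
  have hDw := hφ.continuous_Dr_w1
  have hDwp := D.Dr_periodic (D.w1 φ)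
  have hDw0 : ∀ t, 0 ≤ D.Dr (D.w1 φ) t := fun t => D.Dr_nonneg hw0 t
  obtain ⟨s1, s2, a1, a2, a3, a4, a5⟩ := D.exists_good_arc t0
  -- pointwise estimate on the first arc
  have key : ∀ ta ∈ Icc s1 s2, q * (24 / 1000) ≤ 3 * D.w1 φ ta + 1 * D.Dr (D.w1 φ) ta := by
    intro ta hta
    obtain ⟨r1, r2, b1, b2, b3, b4, b5⟩ := a5 ta hta
    let Q : ℝ → ℝ := fun tb => (D.w1 φ ta + (D.w1 φ tb + ‖φ tb + φ ta‖ ^ 2))
    have hQc1 : Continuous (fun tb => ‖φ tb + φ ta‖ ^ 2) :=
      (hφ.cont.add continuous_const).norm.pow 2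
    have hQc : Continuous Q := continuous_const.add (hw.add hQc1)
    have hQp : ∀ s, Q (s + 2 * π) = Q s := by
      intro s; simp only [Q]; rw [hwp, hφ.per]
    have hQ0 : ∀ s, 0 ≤ Q s := by
      intro s
      have := hw0 ta
      have := hw0 s
      simp only [Q]; (clear q hq hchord t0 hw hwp hDw hDwp hDw0 s1 s2 a1 a2 a3 a4 a5 hta r1 r2 b1 b2 b3 b4 b5 Q hQc1 hQc hQp; positivity)
    have h1 : q * (24 / 1000) ≤ D.Dr Q ta := by
      apply D.Dr_ge_arc hQc hQp hQ0 ta r1 r2 q (24 / 1000) hq.le b1.le b2 b3.le b4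
      intro tb htb
      have h2 := hchord ta tb (b5 tb htb)
      have h5 : ‖φ tb + φ ta‖ = ‖φ ta + φ tb‖ := by rw [add_comm]
      simp only [Q]
      rw [h5]
      linarith only [h2]
    have h2 : D.Dr Q ta = (D.w1 φ ta + (D.Dr (D.w1 φ) ta +
        D.Dr (fun s => ‖φ s + φ ta‖ ^ 2) ta)) := by
      rw [← D.Dr_add hw hQc1]
      have hQc2 : Continuous (fun tb => D.w1 φ tb + ‖φ tb + φ ta‖ ^ 2) := hw.add hQc1
      have e2 := D.Dr_add (v := fun _ => D.w1 φ ta) continuous_const hQc2 ta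
      rw [D.Dr_const] at e2
      exact e2
    have h3 := hφ.Dr_sq_le ta
    rw [h2] at h1
    linarith only [h1, h3]
  have hc1 : Continuous (fun t => 3 * D.w1 φ t) := continuous_const.mul hw
  have hc2 : Continuous (fun t => 1 * D.Dr (D.w1 φ) t) := continuous_const.mul hDw
  have h6 := D.Dr_ge_arc (w := fun t => 3 * D.w1 φ t + 1 * D.Dr (D.w1 φ) t) (hc1.add hc2)
    (fun s => by rw [hwp, hDwp]) (fun s => by
      have := hw0 s
      have := hDw0 s
      (clear q hq hchord t0 hw hwp hDw hDwp s1 s2 a1 a2 a3 a4 a5 key hc1 hc2; positivity)) t0 s1 s2 (q * (24 / 1000)) (18 / 1000) (by positivity) a1.le a2 a3.le a4 key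
  rw [D.Dr_add hc1 hc2, D.Dr_const_mul, D.Dr_const_mul] at h6
  linarith only [h6]

/-- Lemma A: the function theoretic heart of the improvement. -/
theorem lemmaA {D : Dom} {φ : ℝ → ℂ} (hφ : BV D φ) (t0 : ℝ) :
    432 / 1000000 * ((1 / 20) ^ 5 / 6) ≤
      3 * D.Dr (D.w1 φ) t0 + 1 * D.Dr (D.Dr (D.w1 φ)) t0 := by
  apply lemmaA_of_quad hφ (by norm_num)
  intro ta tb hd
  obtain ⟨hne, τ, hτ0, hτ1, hgap⟩ := hd
  let C : Chord D :=
    { ta := ta
      tb := tb
      τ := τ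
      κ := 1 / 20
      τ0 := hτ0
      τ1 := hτ1
      κ0 := by norm_num
      ne := fun h => hne h.symm
      hgap := fun t => by
        have h1 := hgap t
        have h2 := norm_nonneg (D.sig tb - D.sig ta)
        linarith }
  exact C.quad hφ le_rfl

end Vale.Agent.P123
end
end

section

section

/-!
Assembly: a pointwise lower bound for the iterated double layer averages of boundary values
of analytic functions gives a bound for the constant in the numerical range inequality.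
-/

namespace Vale.Agent.P123
open Complex MeasureTheory Set Filter Topology Polynomial
open scoped Real ComplexConjugate

namespace Dom
variable {D : Dom}
variable {H : Type*} [NormedAddCommGroup H] [InnerProductSpace ℂ H]

theorem bd_periodic (s : ℝ) : D.bd (s + 2 * π) = D.bd s :=
  Subtype.ext (D.sig_periodic s)

/-- the relation between `f` and `α f`, both in the algebra -/
def rel (A : H →L[ℂ] H) (f g : C(D.K, ℂ)) : Prop :=
  (∃ T : H →L[ℂ] H, (g, T) ∈ D.S A) ∧
    ∀ t, g (D.bd t) = conj (∫ s in (0:ℝ)..(2*π), f (D.bd s) * (D.k s (D.sig t) : ℂ))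

theorem bv_of_mem {A : H →L[ℂ] H} {x : C(D.K, ℂ) × (H →L[ℂ] H)} (hx : x ∈ D.S A)
    (h1 : ‖x.1‖ ≤ 1) : BV D (fun s => x.1 (D.bd s)) where
  cont := x.1.continuous.comp D.continuous_bd
  per := fun s => by rw [bd_periodic]
  bound := fun s => (x.1.norm_coe_le_norm _).trans h1
  cauchy := fun _ hp => S_integral_N_eq_zero hx hp

/-- real part of a layer average -/
theorem one_add_re_conj_integral {f : ℝ → ℂ} (hf : Continuous f) (t : ℝ) :
    1 + (conj (∫ s in (0:ℝ)..(2*π), f s * (D.k s (D.sig t) : ℂ))).re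
      = D.Dr (fun s => 1 + (f s).re) t := by
  have hint : IntervalIntegrable (fun s => f s * (D.k s (D.sig t) : ℂ)) volume 0 (2*π) :=
    (D.intervalIntegrable_k_sig_ofReal t).continuousOn_mul hf.continuousOn
  have h1 := Complex.reCLM.intervalIntegral_comp_comm hint
  simp only [Complex.reCLM_apply, Complex.re_mul_ofReal] at h1
  have hfr : Continuous fun s => (f s).re := Complex.continuous_re.comp hf
  rw [Complex.conj_re, ← h1, Dr]
  have h2 : ∀ s, (1 + (f s).re) * D.k s (D.sig t)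
      = D.k s (D.sig t) + (f s).re * D.k s (D.sig t) := fun s => by ring
  simp_rw [h2]
  rw [intervalIntegral.integral_add (D.intervalIntegrable_k_sig t)
    ((D.intervalIntegrable_k_sig t).continuousOn_mul hfr.continuousOn), D.integral_k_sig]

variable [CompleteSpace H]

theorem exists_rel {A : H →L[ℂ] H} {η : ℝ} (hA : D.Inside A η)
    {x : C(D.K, ℂ) × (H →L[ℂ] H)} (hx : x ∈ D.S A) :
    ∃ y ∈ D.S A, rel A x.1 y.1 ∧ ‖y.1‖ ≤ ‖x.1‖ ∧
      x.2 + ContinuousLinearMap.adjoint y.2 = SInt D.bd (D.M A) x.1 := by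
  refine ⟨alpha hA hx, alpha_mem hA hx, ⟨⟨_, alpha_mem hA hx⟩, alpha_bd hA hx⟩,
    norm_alpha_le hA hx fun s => x.1.norm_coe_le_norm _, ?_⟩
  have h := alpha_add hA hx
  rw [ContinuousLinearMap.star_eq_adjoint] at h
  exact h

omit [CompleteSpace H] in
/-- the pointwise bound inside from the bound on the boundary -/
theorem layer_inside {c1 c2 ε0 : ℝ}
    (hlay : ∀ φ : ℝ → ℂ, BV D φ →
      ∀ t, ε0 ≤ c1 * D.Dr (D.w1 φ) t + c2 * D.Dr (D.Dr (D.w1 φ)) t)
    {A : H →L[ℂ] H} {p : C(D.K, ℂ) × (H →L[ℂ] H)} (hp : p ∈ D.S A) (hp1 : ‖p.1‖ ≤ 1)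
    {g u1 u2 : C(D.K, ℂ)} (hg : rel A p.1 g) (hu1 : rel A (g * p.1) u1) (hu2 : rel A u1 u2)
    (z : D.K) : ε0 ≤ c1 * (1 + (u1 z).re) + c2 * (1 + (u2 z).re) := by
  have hbv := bv_of_mem hp hp1
  obtain ⟨⟨T1, hT1⟩, hb1⟩ := hu1
  obtain ⟨⟨T2, hT2⟩, hb2⟩ := hu2
  have e0 : ∀ t, 1 + ((g * p.1) (D.bd t)).re = D.w1 (fun s => p.1 (D.bd s)) t := by
    intro t
    rw [ContinuousMap.mul_apply, hg.2 t, w1, Dc, mul_comm]
  have hc0 : Continuous fun s => (g * p.1) (D.bd s) := (g * p.1).continuous.comp D.continuous_bd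
  have hc1 : Continuous fun s => u1 (D.bd s) := u1.continuous.comp D.continuous_bd
  have e1 : ∀ t, 1 + (u1 (D.bd t)).re = D.Dr (D.w1 (fun s => p.1 (D.bd s))) t := by
    intro t
    rw [hb1 t, one_add_re_conj_integral hc0 t]
    congr 1
    funext s
    exact e0 s
  have e2 : ∀ t, 1 + (u2 (D.bd t)).re = D.Dr (D.Dr (D.w1 (fun s => p.1 (D.bd s)))) t := by
    intro t
    rw [hb2 t, one_add_re_conj_integral hc1 t]
    congr 1
    funext s
    exact e1 s
  have hmem : ((c1 : ℂ) • u1 + (c2 : ℂ) • u2, (c1 : ℂ) • T1 + (c2 : ℂ) • T2) ∈ D.S A :=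
    add_mem_S (smul_mem_S hT1 c1) (smul_mem_S hT2 c2)
  have hre : ∀ z : D.K, (((c1 : ℂ) • u1 + (c2 : ℂ) • u2) z).re
      = c1 * (u1 z).re + c2 * (u2 z).re := by
    intro z
    rw [ContinuousMap.add_apply, ContinuousMap.smul_apply, ContinuousMap.smul_apply,
      Complex.add_re, smul_eq_mul, smul_eq_mul, Complex.re_ofReal_mul, Complex.re_ofReal_mul]
  have h1 := S_le_re hmem (c := ε0 - c1 - c2) (fun s => by
    show ε0 - c1 - c2 ≤ (((c1 : ℂ) • u1 + (c2 : ℂ) • u2) (D.bd s)).re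
    rw [hre]
    have h2 := hlay _ hbv s
    rw [← e1 s, ← e2 s] at h2
    linarith) z
  have h3 : ε0 - c1 - c2 ≤ (((c1 : ℂ) • u1 + (c2 : ℂ) • u2) z).re := h1
  rw [hre] at h3
  linarith only [h3]

/-- the bound for a smooth domain -/
theorem bound_of_layer {c1 c2 ε0 : ℝ} (hc1 : 0 ≤ c1) (hc2 : 0 ≤ c2) (hε0 : 0 ≤ ε0)
    (hlay : ∀ φ : ℝ → ℂ, BV D φ →
      ∀ t, ε0 ≤ c1 * D.Dr (D.w1 φ) t + c2 * D.Dr (D.Dr (D.w1 φ)) t)
    {C : ℝ} (hC : 12 / 5 ≤ C)
    (hC2 : ∀ κ : ℝ, 12 / 5 ≤ κ →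
      ε0 ≤ (278 / 100 * c1 + 712 / 100 * c2) * (1 + 2 * κ - κ ^ 2) → κ ≤ C)
    {A : H →L[ℂ] H} {η : ℝ} (hA : D.Inside A η) (P : ℂ[X]) {m : ℝ}
    (hm : ∀ z ∈ D.K, ‖P.eval z‖ ≤ m) : ‖aeval A P‖ ≤ C * m := by
  obtain ⟨κ, hκ0, hκ1, hκ2⟩ := op_core (D.S A) D.continuous_bd (continuous_M hA)
    (isPositive_M hA) (integral_M hA) (rel A)
    (by
      obtain ⟨kap, -, h⟩ := S_norm_snd_le hA
      exact ⟨kap, h⟩)
    (fun p hp => exists_rel hA hp) c1 c2 ε0 hc1 hc2 hε0
    (fun p hp hp1 g u1 u2 hg hu1 hu2 z => layer_inside hlay hp hp1 hg hu1 hu2 z)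
  have hκC : κ ≤ C := by
    rcases hκ2 with h | h
    · exact h.trans hC
    · by_cases h12 : κ ≤ 12 / 5
      · exact h12.trans hC
      · exact hC2 κ (not_le.1 h12).le h
  obtain ⟨x, hx, hx1, hx2⟩ := poly_mem_S (D := D) A P
  have hm0 : 0 ≤ m := (norm_nonneg _).trans (hm _ (D.sig_mem_K 0))
  have hxm : ‖x.1‖ ≤ m := by
    rw [ContinuousMap.norm_le _ hm0]
    intro z
    rw [hx1]
    exact hm z z.2
  rw [← hx2]
  calc ‖x.2‖ ≤ κ * ‖x.1‖ := hκ1 x hx
    _ ≤ κ * m := mul_le_mul_of_nonneg_left hxm hκ0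
    _ ≤ C * m := mul_le_mul_of_nonneg_right hκC hm0

end Dom

/-- Reduction of the uniform bound to the layer potential inequality. -/
theorem uniform_bound_of_layer {c1 c2 ε0 : ℝ} (hc1 : 0 ≤ c1) (hc2 : 0 ≤ c2) (hε0 : 0 ≤ ε0)
    (hlay : ∀ (D : Dom) (φ : ℝ → ℂ), BV D φ →
      ∀ t, ε0 ≤ c1 * D.Dr (D.w1 φ) t + c2 * D.Dr (D.Dr (D.w1 φ)) t)
    {C : ℝ} (hC : 12 / 5 ≤ C)
    (hC2 : ∀ κ : ℝ, 12 / 5 ≤ κ →
      ε0 ≤ (278 / 100 * c1 + 712 / 100 * c2) * (1 + 2 * κ - κ ^ 2) → κ ≤ C)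
    {H : Type*} [NormedAddCommGroup H] [InnerProductSpace ℂ H] [CompleteSpace H] [Nontrivial H]
    (A : H →L[ℂ] H) (P : ℂ[X]) :
    ‖aeval A P‖ ≤ C * sSup ((fun z => ‖P.eval z‖) '' numRange A) :=
  reduction (by linarith) (fun D A _ hη hA P _ hm =>
    Dom.bound_of_layer hc1 hc2 hε0 (hlay D) hC hC2 ⟨hη, hA⟩ P hm) A P

/-- form with an explicit constant -/
theorem uniform_bound_of_layer' {c1 c2 ε0 d : ℝ} (hc1 : 0 ≤ c1) (hc2 : 0 ≤ c2)
    (hd0 : 0 ≤ d) (hd1 : d ≤ 1 / 100)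
    (hd : 3 * d * (278 / 100 * c1 + 712 / 100 * c2) ≤ ε0) (hc : 0 < c1 + c2)
    (hlay : ∀ (D : Dom) (φ : ℝ → ℂ), BV D φ →
      ∀ t, ε0 ≤ c1 * D.Dr (D.w1 φ) t + c2 * D.Dr (D.Dr (D.w1 φ)) t)
    {H : Type*} [NormedAddCommGroup H] [InnerProductSpace ℂ H] [CompleteSpace H] [Nontrivial H]
    (A : H →L[ℂ] H) (P : ℂ[X]) :
    ‖aeval A P‖ ≤ (1 + Real.sqrt 2 - d) * sSup ((fun z => ‖P.eval z‖) '' numRange A) := by
  have hs0 : 0 ≤ Real.sqrt 2 := Real.sqrt_nonneg 2
  have hs2 : Real.sqrt 2 ^ 2 = 2 := Real.sq_sqrt (by norm_num)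
  have hs1 : 1.414 ≤ Real.sqrt 2 := Real.le_sqrt_of_sq_le (by norm_num)
  have hs3 : Real.sqrt 2 ≤ 1.415 := Real.sqrt_le_iff.2 ⟨by norm_num, by norm_num⟩
  have hc0 : 0 < 278 / 100 * c1 + 712 / 100 * c2 := by nlinarith only [hc2, hc]
  have hε0 : 0 ≤ ε0 := le_trans (by (clear * - hd0 hc0; positivity)) hd
  refine uniform_bound_of_layer hc1 hc2 hε0 hlay (by linarith only [hd1, hs1]) (fun κ hκ h => ?_) A P
  have h1 : 3 * d ≤ 1 + 2 * κ - κ ^ 2 := by
    have h2 : (278 / 100 * c1 + 712 / 100 * c2) * (3 * d)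
        ≤ (278 / 100 * c1 + 712 / 100 * c2) * (1 + 2 * κ - κ ^ 2) := by linarith only [hd, h]
    exact le_of_mul_le_mul_left h2 hc0
  by_contra hcon
  push Not at hcon
  nlinarith only [hd0, hs2, h1, hcon, hs3, hs1, hκ]

end Vale.Agent.P123
end
end
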